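import Vale.Agent.P237.Petty.Cor.Grid.N9.LowCert

/-!
# P237: a cell in dimension 9, subdivisions
-/

namespace Vale.Agent.P237.Petty.Cor.Grid.N9.Low

def covers0 : cell.Covers table row0.1 :=
  ⟨(.cut .d 0 (.cut .v 16777216 (.cut .v 8388608 (.cut .v 4194304 (.void 4 ⟨0, 0, 100000, 0, 0, 0, 0, 0, 0, ⟨0, 0⟩, 0⟩ 0 0) (.pos 5 .mm ⟨0, 0, 0, 0, 0, 0, 0, 0, 0, ⟨0, 0⟩, 0⟩ 0 0)) (.cut .d (-8388608) (.cut .v 12582912 (.pos 6 .mm ⟨0, 0, 0, 0, 0, 0, 0, 0, 0, ⟨0, 0⟩, 0⟩ 0 0) (.pos 7 .mm ⟨0, 0, 0, 0, 0, 0, 0, 0, 0, ⟨0, 0⟩, 0⟩ 0 0)) (.cut .v 12582912 (.cut .d (-4194304) (.pos 6 .mm ⟨0, 0, 0, 0, 0, 0, 0, 0, 0, ⟨0, 0⟩, 0⟩ 0 0) (.pos 6 .mm ⟨0, 0, 0, 0, 256924, 0, 0, 0, 0, ⟨0, 0⟩,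 0⟩ 0 0)) (.cut .d (-4194304) (.cut .v 14680064 (.pos 10 .mm ⟨0, 0, 0, 0, 0, 0, 0, 0, 0, ⟨0, 0⟩, 0⟩ 0 0) (.pos 11 .mm ⟨0, 0, 0, 0, 0, 0, 0, 0, 0, ⟨0, 0⟩, 0⟩ 0 0)) (.cut .d (-2097152) (.cut .v 14680064 (.pos 10 .mm ⟨0, 0, 0, 0, 0, 0, 0, 0, 0, ⟨0, 0⟩, 0⟩ 0 0) (.pos 11 .mm ⟨0, 0, 0, 0, 0, 0, 0, 0, 0, ⟨0, 0⟩, 0⟩ 0 0)) (.cut .v 14680064 (.pos 10 .mm ⟨0, 0, 0, 0, 441207, 0, 0, 0, 0, ⟨0, 0⟩, 0⟩ 0 0) (.cut .d (-1048576) (.cut .v 15728640 (.pos 12 .mm ⟨0, 0, 0, 0, 0, 0, 0, 0, 0, ⟨0, 0⟩, 0⟩ 0 0) (.pos 13 .mm ⟨0, 0, 0, 0, 0, 0, 0, 0, 0, ⟨0, 0⟩, 0⟩ 0 0)) (.cut .v 15728640 (.pos 12 .mm ⟨0, 0, 0, 0, 1012959, 0, 0, 0, 0, ⟨0, 0⟩, 0⟩ 0 0) (.cut .l 1416742 (.cut .l 913425 (.cut .d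 (-524288) (.cut .v 16252928 (.pos 14 .mm ⟨0, 0, 0, 0, 0, 0, 0, 0, 0, ⟨0, 0⟩, 0⟩ 0 0) (.pos 15 .mm ⟨0, 0, 0, 0, 0, 0, 0, 0, 0, ⟨0, 0⟩, 0⟩ 0 0)) (.cut .v 16252928 (.pos 14 .mm ⟨0, 0, 0, 0, 0, 0, 0, 0, 0, ⟨0, 0⟩, 0⟩ 0 0) (.pos 15 .mm ⟨0, 0, 0, 0, 0, 0, 0, 0, 0, ⟨0, 0⟩, 0⟩ 0 0))) (.pos 13 .mm ⟨0, 0, 0, 0, 0, 0, 0, 0, 0, ⟨0, 0⟩, 0⟩ 0 0)) (.pos 13 .mm ⟨0, 0, 0, 0, 0, 0, 0, 0, 0, ⟨0, 0⟩, 0⟩ 0 0)))))))))) (.cut .v 25165824 (.cut .v 20971520 (.cut .v 18874368 (.pos 21 .mp ⟨0, 0, 0, 0, 0, 0, 173933, 0, 0, ⟨0, 0⟩, 0⟩ 0 0) (.pos 22 .mp ⟨1530613, 0, 0, 0, 0, 0, 0, 0, 0, ⟨0, 0⟩, 0⟩ 0 0)) (.void 20 ⟨100000, 0, 0, 0, 0, 0, 0, 0, 0, ⟨0, 0⟩, 0⟩ 0 0)) (.void 18 ⟨0, 0, 0, 0, 0, 0,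 100000, 0, 0, ⟨0, 0⟩, 0⟩ 0 0))) (.cut .v 16777216 (.cut .v 8388608 (.cut .v 4194304 (.void 4 ⟨0, 0, 100000, 0, 0, 0, 0, 0, 0, ⟨0, 0⟩, 0⟩ 0 0) (.pos 5 .pm ⟨0, 0, 0, 0, 1205032, 0, 0, 0, 0, ⟨0, 0⟩, 0⟩ 0 0)) (.pos 3 .pm ⟨0, 0, 0, 0, 424883, 0, 0, 408860, 0, ⟨(-1), 16453351⟩, 0⟩ 0 31)) (.cut .v 25165824 (.cut .v 20971520 (.cut .v 18874368 (.cut .d 1494353 (.cut .v 17825792 (.cut .d 747176 (.cut .v 17301504 (.cut .d 373588 (.pos 25 .pp ⟨0, 0, 0, 0, 0, 0, 0, 0, 0, ⟨0, 0⟩, 0⟩ 0 0) (.pos 25 .pp ⟨66330, 0, 0, 0, 0, 0, 0, 580984, 0, ⟨(-1), 16512329⟩, 0⟩ 0 28)) (.pos 26 .pp ⟨1372871, 0, 0, 0, 0, 0, 0, 0, 0, ⟨0, 0⟩, 0⟩ 0 0)) (.pos 23 .pp ⟨854544, 0, 0, 0, 0, 0, 0, 663271,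 530001, ⟨(-1), 16493303⟩, 17033431⟩ 0 29)) (.pos 24 .pp ⟨1425069, 0, 0, 0, 0, 0, 0, 0, 0, ⟨0, 0⟩, 0⟩ 0 0)) (.pos 21 .pp ⟨1472251, 0, 0, 0, 40756, 0, 0, 0, 0, ⟨0, 0⟩, 0⟩ 0 0)) (.cut .d 1494353 (.pos 22 .pp ⟨1530613, 0, 0, 0, 0, 0, 0, 0, 0, ⟨0, 0⟩, 0⟩ 0 0) (.cut .d 2241530 (.pos 22 .pp ⟨2379595, 0, 0, 0, 0, 0, 0, 0, 0, ⟨0, 0⟩, 0⟩ 0 0) (.cut .v 19922944 (.pos 29 .pp ⟨2523518, 0, 0, 0, 0, 0, 0, 0, 0, ⟨0, 0⟩, 0⟩ 0 0) (.void 30 ⟨100000, 0, 0, 0, 0, 0, 0, 0, 0, ⟨0, 0⟩, 0⟩ 0 0))))) (.void 20 ⟨100000, 0, 0, 0, 0, 0, 0, 0, 0, ⟨0, 0⟩, 0⟩ 0 0)) (.void 18 ⟨0, 0, 0, 0, 0, 0, 100000, 0, 0, ⟨0, 0⟩, 0⟩ 0 0)))),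
    by decide +kernel⟩

def covers1 : cell.Covers table row1.1 :=
  ⟨(.cut .d 0 (.cut .v 16777216 (.cut .v 8388608 (.pos 2 .mm ⟨0, 0, 0, 0, 887818996, 918641948, 0, 0, 0, ⟨0, 0⟩, 0⟩ 0 0) (.cut .d (-8388608) (.void 3 ⟨0, 0, 0, 0, 0, 100000, 0, 0, 0, ⟨0, 0⟩, 0⟩ 0 0) (.cut .v 12582912 (.cut .d (-4194304) (.pos 6 .mm ⟨0, 0, 0, 0, 0, 729804, 0, 0, 0, ⟨0, 0⟩, 0⟩ 0 0) (.pos 6 .mm ⟨0, 0, 0, 0, 2885052, 729804, 0, 0, 0, ⟨0, 0⟩, 0⟩ 0 0)) (.cut .d (-4194304) (.pos 7 .mm ⟨0, 0, 0, 0, 0, 810894, 0, 0, 0, ⟨0, 0⟩, 0⟩ 0 0) (.cut .d (-2097152) (.cut .v 14680064 (.pos 10 .mm ⟨0, 0, 0, 0, 0, 851439, 0, 0, 0, ⟨0, 0⟩, 0⟩ 0 0) (.pos 11 .mm ⟨0, 0, 0, 0, 0, 891983, 0, 0, 0, ⟨0, 0⟩, 0⟩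 0 0)) (.cut .v 14680064 (.pos 10 .mm ⟨0, 0, 0, 0, 0, 825219, 0, 0, 0, ⟨0, 0⟩, 0⟩ 0 0) (.cut .d (-1048576) (.cut .v 15728640 (.pos 12 .mm ⟨0, 0, 0, 0, 0, 836518, 0, 0, 0, ⟨0, 0⟩, 0⟩ 0 0) (.pos 13 .mm ⟨0, 0, 0, 0, 0, 0, 0, 0, 0, ⟨0, 0⟩, 0⟩ 0 0)) (.cut .v 15728640 (.pos 12 .mm ⟨0, 0, 0, 0, 0, 0, 0, 0, 0, ⟨0, 0⟩, 0⟩ 0 0) (.cut .d (-524288) (.pos 13 .mm ⟨0, 0, 0, 0, 0, 0, 0, 0, 0, ⟨0, 0⟩, 0⟩ 0 0) (.cut .v 16252928 (.pos 14 .mm ⟨0, 0, 0, 0, 0, 0, 0, 0, 0, ⟨0, 0⟩, 0⟩ 0 0) (.pos 15 .mm ⟨0, 0, 0, 0, 0, 0, 0, 0, 0, ⟨0, 0⟩, 0⟩ 0 0))))))))))) (.cut .v 25165824 (.cut .v 20971520 (.cut .v 18874368 (.pos 21 .mp ⟨56246, 0, 0, 0, 0, 0, 0, 0, 0, ⟨0, 0⟩, 0⟩ 0 0) (.pos 22 .mp ⟨1550565,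 0, 0, 0, 0, 0, 0, 0, 0, ⟨0, 0⟩, 0⟩ 0 0)) (.void 20 ⟨100000, 0, 0, 0, 0, 0, 0, 0, 0, ⟨0, 0⟩, 0⟩ 0 0)) (.void 18 ⟨0, 0, 0, 0, 0, 0, 100000, 0, 0, ⟨0, 0⟩, 0⟩ 0 0))) (.cut .v 16777216 (.cut .v 8388608 (.void 2 ⟨0, 0, 0, 0, 100000, 0, 0, 0, 0, ⟨0, 0⟩, 0⟩ 0 0) (.cut .v 12582912 (.void 6 ⟨0, 0, 0, 0, 100000, 0, 0, 0, 0, ⟨0, 0⟩, 0⟩ 0 0) (.cut .v 14680064 (.void 10 ⟨0, 0, 0, 0, 100000, 0, 0, 0, 0, ⟨0, 0⟩, 0⟩ 0 0) (.cut .d 1911830 (.cut .d 955915 (.cut .v 15728640 (.pos 12 .pm ⟨0, 0, 0, 0, 0, 0, 0, 0, 0, ⟨0, 0⟩, 0⟩ 0 0) (.cut .d 477957 (.cut .v 16252928 (.pos 14 .pm ⟨0, 0, 0, 0, 0, 0, 0, 0, 0, ⟨0, 0⟩, 0⟩ 0 0) (.pos 15 .pm ⟨0, 0, 0, 0, 0, 0, 0, 0, 0, ⟨0, 0⟩, 0⟩ 0 0)) (.pos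 13 .pm ⟨0, 0, 0, 0, 0, 0, 0, 0, 0, ⟨0, 0⟩, 0⟩ 0 0))) (.pos 11 .pm ⟨0, 0, 0, 0, 0, 0, 0, 0, 1476836, ⟨0, 0⟩, 16226390⟩ 0 0)) (.void 11 ⟨0, 0, 0, 0, 0, 0, 0, 0, 100000, ⟨0, 0⟩, 16226390⟩ 0 0))))) (.cut .v 25165824 (.cut .v 20971520 (.cut .d 1911830 (.cut .v 18874368 (.cut .d 955915 (.cut .v 17825792 (.cut .l 1416742 (.cut .l 913425 (.cut .d 477957 (.cut .v 17301504 (.pos 25 .pp ⟨0, 0, 0, 0, 0, 0, 0, 0, 0, ⟨0, 0⟩, 0⟩ 0 0) (.pos 26 .pp ⟨1277323, 0, 0, 0, 0, 0, 0, 0, 0, ⟨0, 0⟩, 0⟩ 0 0)) (.cut .v 17301504 (.pos 25 .pp ⟨0, 0, 0, 0, 0, 0, 0, 380271, 88687, ⟨122113, 15346098⟩, 16906779⟩ 26 49) (.pos 26 .pp ⟨403763, 0, 0, 0, 0, 0, 0, 657192, 304022, ⟨122113, 15346098⟩, 17164973⟩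 26 49))) (.pos 23 .pp ⟨0, 0, 0, 0, 0, 0, 0, 0, 0, ⟨0, 0⟩, 0⟩ 0 0)) (.pos 23 .pp ⟨0, 0, 0, 0, 0, 0, 0, 0, 0, ⟨0, 0⟩, 0⟩ 0 0)) (.pos 24 .pp ⟨1253037, 0, 0, 0, 0, 0, 0, 0, 0, ⟨0, 0⟩, 0⟩ 0 0)) (.cut .v 17825792 (.pos 23 .pp ⟨23678, 0, 0, 0, 0, 0, 0, 823472, 631156, ⟨141058, 15193262⟩, 17033431⟩ 27 52) (.pos 24 .pp ⟨1115728, 0, 0, 0, 0, 0, 0, 105970, 0, ⟨141058, 15193262⟩, 0⟩ 27 52))) (.pos 22 .pp ⟨1456982, 0, 0, 0, 0, 0, 0, 0, 0, ⟨0, 0⟩, 0⟩ 0 0)) (.cut .v 18874368 (.pos 21 .pp ⟨59785, 0, 0, 0, 0, 0, 0, 2236995, 0, ⟨171106, 14947919⟩, 0⟩ 28 57) (.cut .d 2867745 (.pos 22 .pp ⟨1616077, 0, 0, 0, 0, 0, 0, 631892, 0, ⟨157097, 15075997⟩, 0⟩ 28 54) (.cut .s 2359296 (.void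 22 ⟨0, 0, 0, 0, 0, 0, 0, 100000, 0, ⟨129666, 15367150⟩, 0⟩ 30 45) (.pos 22 .pp ⟨755030, 0, 0, 0, 0, 0, 0, 7169768, 0, ⟨294859, 14392115⟩, 0⟩ 42 57))))) (.void 20 ⟨69099, 0, 0, 0, 0, 0, 0, 30901, 0, ⟨155381, 15018545⟩, 0⟩ 26 57)) (.void 18 ⟨0, 0, 0, 0, 0, 0, 100000, 0, 0, ⟨0, 0⟩, 0⟩ 0 0)))),
    by decide +kernel⟩

def covers2 : cell.Covers table row2.1 :=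
  ⟨(.cut .d 0 (.cut .v 16777216 (.cut .v 8388608 (.void 2 ⟨0, 0, 0, 0, 50000, 50000, 0, 0, 0, ⟨0, 0⟩, 0⟩ 0 0) (.cut .d (-8388608) (.void 3 ⟨0, 0, 0, 0, 0, 100000, 0, 0, 0, ⟨0, 0⟩, 0⟩ 0 0) (.cut .d (-4194304) (.void 3 ⟨0, 0, 0, 0, 0, 100000, 0, 0, 0, ⟨0, 0⟩, 0⟩ 0 0) (.cut .v 12582912 (.pos 6 .mm ⟨0, 0, 0, 0, 2380766, 342370, 0, 0, 0, ⟨0, 0⟩, 0⟩ 0 0) (.cut .d (-2097152) (.cut .v 14680064 (.pos 10 .mm ⟨0, 0, 0, 0, 0, 413148, 0, 0, 0, ⟨0, 0⟩, 0⟩ 0 0) (.pos 11 .mm ⟨0, 0, 0, 0, 0, 549872, 0, 0, 0, ⟨0, 0⟩, 0⟩ 0 0)) (.cut .v 14680064 (.pos 10 .mm ⟨0, 0, 0, 0, 0, 399432, 0, 0, 0, ⟨0, 0⟩, 0⟩ 0 0) (.cut .d (-1048576) (.cut .v 15728640 (.pos 12 .mm ⟨0, 0, 0, 0, 0, 418453,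 0, 0, 0, ⟨0, 0⟩, 0⟩ 0 0) (.pos 13 .mm ⟨0, 0, 0, 0, 0, 457536, 0, 0, 0, ⟨0, 0⟩, 0⟩ 0 0)) (.cut .v 15728640 (.pos 12 .mm ⟨0, 0, 0, 0, 0, 427963, 0, 0, 0, ⟨0, 0⟩, 0⟩ 0 0) (.cut .d (-524288) (.pos 13 .mm ⟨0, 0, 0, 0, 0, 233985, 0, 0, 0, ⟨0, 0⟩, 0⟩ 0 0) (.cut .v 16252928 (.pos 14 .mm ⟨0, 0, 0, 0, 0, 0, 0, 0, 0, ⟨0, 0⟩, 0⟩ 0 0) (.pos 15 .mm ⟨0, 0, 0, 0, 0, 0, 0, 0, 0, ⟨0, 0⟩, 0⟩ 0 0))))))))))) (.cut .v 25165824 (.cut .v 20971520 (.pos 19 .mp ⟨33738, 0, 0, 0, 0, 0, 0, 0, 0, ⟨0, 0⟩, 0⟩ 0 0) (.void 20 ⟨100000, 0, 0, 0, 0, 0, 0, 0, 0, ⟨0, 0⟩, 0⟩ 0 0)) (.void 18 ⟨100000, 0, 0, 0, 0, 0, 0, 0, 0, ⟨0, 0⟩, 0⟩ 0 0))) (.cut .v 16777216 (.cut .v 8388608 (.void 2 ⟨0, 0, 0, 0, 100000,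 0, 0, 0, 0, ⟨0, 0⟩, 0⟩ 0 0) (.cut .v 12582912 (.void 6 ⟨0, 0, 0, 0, 100000, 0, 0, 0, 0, ⟨0, 0⟩, 0⟩ 0 0) (.cut .v 14680064 (.pos 10 .pm ⟨0, 0, 0, 0, 0, 0, 0, 0, 505237, ⟨0, 0⟩, 15100357⟩ 0 0) (.cut .d 2270973 (.cut .d 1135486 (.cut .v 15728640 (.pos 12 .pm ⟨0, 0, 0, 0, 0, 0, 0, 0, 0, ⟨0, 0⟩, 0⟩ 0 0) (.cut .d 567743 (.cut .v 16252928 (.pos 14 .pm ⟨0, 0, 0, 0, 0, 0, 0, 0, 0, ⟨0, 0⟩, 0⟩ 0 0) (.cut .d 283871 (.pos 15 .pm ⟨0, 0, 0, 0, 0, 0, 0, 0, 0, ⟨0, 0⟩, 0⟩ 0 0) (.pos 15 .pm ⟨0, 0, 0, 0, 0, 0, 0, 0, 0, ⟨0, 0⟩, 0⟩ 0 0))) (.pos 13 .pm ⟨0, 0, 0, 0, 0, 0, 0, 518020, 0, ⟨389470, 13924198⟩, 0⟩ 47 62))) (.pos 11 .pm ⟨0, 0, 0, 0, 0, 0, 0, 0, 502732, ⟨0, 0⟩, 16226390⟩ 0 0))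 (.void 11 ⟨0, 0, 0, 0, 0, 0, 0, 0, 100000, ⟨0, 0⟩, 16226390⟩ 0 0))))) (.cut .v 25165824 (.cut .v 20971520 (.cut .d 2270973 (.cut .v 18874368 (.cut .d 1135486 (.cut .v 17825792 (.cut .l 1416742 (.cut .d 567743 (.cut .v 17301504 (.pos 25 .pp ⟨0, 0, 0, 0, 0, 0, 0, 0, 0, ⟨0, 0⟩, 0⟩ 0 0) (.pos 26 .pp ⟨0, 0, 0, 0, 0, 0, 0, 799059, 0, ⟨360420, 14069650⟩, 0⟩ 46 60)) (.cut .s 3407872 (.pos 23 .pp ⟨0, 0, 0, 0, 0, 0, 0, 1025353, 0, ⟨335700, 14217073⟩, 0⟩ 47 56) (.pos 23 .pp ⟨0, 0, 0, 0, 0, 0, 0, 597745, 0, ⟨459472, 13635157⟩, 0⟩ 53 62))) (.pos 23 .pp ⟨0, 0, 0, 0, 0, 0, 0, 0, 0, ⟨0, 0⟩, 0⟩ 0 0)) (.pos 24 .pp ⟨39587, 0, 0, 0, 0, 0, 0, 735550, 0, ⟨378180, 13970816⟩, 0⟩ 46 62))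 (.cut .v 17825792 (.pos 23 .pp ⟨0, 0, 0, 0, 0, 0, 0, 617384, 0, ⟨451580, 13624801⟩, 0⟩ 49 66) (.pos 24 .pp ⟨0, 0, 0, 0, 0, 0, 0, 843410, 0, ⟨451580, 13624801⟩, 0⟩ 49 66))) (.pos 22 .pp ⟨343213, 0, 0, 0, 0, 0, 0, 851308, 0, ⟨414533, 13768499⟩, 0⟩ 46 66)) (.cut .v 18874368 (.pos 21 .pp ⟨0, 0, 0, 0, 0, 0, 0, 873746, 0, ⟨577142, 13046388⟩, 0⟩ 52 74) (.cut .d 3406460 (.cut .v 19922944 (.pos 29 .pp ⟨0, 0, 0, 0, 0, 0, 0, 1499787, 0, ⟨532862, 13264384⟩, 0⟩ 52 70) (.pos 30 .pp ⟨0, 0, 0, 0, 0, 0, 0, 3173485, 0, ⟨532862, 13264384⟩, 0⟩ 52 70)) (.void 22 ⟨0, 0, 0, 0, 0, 0, 0, 100000, 0, ⟨622133, 12890745⟩, 0⟩ 55 74)))) (.cut .d 2270973 (.void 20 ⟨100000, 0, 0, 0, 0, 0, 0, 0,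 0, ⟨0, 0⟩, 0⟩ 0 0) (.cut .d 3406460 (.pos 20 .pp ⟨1827402, 0, 0, 0, 0, 0, 0, 6238760, 0, ⟨532862, 13264384⟩, 0⟩ 52 70) (.void 20 ⟨0, 0, 0, 0, 0, 0, 0, 100000, 0, ⟨622133, 12890745⟩, 0⟩ 55 74)))) (.void 18 ⟨0, 0, 0, 0, 0, 0, 100000, 0, 0, ⟨0, 0⟩, 0⟩ 0 0)))),
    by decide +kernel⟩

def covers3 : cell.Covers table row3.1 :=
  ⟨(.cut .d 0 (.cut .v 16777216 (.cut .v 8388608 (.void 2 ⟨0, 0, 0, 0, 50000, 50000, 0, 0, 0, ⟨0, 0⟩, 0⟩ 0 0) (.cut .v 12582912 (.pos 6 .mm ⟨0, 0, 0, 0, 0, 7613878, 0, 0, 0, ⟨0, 0⟩, 0⟩ 0 0) (.cut .d (-8388608) (.void 7 ⟨0, 0, 0, 0, 0, 100000, 0, 0, 0, ⟨0, 0⟩, 0⟩ 0 0) (.cut .d (-4194304) (.void 7 ⟨0, 0, 0, 0, 0, 100000, 0, 0, 0, ⟨0, 0⟩, 0⟩ 0 0)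 (.cut .d (-2097152) (.cut .v 14680064 (.pos 10 .mm ⟨0, 0, 0, 0, 0, 301856, 0, 0, 0, ⟨0, 0⟩, 0⟩ 0 0) (.pos 11 .mm ⟨0, 0, 0, 0, 0, 339456, 0, 0, 0, ⟨0, 0⟩, 0⟩ 0 0)) (.cut .v 14680064 (.pos 10 .mm ⟨0, 0, 0, 0, 0, 301856, 0, 0, 0, ⟨0, 0⟩, 0⟩ 0 0) (.cut .d (-1048576) (.cut .v 15728640 (.pos 12 .mm ⟨0, 0, 0, 0, 0, 316230, 0, 0, 0, ⟨0, 0⟩, 0⟩ 0 0) (.pos 13 .mm ⟨0, 0, 0, 0, 0, 357062, 0, 0, 0, ⟨0, 0⟩, 0⟩ 0 0)) (.cut .v 15728640 (.cut .d (-524288) (.pos 12 .mm ⟨0, 0, 0, 0, 0, 323417, 0, 0, 0, ⟨0, 0⟩, 0⟩ 0 0) (.pos 12 .mm ⟨0, 0, 0, 0, 0, 0, 0, 0, 0, ⟨0, 0⟩, 0⟩ 0 0)) (.cut .d (-524288) (.pos 13 .mm ⟨0, 0, 0, 0, 0, 384125, 0, 0, 0, ⟨0, 0⟩, 0⟩ 0 0) (.cut .v 16252928 (.pos 14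 .mm ⟨0, 0, 0, 0, 0, 0, 0, 0, 0, ⟨0, 0⟩, 0⟩ 0 0) (.pos 15 .mm ⟨0, 0, 0, 0, 0, 0, 0, 0, 0, ⟨0, 0⟩, 0⟩ 0 0))))))))))) (.cut .v 25165824 (.cut .v 20971520 (.pos 19 .mp ⟨0, 0, 0, 0, 0, 0, 0, 0, 0, ⟨0, 0⟩, 0⟩ 0 0) (.void 20 ⟨100000, 0, 0, 0, 0, 0, 0, 0, 0, ⟨0, 0⟩, 0⟩ 0 0)) (.void 18 ⟨100000, 0, 0, 0, 0, 0, 0, 0, 0, ⟨0, 0⟩, 0⟩ 0 0))) (.cut .v 16777216 (.cut .v 8388608 (.void 2 ⟨0, 0, 0, 0, 100000, 0, 0, 0, 0, ⟨0, 0⟩, 0⟩ 0 0) (.cut .v 12582912 (.void 6 ⟨0, 0, 0, 0, 100000, 0, 0, 0, 0, ⟨0, 0⟩, 0⟩ 0 0) (.cut .v 14680064 (.pos 10 .pm ⟨0, 0, 0, 0, 0, 0, 0, 0, 0, ⟨0, 0⟩, 0⟩ 0 0) (.cut .d 2756326 (.cut .d 1378163 (.cut .v 15728640 (.pos 12 .pm ⟨0, 0, 0, 0, 0, 0, 0, 0, 0, ⟨0,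 0⟩, 0⟩ 0 0) (.cut .d 689081 (.cut .v 16252928 (.pos 14 .pm ⟨0, 0, 0, 0, 0, 0, 0, 0, 0, ⟨0, 0⟩, 0⟩ 0 0) (.cut .d 344540 (.pos 15 .pm ⟨0, 0, 0, 0, 0, 0, 0, 0, 0, ⟨0, 0⟩, 0⟩ 0 0) (.pos 15 .pm ⟨0, 0, 0, 0, 0, 0, 0, 0, 0, ⟨0, 0⟩, 0⟩ 0 0))) (.pos 13 .pm ⟨0, 0, 0, 0, 0, 0, 0, 300628, 0, ⟨712523, 12567347⟩, 0⟩ 60 75))) (.pos 11 .pm ⟨0, 0, 0, 0, 0, 0, 0, 307024, 0, ⟨828468, 12111562⟩, 0⟩ 62 81)) (.void 11 ⟨0, 0, 0, 0, 0, 0, 0, 0, 100000, ⟨0, 0⟩, 16226390⟩ 0 0))))) (.cut .v 25165824 (.cut .v 20971520 (.cut .d 2756326 (.cut .v 18874368 (.cut .d 1378163 (.cut .v 17825792 (.cut .d 689081 (.pos 23 .pp ⟨0, 0, 0, 0, 0, 0, 0, 0, 0, ⟨0, 0⟩, 0⟩ 0 0) (.pos 23 .pp ⟨0, 0, 0, 0, 0, 0,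 0, 395213, 0, ⟨712523, 12567347⟩, 0⟩ 60 75)) (.pos 24 .pp ⟨169955, 0, 0, 0, 0, 0, 0, 325069, 0, ⟨680844, 12675478⟩, 0⟩ 58 75)) (.cut .v 17825792 (.pos 23 .pp ⟨0, 0, 0, 0, 0, 0, 0, 377984, 0, ⟨828468, 12111562⟩, 0⟩ 62 81) (.pos 24 .pp ⟨0, 0, 0, 0, 0, 0, 0, 527829, 0, ⟨828468, 12111562⟩, 0⟩ 62 81))) (.pos 22 .pp ⟨571234, 0, 0, 0, 0, 0, 0, 0, 0, ⟨0, 0⟩, 0⟩ 0 0)) (.cut .d 4134489 (.cut .v 18874368 (.pos 21 .pp ⟨0, 0, 0, 0, 0, 0, 0, 528705, 0, ⟨1011670, 11470758⟩, 0⟩ 67 87) (.cut .d 3445407 (.pos 22 .pp ⟨0, 0, 0, 0, 0, 0, 0, 1857989, 0, ⟨964672, 11650334⟩, 0⟩ 67 84) (.pos 22 .pp ⟨0, 0, 0, 0, 0, 0, 0, 9202174, 0, ⟨1051287, 11354183⟩, 0⟩ 69 87))) (.void 19 ⟨0, 0, 0, 0,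 0, 0, 0, 100000, 0, ⟨1196972, 10872998⟩, 0⟩ 72 92))) (.cut .d 2756326 (.pos 20 .pp ⟨4278812, 0, 0, 0, 0, 0, 0, 0, 0, ⟨0, 0⟩, 0⟩ 0 0) (.cut .d 4134489 (.cut .d 3445407 (.pos 20 .pp ⟨663656, 0, 0, 0, 0, 0, 0, 5961361, 0, ⟨964672, 11650334⟩, 0⟩ 67 84) (.pos 20 .pp ⟨0, 0, 0, 0, 0, 0, 0, 19564390, 0, ⟨1051287, 11354183⟩, 0⟩ 69 87)) (.void 20 ⟨0, 0, 0, 0, 0, 0, 0, 100000, 0, ⟨1196972, 10872998⟩, 0⟩ 72 92)))) (.void 18 ⟨0, 0, 0, 0, 0, 0, 100000, 0, 0, ⟨0, 0⟩, 0⟩ 0 0)))),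
    by decide +kernel⟩

def covers4 : cell.Covers table row4.1 :=
  ⟨(.cut .d 0 (.cut .v 16777216 (.cut .v 8388608 (.void 2 ⟨0, 0, 0, 0, 50000, 50000, 0, 0, 0, ⟨0, 0⟩, 0⟩ 0 0) (.cut .v 12582912 (.pos 6 .mm ⟨0, 0, 0, 0, 0, 5488939, 0, 0, 0, ⟨0, 0⟩, 0⟩ 0 0) (.cut .d (-8388608) (.void 7 ⟨0, 0, 0, 0, 0, 100000, 0, 0, 0, ⟨0, 0⟩, 0⟩ 0 0) (.cut .d (-4194304) (.void 7 ⟨0, 0, 0, 0, 0, 100000, 0, 0, 0, ⟨0, 0⟩, 0⟩ 0 0) (.cut .v 14680064 (.cut .d (-2097152) (.pos 10 .mm ⟨0, 0, 0, 0, 0, 875290, 0, 0, 0, ⟨0, 0⟩, 0⟩ 0 0) (.pos 10 .mm ⟨0, 0, 0, 0, 0, 264928, 0, 0, 0, ⟨0, 0⟩, 0⟩ 0 0)) (.cut .d (-2097152) (.pos 11 .mm ⟨0, 0, 0, 0, 0, 648747, 0, 0, 0, ⟨0, 0⟩, 0⟩ 0 0) (.cut .v 15728640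 (.cut .d (-1048576) (.pos 12 .mm ⟨0, 0, 0, 0, 0, 277544, 0, 0, 0, ⟨0, 0⟩, 0⟩ 0 0) (.cut .d (-524288) (.pos 12 .mm ⟨0, 0, 0, 0, 0, 283798, 0, 0, 0, ⟨0, 0⟩, 0⟩ 0 0) (.pos 12 .mm ⟨0, 0, 0, 0, 0, 0, 0, 0, 0, ⟨0, 0⟩, 0⟩ 0 0))) (.cut .d (-1048576) (.pos 13 .mm ⟨0, 0, 0, 0, 0, 290718, 0, 0, 0, ⟨0, 0⟩, 0⟩ 0 0) (.cut .v 16252928 (.cut .d (-524288) (.pos 14 .mm ⟨0, 0, 0, 0, 0, 290037, 0, 0, 0, ⟨0, 0⟩, 0⟩ 0 0) (.cut .s 4882432 (.pos 14 .mm ⟨0, 0, 0, 0, 0, 0, 0, 0, 0, ⟨0, 0⟩, 0⟩ 0 0) (.pos 14 .mm ⟨0, 0, 0, 0, 0, 0, 0, 0, 0, ⟨0, 0⟩, 0⟩ 0 0))) (.pos 15 .mm ⟨0, 0, 0, 0, 0, 0, 0, 0, 0, ⟨0, 0⟩, 0⟩ 0 0)))))))))) (.cut .v 25165824 (.cut .v 20971520 (.pos 19 .mp ⟨0, 0, 0, 0, 0, 0,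 0, 0, 0, ⟨0, 0⟩, 0⟩ 0 0) (.void 20 ⟨100000, 0, 0, 0, 0, 0, 0, 0, 0, ⟨0, 0⟩, 0⟩ 0 0)) (.void 18 ⟨100000, 0, 0, 0, 0, 0, 0, 0, 0, ⟨0, 0⟩, 0⟩ 0 0))) (.cut .v 16777216 (.cut .v 8388608 (.void 2 ⟨0, 0, 0, 0, 100000, 0, 0, 0, 0, ⟨0, 0⟩, 0⟩ 0 0) (.cut .v 12582912 (.void 6 ⟨0, 0, 0, 0, 100000, 0, 0, 0, 0, ⟨0, 0⟩, 0⟩ 0 0) (.cut .d 3351338 (.cut .v 14680064 (.pos 10 .pm ⟨0, 0, 0, 0, 0, 0, 0, 0, 0, ⟨0, 0⟩, 0⟩ 0 0) (.cut .d 1675669 (.cut .v 15728640 (.pos 12 .pm ⟨0, 0, 0, 0, 0, 0, 0, 0, 0, ⟨0, 0⟩, 0⟩ 0 0) (.cut .d 837834 (.cut .v 16252928 (.pos 14 .pm ⟨0, 0, 0, 0, 0, 0, 0, 0, 0, ⟨0, 0⟩, 0⟩ 0 0) (.cut .d 418917 (.pos 15 .pm ⟨0, 0, 0, 0, 0, 0, 0, 0, 0, ⟨0, 0⟩, 0⟩ 0 0) (.pos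 15 .pm ⟨0, 0, 0, 0, 0, 0, 0, 0, 0, ⟨0, 0⟩, 0⟩ 0 0))) (.pos 13 .pm ⟨0, 0, 0, 0, 0, 0, 0, 257377, 0, ⟨1128385, 11116864⟩, 0⟩ 72 88))) (.pos 11 .pm ⟨0, 0, 0, 0, 0, 0, 0, 278948, 0, ⟨1333766, 10446835⟩, 0⟩ 75 96))) (.void 7 ⟨0, 0, 0, 0, 0, 0, 0, 0, 100000, ⟨0, 0⟩, 15612959⟩ 0 0)))) (.cut .v 25165824 (.cut .v 20971520 (.cut .d 3351338 (.cut .v 18874368 (.cut .d 1675669 (.cut .d 837834 (.pos 21 .pp ⟨0, 0, 0, 0, 0, 0, 0, 86050, 0, ⟨1002717, 11534387⟩, 0⟩ 69 84) (.cut .v 17825792 (.pos 23 .pp ⟨0, 0, 0, 0, 0, 0, 0, 245790, 0, ⟨1128385, 11116864⟩, 0⟩ 72 88) (.pos 24 .pp ⟨0, 0, 0, 0, 0, 0, 0, 325878, 0, ⟨1128385, 11116864⟩, 0⟩ 72 88))) (.pos 21 .pp ⟨0, 0, 0, 0, 0, 0, 0, 250806,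 0, ⟨1333766, 10446835⟩, 0⟩ 75 96)) (.cut .d 1675669 (.pos 22 .pp ⟨0, 0, 0, 0, 0, 0, 0, 345047, 0, ⟨1067562, 11293803⟩, 0⟩ 69 88) (.pos 22 .pp ⟨0, 0, 0, 0, 0, 0, 0, 345047, 0, ⟨1333766, 10446835⟩, 0⟩ 75 96))) (.cut .d 5027007 (.cut .v 18874368 (.pos 21 .pp ⟨0, 0, 0, 0, 0, 0, 0, 278873, 0, ⟨1653299, 9522210⟩, 0⟩ 82 104) (.pos 22 .pp ⟨0, 0, 0, 0, 0, 0, 0, 3148794, 0, ⟨1653299, 9522210⟩, 0⟩ 82 104)) (.void 19 ⟨0, 0, 0, 0, 0, 0, 0, 100000, 0, ⟨2002228, 8591727⟩, 0⟩ 89 112))) (.cut .d 3351338 (.pos 20 .pp ⟨0, 0, 0, 0, 0, 0, 0, 383386, 0, ⟨1198938, 10806376⟩, 0⟩ 69 96) (.cut .d 5027007 (.pos 20 .pp ⟨0, 0, 0, 0, 0, 0, 0, 9338959, 0, ⟨1653299, 9522210⟩, 0⟩ 82 104) (.void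 20 ⟨0, 0, 0, 0, 0, 0, 0, 100000, 0, ⟨2002228, 8591727⟩, 0⟩ 89 112)))) (.void 18 ⟨0, 0, 0, 0, 0, 0, 100000, 0, 0, ⟨0, 0⟩, 0⟩ 0 0)))),
    by decide +kernel⟩

def covers5 : cell.Covers table row5.1 :=
  ⟨(.cut .d 0 (.cut .v 16777216 (.cut .v 8388608 (.void 2 ⟨0, 0, 0, 0, 50000, 50000, 0, 0, 0, ⟨0, 0⟩, 0⟩ 0 0) (.cut .v 12582912 (.pos 6 .mm ⟨0, 0, 0, 0, 0, 3859038, 0, 0, 0, ⟨0, 0⟩, 0⟩ 0 0) (.cut .d (-8388608) (.void 7 ⟨0, 0, 0, 0, 0, 100000, 0, 0, 0, ⟨0, 0⟩, 0⟩ 0 0) (.cut .d (-4194304) (.void 7 ⟨0, 0, 0, 0, 0, 100000, 0, 0, 0, ⟨0, 0⟩, 0⟩ 0 0) (.cut .d (-2097152) (.void 7 ⟨0, 0, 0, 0, 0, 100000, 0, 0, 0, ⟨0, 0⟩, 0⟩ 0 0) (.cut .v 14680064 (.pos 10 .mm ⟨0, 0, 0, 0, 0,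 260466, 0, 0, 0, ⟨0, 0⟩, 0⟩ 0 0) (.cut .v 15728640 (.cut .d (-1048576) (.pos 12 .mm ⟨0, 0, 0, 0, 0, 273845, 0, 0, 0, ⟨0, 0⟩, 0⟩ 0 0) (.cut .s 5636096 (.pos 12 .mm ⟨0, 0, 0, 0, 0, 314907, 0, 0, 0, ⟨0, 0⟩, 0⟩ 0 0) (.pos 12 .mm ⟨0, 0, 0, 0, 0, 330051, 0, 0, 0, ⟨0, 0⟩, 0⟩ 0 0))) (.cut .v 16252928 (.cut .d (-1048576) (.pos 14 .mm ⟨0, 0, 0, 0, 0, 299906, 0, 0, 0, ⟨0, 0⟩, 0⟩ 0 0) (.pos 14 .mm ⟨0, 0, 0, 0, 0, 88197, 0, 0, 0, ⟨0, 0⟩, 0⟩ 0 0)) (.pos 15 .mm ⟨0, 0, 0, 0, 0, 0, 0, 0, 0, ⟨0, 0⟩, 0⟩ 0 0))))))))) (.cut .v 25165824 (.pos 17 .mp ⟨436391, 0, 0, 0, 0, 0, 0, 0, 0, ⟨0, 0⟩, 0⟩ 0 0) (.void 18 ⟨100000, 0, 0, 0, 0, 0, 0, 0, 0, ⟨0, 0⟩, 0⟩ 0 0))) (.cut .v 16777216 (.cut .v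 8388608 (.void 2 ⟨0, 0, 0, 0, 100000, 0, 0, 0, 0, ⟨0, 0⟩, 0⟩ 0 0) (.cut .v 12582912 (.pos 6 .pm ⟨0, 0, 0, 0, 0, 0, 0, 0, 252187, ⟨0, 0⟩, 13128881⟩ 0 0) (.cut .d 4270617 (.cut .v 14680064 (.pos 10 .pm ⟨0, 0, 0, 0, 0, 0, 0, 0, 0, ⟨0, 0⟩, 0⟩ 0 0) (.cut .d 2135308 (.cut .v 15728640 (.pos 12 .pm ⟨0, 0, 0, 0, 0, 0, 0, 0, 0, ⟨0, 0⟩, 0⟩ 0 0) (.cut .d 1067654 (.cut .l 1416742 (.cut .v 16252928 (.cut .d 533827 (.cut .s 5636096 (.pos 14 .pm ⟨0, 0, 0, 0, 0, 0, 0, 0, 0, ⟨0, 0⟩, 0⟩ 0 0) (.pos 14 .pm ⟨0, 0, 0, 0, 0, 0, 0, 0, 0, ⟨0, 0⟩, 0⟩ 0 0)) (.pos 14 .pm ⟨0, 0, 0, 0, 0, 0, 0, 0, 0, ⟨0, 0⟩, 0⟩ 0 0)) (.cut .d 533827 (.pos 15 .pm ⟨0, 0, 0, 0, 0, 0, 0, 0, 0, ⟨0, 0⟩, 0⟩ 0 0) (.pos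 15 .pm ⟨0, 0, 0, 0, 0, 0, 0, 85906, 0, ⟨1533769, 9895376⟩, 0⟩ 82 98))) (.pos 13 .pm ⟨0, 0, 0, 0, 0, 0, 0, 0, 0, ⟨0, 0⟩, 0⟩ 0 0)) (.pos 13 .pm ⟨0, 0, 0, 0, 0, 0, 0, 187703, 0, ⟨1728723, 9336549⟩, 0⟩ 85 104))) (.pos 11 .pm ⟨0, 0, 0, 0, 0, 0, 0, 289425, 0, ⟨2115908, 8283569⟩, 0⟩ 90 116))) (.void 7 ⟨0, 0, 0, 0, 0, 0, 0, 0, 100000, ⟨0, 0⟩, 15612959⟩ 0 0)))) (.cut .v 25165824 (.cut .d 4270617 (.cut .v 20971520 (.cut .d 2135308 (.cut .v 18874368 (.cut .d 1067654 (.pos 21 .pp ⟨0, 0, 0, 0, 0, 0, 0, 0, 0, ⟨0, 0⟩, 0⟩ 0 0) (.pos 21 .pp ⟨0, 0, 0, 0, 0, 0, 0, 215681, 0, ⟨1728723, 9336549⟩, 0⟩ 85 104)) (.pos 22 .pp ⟨0, 0, 0, 0, 0, 0, 0, 312900, 0, ⟨1603206, 9645514⟩, 0⟩ 80 104))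 (.cut .v 18874368 (.pos 21 .pp ⟨0, 0, 0, 0, 0, 0, 0, 199684, 0, ⟨2115908, 8283569⟩, 0⟩ 90 116) (.pos 22 .pp ⟨0, 0, 0, 0, 0, 0, 0, 223646, 0, ⟨2115908, 8283569⟩, 0⟩ 90 116))) (.pos 20 .pp ⟨0, 0, 0, 0, 0, 0, 0, 347666, 0, ⟨1835272, 8902904⟩, 0⟩ 80 116)) (.cut .d 6405926 (.cut .v 20971520 (.cut .v 18874368 (.pos 21 .pp ⟨0, 0, 0, 0, 0, 0, 0, 0, 274136, ⟨0, 0⟩, 17278579⟩ 0 0) (.pos 22 .pp ⟨0, 0, 0, 0, 0, 0, 0, 4598618, 0, ⟨2676778, 6946889⟩, 0⟩ 100 128)) (.pos 20 .pp ⟨0, 0, 0, 0, 0, 0, 0, 11999638, 0, ⟨2676778, 6946889⟩, 0⟩ 100 128)) (.void 17 ⟨0, 0, 0, 0, 0, 0, 0, 100000, 0, ⟨3242981, 5727761⟩, 0⟩ 110 139))) (.cut .d 4270617 (.pos 18 .pp ⟨0, 0, 0, 0, 0, 0, 6720868,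 0, 0, ⟨0, 0⟩, 0⟩ 0 0) (.cut .d 6405926 (.pos 18 .pp ⟨0, 0, 0, 0, 0, 0, 1908299, 25990423, 0, ⟨2676778, 6946889⟩, 0⟩ 100 128) (.void 18 ⟨0, 0, 0, 0, 0, 0, 0, 100000, 0, ⟨3242981, 5727761⟩, 0⟩ 110 139)))))),
    by decide +kernel⟩

def covers6 : cell.Covers table row6.1 :=
  ⟨(.cut .d 0 (.cut .v 16777216 (.cut .v 8388608 (.void 2 ⟨0, 0, 0, 0, 50000, 50000, 0, 0, 0, ⟨0, 0⟩, 0⟩ 0 0) (.cut .v 12582912 (.pos 6 .mm ⟨0, 0, 0, 0, 0, 2420580, 0, 0, 0, ⟨0, 0⟩, 0⟩ 0 0) (.cut .d (-8388608) (.void 7 ⟨0, 0, 0, 0, 0, 100000, 0, 0, 0, ⟨0, 0⟩, 0⟩ 0 0) (.cut .v 14680064 (.pos 10 .mm ⟨0, 0, 0, 0, 0, 1035367, 0, 0, 0, ⟨0, 0⟩, 0⟩ 0 0) (.cut .d (-4194304) (.void 11 ⟨0, 0, 0, 0, 0, 100000,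 0, 0, 0, ⟨0, 0⟩, 0⟩ 0 0) (.cut .d (-2097152) (.void 11 ⟨0, 0, 0, 0, 0, 100000, 0, 0, 0, ⟨0, 0⟩, 0⟩ 0 0) (.cut .v 15728640 (.cut .s 6422528 (.pos 12 .mm ⟨0, 0, 0, 0, 0, 220977, 0, 0, 0, ⟨0, 0⟩, 0⟩ 0 0) (.pos 12 .mm ⟨0, 0, 0, 0, 0, 150484, 0, 0, 0, ⟨0, 0⟩, 0⟩ 0 0)) (.cut .s 6422528 (.pos 13 .mm ⟨0, 0, 0, 0, 0, 0, 0, 0, 0, ⟨0, 0⟩, 0⟩ 0 0) (.pos 13 .mm ⟨0, 0, 0, 0, 0, 0, 0, 0, 0, ⟨0, 0⟩, 0⟩ 0 0))))))))) (.cut .v 25165824 (.pos 17 .mp ⟨554356, 0, 0, 0, 0, 0, 0, 0, 0, ⟨0, 0⟩, 0⟩ 0 0) (.void 18 ⟨100000, 0, 0, 0, 0, 0, 0, 0, 0, ⟨0, 0⟩, 0⟩ 0 0))) (.cut .v 16777216 (.cut .v 8388608 (.void 2 ⟨0, 0, 0, 0, 100000, 0, 0, 0, 0, ⟨0, 0⟩, 0⟩ 0 0) (.cut .v 12582912 (.pos 6 .pm ⟨0,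 0, 0, 0, 0, 0, 0, 0, 0, ⟨0, 0⟩, 0⟩ 0 0) (.cut .d 5639071 (.cut .d 2819535 (.cut .v 14680064 (.pos 10 .pm ⟨0, 0, 0, 0, 0, 0, 0, 0, 0, ⟨0, 0⟩, 0⟩ 0 0) (.cut .v 15728640 (.cut .s 6422528 (.pos 12 .pm ⟨0, 0, 0, 0, 0, 0, 0, 90386, 0, ⟨2150152, 8220672⟩, 0⟩ 92 115) (.pos 12 .pm ⟨0, 0, 0, 0, 0, 0, 0, 118504, 0, ⟨2479536, 7424800⟩, 0⟩ 98 122)) (.cut .d 1409767 (.cut .d 704883 (.cut .v 16252928 (.cut .s 6422528 (.pos 14 .pm ⟨0, 0, 0, 0, 0, 0, 0, 0, 0, ⟨0, 0⟩, 0⟩ 0 0) (.pos 14 .pm ⟨0, 0, 0, 0, 0, 0, 0, 0, 0, ⟨0, 0⟩, 0⟩ 0 0)) (.pos 15 .pm ⟨0, 0, 0, 0, 0, 0, 0, 0, 0, ⟨0, 0⟩, 0⟩ 0 0)) (.cut .l 1416742 (.cut .v 16252928 (.cut .s 6422528 (.pos 14 .pm ⟨0, 0, 0, 0, 0, 0, 0, 206909,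 0, ⟨2050765, 8527701⟩, 0⟩ 95 107) (.pos 14 .pm ⟨0, 0, 0, 0, 0, 0, 0, 50381, 0, ⟨2379739, 7723380⟩, 0⟩ 102 113)) (.cut .s 6422528 (.pos 15 .pm ⟨0, 0, 0, 0, 0, 0, 0, 211022, 0, ⟨2050765, 8527701⟩, 0⟩ 95 107) (.pos 15 .pm ⟨0, 0, 0, 0, 0, 0, 0, 208977, 0, ⟨2379739, 7723380⟩, 0⟩ 102 113))) (.pos 13 .pm ⟨0, 0, 0, 0, 0, 0, 0, 0, 0, ⟨0, 0⟩, 0⟩ 0 0))) (.cut .s 6422528 (.pos 13 .pm ⟨0, 0, 0, 0, 0, 0, 0, 211224, 0, ⟨2345141, 7786608⟩, 0⟩ 99 115) (.pos 13 .pm ⟨0, 0, 0, 0, 0, 0, 0, 209236, 0, ⟨2712602, 6935744⟩, 0⟩ 106 122))))) (.pos 7 .pm ⟨0, 0, 0, 0, 0, 0, 0, 149858, 0, ⟨3147728, 5903192⟩, 0⟩ 107 139)) (.void 7 ⟨0, 0, 0, 0, 0, 0, 0, 0, 100000, ⟨0, 0⟩, 15612959⟩ 0 0)))) (.cut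 .v 25165824 (.cut .d 5639071 (.cut .v 20971520 (.cut .v 18874368 (.cut .d 2819535 (.cut .d 1409767 (.pos 21 .pp ⟨0, 0, 0, 0, 0, 0, 0, 149858, 0, ⟨2105992, 8343552⟩, 0⟩ 92 113) (.cut .s 6422528 (.pos 21 .pp ⟨0, 0, 0, 0, 0, 0, 0, 226905, 0, ⟨2345141, 7786608⟩, 0⟩ 99 115) (.pos 21 .pp ⟨0, 0, 0, 0, 0, 0, 0, 224706, 0, ⟨2712602, 6935744⟩, 0⟩ 106 122))) (.cut .s 6422528 (.pos 21 .pp ⟨0, 0, 0, 0, 0, 0, 0, 175096, 44119, ⟨2960488, 6351168⟩, 17278579⟩ 107 131) (.pos 21 .pp ⟨0, 0, 0, 0, 0, 0, 0, 224706, 0, ⟨3368469, 5496647⟩, 0⟩ 114 139))) (.cut .s 6422528 (.cut .d 2819535 (.pos 22 .pp ⟨0, 0, 0, 0, 0, 0, 0, 305112, 0, ⟨2150152, 8220672⟩, 0⟩ 92 115) (.pos 22 .pp ⟨0, 0, 0,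 0, 0, 0, 0, 1620075, 0, ⟨2960488, 6351168⟩, 0⟩ 107 131)) (.pos 22 .pp ⟨0, 0, 0, 0, 0, 0, 0, 0, 201326, ⟨0, 0⟩, 18269873⟩ 0 0))) (.cut .s 6422528 (.pos 20 .pp ⟨0, 0, 0, 0, 0, 0, 0, 5399681, 0, ⟨2495326, 7260186⟩, 0⟩ 92 131) (.pos 20 .pp ⟨0, 0, 0, 0, 0, 0, 0, 6250163, 0, ⟨2857181, 6438300⟩, 0⟩ 98 139))) (.cut .s 6422528 (.void 17 ⟨0, 0, 0, 0, 0, 0, 0, 100000, 0, ⟨4187075, 3841767⟩, 0⟩ 122 164) (.cut .v 20971520 (.pos 19 .pp ⟨0, 0, 0, 0, 0, 0, 0, 439977, 1096382, ⟨4642684, 3048663⟩, 17739746⟩ 130 174) (.cut .d 8458606 (.pos 20 .pp ⟨0, 0, 0, 0, 0, 0, 0, 13735463, 0, ⟨4288722, 3745697⟩, 0⟩ 130 157) (.void 20 ⟨0, 0, 0, 0, 0, 0, 0, 100000, 0, ⟨5140419, 2316363⟩, 0⟩ 147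 174))))) (.cut .d 5639071 (.pos 18 .pp ⟨0, 0, 0, 0, 0, 0, 0, 15845834, 0, ⟨2660542, 6800454⟩, 0⟩ 92 139) (.cut .d 8458606 (.pos 18 .pp ⟨0, 0, 0, 0, 0, 0, 0, 49277464, 0, ⟨4038137, 4154294⟩, 0⟩ 122 157) (.void 18 ⟨0, 0, 0, 0, 0, 0, 0, 100000, 0, ⟨4886624, 2689763⟩, 0⟩ 138 174)))))),
    by decide +kernel⟩

def covers7 : cell.Covers table row7.1 :=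
  ⟨(.cut .d 0 (.cut .v 16777216 (.cut .v 8388608 (.pos 2 .mm ⟨0, 0, 0, 0, 127254790, 129097257, 0, 0, 0, ⟨0, 0⟩, 0⟩ 0 0) (.cut .v 12582912 (.pos 6 .mm ⟨0, 0, 0, 0, 0, 1249384, 0, 0, 0, ⟨0, 0⟩, 0⟩ 0 0) (.cut .v 14680064 (.pos 10 .mm ⟨0, 0, 0, 0, 0, 584650, 0, 0, 0, ⟨0, 0⟩, 0⟩ 0 0) (.cut .d (-8388608) (.void 11 ⟨0, 0, 0, 0, 0, 100000, 0, 0, 0, ⟨0, 0⟩, 0⟩ 0 0) (.cut .d (-4194304) (.void 11 ⟨0, 0, 0, 0, 0, 100000, 0, 0, 0, ⟨0, 0⟩, 0⟩ 0 0) (.cut .d (-2097152) (.void 11 ⟨0, 0, 0, 0, 0, 100000, 0, 0, 0, ⟨0, 0⟩, 0⟩ 0 0) (.cut .d (-1048576) (.void 11 ⟨0, 0, 0, 0, 0, 100000, 0, 0, 0, ⟨0, 0⟩, 0⟩ 0 0) (.cut .v 15728640 (.cut .s 7176192 (.pos 12 .mm ⟨0, 0, 0, 0, 0, 163096,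 0, 0, 0, ⟨0, 0⟩, 0⟩ 0 0) (.pos 12 .mm ⟨0, 0, 0, 0, 0, 512730, 0, 0, 0, ⟨0, 0⟩, 0⟩ 0 0)) (.cut .d (-524288) (.pos 13 .mm ⟨0, 0, 0, 0, 0, 842236, 0, 0, 0, ⟨0, 0⟩, 0⟩ 0 0) (.cut .l 1416742 (.cut .v 16252928 (.cut .s 7176192 (.pos 14 .mm ⟨0, 0, 0, 0, 0, 139507, 0, 0, 0, ⟨0, 0⟩, 0⟩ 0 0) (.cut .s 7356416 (.pos 14 .mm ⟨0, 0, 0, 0, 0, 330609, 0, 0, 0, ⟨0, 0⟩, 0⟩ 0 0) (.pos 14 .mm ⟨0, 0, 0, 0, 0, 621729, 0, 0, 0, ⟨0, 0⟩, 0⟩ 0 0))) (.pos 15 .mm ⟨0, 0, 0, 0, 0, 587031, 0, 0, 0, ⟨0, 0⟩, 0⟩ 0 0)) (.pos 13 .mm ⟨0, 0, 0, 0, 0, 48987, 0, 0, 0, ⟨0, 0⟩, 0⟩ 0 0))))))))))) (.cut .v 33554432 (.cut .v 25165824 (.cut .v 20971520 (.cut .d (-8388608) (.void 19 ⟨0, 0, 0, 0, 0, 100000, 0,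 0, 0, ⟨0, 0⟩, 0⟩ 0 0) (.cut .d (-4194304) (.void 19 ⟨0, 0, 0, 0, 0, 100000, 0, 0, 0, ⟨0, 0⟩, 0⟩ 0 0) (.cut .d (-2097152) (.void 19 ⟨0, 0, 0, 0, 0, 100000, 0, 0, 0, ⟨0, 0⟩, 0⟩ 0 0) (.cut .d (-1048576) (.void 19 ⟨0, 0, 0, 0, 0, 100000, 0, 0, 0, ⟨0, 0⟩, 0⟩ 0 0) (.pos 19 .mp ⟨534689, 0, 0, 0, 0, 271503, 0, 0, 0, ⟨0, 0⟩, 0⟩ 0 0))))) (.void 20 ⟨100000, 0, 0, 0, 0, 0, 0, 0, 0, ⟨0, 0⟩, 0⟩ 0 0)) (.void 18 ⟨100000, 0, 0, 0, 0, 0, 0, 0, 0, ⟨0, 0⟩, 0⟩ 0 0)) (.void 45 ⟨100000, 0, 0, 0, 0, 0, 0, 0, 0, ⟨0, 0⟩, 0⟩ 0 0))) (.cut .v 16777216 (.cut .v 8388608 (.void 2 ⟨0, 0, 0, 0, 100000, 0, 0, 0, 0, ⟨0, 0⟩, 0⟩ 0 0) (.cut .v 12582912 (.pos 6 .pm ⟨0, 0, 0, 0, 0, 0, 0, 0, 0, ⟨0, 0⟩,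 0⟩ 0 0) (.cut .d 8732198 (.cut .v 14680064 (.pos 10 .pm ⟨0, 0, 0, 0, 0, 0, 0, 0, 0, ⟨0, 0⟩, 0⟩ 0 0) (.cut .d 4366099 (.cut .v 15728640 (.pos 12 .pm ⟨0, 0, 0, 0, 0, 0, 0, 0, 0, ⟨0, 0⟩, 0⟩ 0 0) (.cut .d 2183049 (.cut .v 16252928 (.pos 14 .pm ⟨0, 0, 0, 0, 0, 0, 0, 0, 0, ⟨0, 0⟩, 0⟩ 0 0) (.pos 15 .pm ⟨0, 0, 0, 0, 0, 0, 0, 136968, 0, ⟨2845149, 6588425⟩, 0⟩ 104 130)) (.pos 13 .pm ⟨0, 0, 0, 0, 0, 0, 0, 235851, 0, ⟨3605254, 5010706⟩, 0⟩ 117 145))) (.pos 11 .pm ⟨0, 0, 0, 0, 0, 0, 0, 0, 177380, ⟨0, 0⟩, 16226390⟩ 0 0))) (.void 7 ⟨0, 0, 0, 0, 0, 0, 0, 0, 100000, ⟨0, 0⟩, 15612959⟩ 0 0)))) (.cut .v 33554432 (.cut .d 8732198 (.cut .v 25165824 (.cut .v 20971520 (.cut .d 4366099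 (.cut .v 18874368 (.cut .d 2183049 (.pos 21 .pp ⟨0, 0, 0, 0, 0, 0, 0, 165742, 0, ⟨2845149, 6588425⟩, 0⟩ 104 130) (.pos 21 .pp ⟨0, 0, 0, 0, 0, 0, 0, 280412, 0, ⟨3605254, 5010706⟩, 0⟩ 117 145)) (.pos 22 .pp ⟨0, 0, 0, 0, 0, 0, 0, 309676, 0, ⟨3183845, 5754711⟩, 0⟩ 104 145)) (.cut .v 18874368 (.pos 21 .pp ⟨0, 0, 0, 0, 0, 0, 0, 0, 277325, ⟨0, 0⟩, 17278579⟩ 0 0) (.pos 22 .pp ⟨0, 0, 0, 0, 0, 0, 0, 0, 737537, ⟨0, 0⟩, 18269873⟩ 0 0))) (.cut .d 4366099 (.pos 20 .pp ⟨0, 0, 0, 0, 0, 0, 0, 344084, 0, ⟨3183845, 5754711⟩, 0⟩ 104 145) (.pos 20 .pp ⟨0, 0, 0, 0, 0, 0, 0, 12910870, 0, ⟨4692966, 2965562⟩, 0⟩ 131 175))) (.pos 18 .pp ⟨0, 0, 0, 0, 0, 0, 0, 9916938, 0, ⟨3766134, 4321384⟩,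 0⟩ 104 175)) (.cut .v 25165824 (.pos 17 .pp ⟨0, 0, 0, 0, 0, 0, 0, 17893886, 4159961, ⟨6141316, 736159⟩, 18567042⟩ 158 278) (.pos 18 .pp ⟨0, 0, 0, 0, 0, 0, 0, 126903927, 1121900, ⟨6141316, 736159⟩, 22080058⟩ 158 278))) (.cut .d 8732198 (.pos 45 .pp ⟨5767718, 0, 0, 0, 0, 0, 46371761, 0, 0, ⟨0, 0⟩, 0⟩ 0 0) (.pos 45 .pp ⟨0, 6995063, 0, 0, 0, 0, 12914758, 186074430, 0, ⟨6141316, 736159⟩, 0⟩ 158 278))))),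
    by decide +kernel⟩

def covers8 : cell.Covers table row8.1 :=
  ⟨(.cut .d 0 (.cut .v 16777216 (.cut .d (-8388608) (.void 1 ⟨0, 0, 0, 0, 0, 100000, 0, 0, 0, ⟨0, 0⟩, 0⟩ 0 0) (.cut .d (-4194304) (.void 1 ⟨0, 0, 0, 0, 0, 100000, 0, 0, 0, ⟨0, 0⟩, 0⟩ 0 0) (.cut .d (-2097152) (.void 1 ⟨0, 0, 0, 0, 0, 100000, 0, 0, 0, ⟨0, 0⟩, 0⟩ 0 0) (.cut .d (-1048576) (.void 1 ⟨0, 0, 0, 0, 0, 100000, 0, 0, 0, ⟨0, 0⟩, 0⟩ 0 0) (.cut .v 8388608 (.cut .v 4194304 (.void 4 ⟨0, 0, 50000, 0, 50000, 0, 0, 0, 0, ⟨0, 0⟩, 0⟩ 0 0) (.pos 5 .mm ⟨0, 0, 0, 0, 0, 858176, 0, 0, 573470, ⟨0, 0⟩, 9975792⟩ 0 0)) (.cut .v 12582912 (.pos 6 .mm ⟨0, 0, 0, 0, 0, 561727, 0, 0, 0, ⟨0, 0⟩, 0⟩ 0 0) (.cut .v 14680064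 (.pos 10 .mm ⟨0, 0, 0, 0, 0, 514840, 0, 0, 0, ⟨0, 0⟩, 0⟩ 0 0) (.cut .s 7798784 (.cut .v 15728640 (.pos 12 .mm ⟨0, 0, 0, 0, 0, 974902, 0, 0, 0, ⟨0, 0⟩, 0⟩ 0 0) (.cut .d (-524288) (.pos 13 .mm ⟨0, 0, 0, 0, 0, 1668708, 0, 0, 0, ⟨0, 0⟩, 0⟩ 0 0) (.cut .v 16252928 (.pos 14 .mm ⟨0, 0, 0, 0, 0, 1110848, 0, 0, 0, ⟨0, 0⟩, 0⟩ 0 0) (.cut .s 7667712 (.pos 15 .mm ⟨0, 0, 0, 0, 0, 994048, 0, 0, 0, ⟨0, 0⟩, 0⟩ 0 0) (.pos 15 .mm ⟨0, 0, 0, 0, 0, 1457727, 0, 0, 0, ⟨0, 0⟩, 0⟩ 0 0))))) (.cut .d (-524288) (.pos 11 .mm ⟨0, 0, 0, 0, 0, 3071382, 0, 0, 0, ⟨0, 0⟩, 0⟩ 0 0) (.cut .v 15728640 (.pos 12 .mm ⟨0, 0, 0, 0, 0, 1321614, 0, 0, 0, ⟨0, 0⟩, 0⟩ 0 0) (.cut .s 7929856 (.pos 13 .mm ⟨0, 0, 0,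 0, 0, 1998336, 0, 0, 0, ⟨0, 0⟩, 0⟩ 0 0) (.pos 13 .mm ⟨0, 0, 0, 0, 0, 2681490, 0, 0, 0, ⟨0, 0⟩, 0⟩ 0 0)))))))))))) (.cut .v 33554432 (.cut .v 25165824 (.cut .v 20971520 (.cut .d (-8388608) (.void 19 ⟨0, 0, 0, 0, 0, 100000, 0, 0, 0, ⟨0, 0⟩, 0⟩ 0 0) (.cut .v 18874368 (.cut .d (-4194304) (.void 21 ⟨0, 0, 0, 0, 0, 100000, 0, 0, 0, ⟨0, 0⟩, 0⟩ 0 0) (.cut .d (-2097152) (.void 21 ⟨0, 0, 0, 0, 0, 100000, 0, 0, 0, ⟨0, 0⟩, 0⟩ 0 0) (.cut .d (-1048576) (.void 21 ⟨0, 0, 0, 0, 0, 100000, 0, 0, 0, ⟨0, 0⟩, 0⟩ 0 0) (.cut .v 17825792 (.cut .s 7798784 (.cut .s 7667712 (.pos 23 .mp ⟨0, 0, 0, 0, 0, 1295062, 0, 0, 0, ⟨0, 0⟩, 0⟩ 0 0) (.pos 23 .mp ⟨0, 0, 0, 0, 0, 1843861, 0, 0, 0, ⟨0, 0⟩,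 0⟩ 0 0)) (.cut .d (-524288) (.pos 23 .mp ⟨0, 0, 0, 0, 0, 3821504, 0, 0, 0, ⟨0, 0⟩, 0⟩ 0 0) (.cut .s 7929856 (.pos 23 .mp ⟨0, 0, 0, 0, 0, 2381958, 0, 0, 0, ⟨0, 0⟩, 0⟩ 0 0) (.cut .s 7995392 (.pos 23 .mp ⟨94295, 0, 0, 0, 0, 2659149, 0, 0, 0, ⟨0, 0⟩, 0⟩ 0 0) (.pos 23 .mp ⟨499440, 0, 0, 0, 0, 2558835, 0, 0, 0, ⟨0, 0⟩, 0⟩ 0 0))))) (.pos 24 .mp ⟨3278937, 0, 0, 0, 0, 0, 0, 0, 0, ⟨0, 0⟩, 0⟩ 0 0))))) (.pos 22 .mp ⟨14085482, 0, 0, 0, 0, 0, 0, 0, 0, ⟨0, 0⟩, 0⟩ 0 0))) (.void 20 ⟨100000, 0, 0, 0, 0, 0, 0, 0, 0, ⟨0, 0⟩, 0⟩ 0 0)) (.void 18 ⟨100000, 0, 0, 0, 0, 0, 0, 0, 0, ⟨0, 0⟩, 0⟩ 0 0)) (.void 45 ⟨100000, 0, 0, 0, 0, 0, 0, 0, 0, ⟨0, 0⟩, 0⟩ 0 0))) (.cut .v 16777216 (.cut .v 8388608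 (.cut .v 4194304 (.void 4 ⟨0, 0, 0, 0, 100000, 0, 0, 0, 0, ⟨0, 0⟩, 0⟩ 0 0) (.void 5 ⟨0, 0, 0, 0, 0, 0, 0, 0, 100000, ⟨0, 0⟩, 9975792⟩ 0 0)) (.cut .d 10285164 (.cut .v 12582912 (.pos 6 .pm ⟨0, 0, 0, 0, 0, 0, 0, 0, 0, ⟨0, 0⟩, 0⟩ 0 0) (.cut .v 14680064 (.pos 10 .pm ⟨0, 0, 0, 0, 0, 0, 0, 0, 0, ⟨0, 0⟩, 0⟩ 0 0) (.cut .v 15728640 (.pos 12 .pm ⟨0, 0, 0, 0, 0, 0, 0, 0, 0, ⟨0, 0⟩, 0⟩ 0 0) (.pos 13 .pm ⟨0, 0, 0, 0, 0, 0, 0, 0, 0, ⟨0, 0⟩, 0⟩ 0 0)))) (.void 3 ⟨0, 0, 0, 0, 0, 0, 0, 0, 100000, ⟨0, 0⟩, 14107901⟩ 0 0))) (.cut .v 33554432 (.cut .d 10285164 (.cut .v 25165824 (.cut .v 20971520 (.cut .v 18874368 (.pos 21 .pp ⟨66571, 0, 0, 0, 0, 0, 0, 0, 0, ⟨0, 0⟩, 0⟩ 0 0) (.pos 22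 .pp ⟨2899, 0, 0, 0, 0, 0, 0, 0, 0, ⟨0, 0⟩, 0⟩ 0 0)) (.pos 20 .pp ⟨165678, 0, 0, 0, 0, 0, 193784, 0, 0, ⟨0, 0⟩, 0⟩ 0 0)) (.pos 18 .pp ⟨1588283, 0, 0, 0, 0, 0, 439050, 0, 0, ⟨0, 0⟩, 0⟩ 0 0)) (.pos 16 .pp ⟨0, 0, 0, 0, 0, 0, 0, 0, 11706627, ⟨0, 0⟩, 19951585⟩ 0 0)) (.cut .d 10285164 (.cut .d 5142582 (.pos 45 .pp ⟨27658391, 0, 0, 0, 0, 0, 42342431, 0, 0, ⟨0, 0⟩, 0⟩ 0 0) (.pos 45 .pp ⟨0, 0, 0, 0, 0, 0, 356933, 0, 0, ⟨0, 0⟩, 0⟩ 0 0)) (.void 45 ⟨0, 100000, 0, 0, 0, 0, 0, 0, 0, ⟨0, 0⟩, 0⟩ 0 0))))),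
    by decide +kernel⟩

def covers9 : cell.Covers table row9.1 :=
  ⟨(.cut .d 0 (.cut .v 16777216 (.cut .d (-8388608) (.void 1 ⟨0, 0, 0, 0, 0, 100000, 0, 0, 0, ⟨0, 0⟩, 0⟩ 0 0) (.cut .d (-4194304) (.void 1 ⟨0, 0, 0, 0, 0, 100000, 0, 0, 0, ⟨0, 0⟩, 0⟩ 0 0) (.cut .d (-2097152) (.void 1 ⟨0, 0, 0, 0, 0, 100000, 0, 0, 0, ⟨0, 0⟩, 0⟩ 0 0) (.cut .d (-1048576) (.void 1 ⟨0, 0, 0, 0, 0, 100000, 0, 0, 0, ⟨0, 0⟩, 0⟩ 0 0) (.cut .v 8388608 (.cut .v 4194304 (.void 4 ⟨0, 0, 100000, 0, 0, 0, 0, 0, 0, ⟨0, 0⟩, 0⟩ 0 0) (.pos 5 .mm ⟨0, 0, 0, 0, 0, 1585297, 0, 0, 922806, ⟨0, 0⟩, 9975792⟩ 0 0)) (.cut .v 12582912 (.pos 6 .mm ⟨0, 0, 0, 0, 0, 538824, 0, 0, 0, ⟨0, 0⟩, 0⟩ 0 0) (.cut .d (-524288)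 (.pos 7 .mm ⟨0, 0, 0, 0, 0, 6316608, 0, 0, 0, ⟨0, 0⟩, 0⟩ 0 0) (.cut .l 1416742 (.cut .v 14680064 (.pos 10 .mm ⟨0, 0, 0, 0, 0, 1332549, 0, 0, 0, ⟨0, 0⟩, 0⟩ 0 0) (.cut .v 15728640 (.pos 12 .mm ⟨0, 0, 0, 0, 0, 2300429, 0, 0, 0, ⟨0, 0⟩, 0⟩ 0 0) (.cut .v 16252928 (.pos 14 .mm ⟨0, 0, 0, 0, 0, 3722538, 0, 0, 0, ⟨0, 0⟩, 0⟩ 0 0) (.cut .s 8323072 (.cut .s 8192000 (.pos 15 .mm ⟨0, 0, 0, 0, 0, 3306673, 0, 0, 0, ⟨0, 0⟩, 0⟩ 0 0) (.pos 15 .mm ⟨0, 0, 0, 0, 0, 4082602, 0, 0, 0, ⟨0, 0⟩, 0⟩ 0 0)) (.cut .s 8454144 (.pos 15 .mm ⟨0, 0, 0, 0, 0, 4974335, 0, 0, 0, ⟨0, 0⟩, 0⟩ 0 0) (.pos 15 .mm ⟨0, 0, 0, 0, 0, 5976606, 0, 0, 0, ⟨0, 0⟩, 0⟩ 0 0)))))) (.pos 7 .mm ⟨0, 0, 0, 0, 0, 2881113, 0,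 0, 0, ⟨0, 0⟩, 0⟩ 0 0))))))))) (.cut .v 33554432 (.cut .v 25165824 (.cut .v 20971520 (.cut .d (-8388608) (.void 19 ⟨0, 0, 0, 0, 0, 100000, 0, 0, 0, ⟨0, 0⟩, 0⟩ 0 0) (.cut .d (-4194304) (.void 19 ⟨0, 0, 0, 0, 0, 100000, 0, 0, 0, ⟨0, 0⟩, 0⟩ 0 0) (.cut .v 18874368 (.cut .d (-2097152) (.void 21 ⟨0, 0, 0, 0, 0, 100000, 0, 0, 0, ⟨0, 0⟩, 0⟩ 0 0) (.cut .d (-1048576) (.void 21 ⟨0, 0, 0, 0, 0, 100000, 0, 0, 0, ⟨0, 0⟩, 0⟩ 0 0) (.cut .d (-524288) (.cut .v 17825792 (.cut .l 1416742 (.void 23 ⟨0, 0, 0, 0, 0, 100000, 0, 0, 0, ⟨0, 0⟩, 0⟩ 0 0) (.cut .d (-786432) (.void 23 ⟨0, 0, 0, 0, 0, 100000, 0, 0, 0, ⟨0, 0⟩, 0⟩ 0 0) (.cut .s 8323072 (.cut .s 8192000 (.pos 23 .mp ⟨136576, 0, 0,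 0, 0, 4679532, 0, 0, 0, ⟨0, 0⟩, 0⟩ 0 0) (.pos 23 .mp ⟨894507, 0, 0, 0, 0, 5003071, 0, 0, 0, ⟨0, 0⟩, 0⟩ 0 0)) (.cut .s 8454144 (.pos 23 .mp ⟨1747893, 0, 0, 0, 0, 5333183, 0, 0, 0, ⟨0, 0⟩, 0⟩ 0 0) (.pos 23 .mp ⟨2700104, 0, 0, 0, 0, 5673337, 0, 0, 0, ⟨0, 0⟩, 0⟩ 0 0))))) (.pos 24 .mp ⟨8199697, 0, 0, 0, 0, 0, 0, 0, 0, ⟨0, 0⟩, 0⟩ 0 0)) (.cut .s 8323072 (.cut .v 17825792 (.cut .s 8192000 (.cut .v 17301504 (.cut .d (-262144) (.pos 25 .mp ⟨207649, 0, 0, 0, 0, 3951245, 0, 0, 0, ⟨0, 0⟩, 0⟩ 0 0) (.cut .s 8126464 (.pos 25 .mp ⟨628676, 0, 0, 0, 0, 2403187, 0, 0, 0, ⟨0, 0⟩, 0⟩ 0 0) (.pos 25 .mp ⟨979496, 0, 0, 0, 0, 2388738, 0, 0, 0, ⟨0, 0⟩, 0⟩ 0 0))) (.pos 26 .mp ⟨3294644, 0,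 0, 0, 0, 192475, 0, 0, 0, ⟨0, 0⟩, 0⟩ 0 0)) (.cut .v 17301504 (.cut .d (-262144) (.pos 25 .mp ⟨797270, 0, 0, 0, 0, 4284679, 0, 0, 0, ⟨0, 0⟩, 0⟩ 0 0) (.cut .d (-131072) (.pos 25 .mp ⟨1746430, 0, 0, 0, 0, 2526065, 0, 0, 0, ⟨0, 0⟩, 0⟩ 0 0) (.pos 25 .mp ⟨1461934, 0, 0, 0, 0, 1985308, 0, 0, 0, ⟨0, 0⟩, 0⟩ 0 0))) (.pos 26 .mp ⟨4266553, 0, 0, 0, 0, 0, 0, 0, 0, ⟨0, 0⟩, 0⟩ 0 0))) (.pos 24 .mp ⟨4393309, 0, 0, 0, 0, 0, 0, 0, 0, ⟨0, 0⟩, 0⟩ 0 0)) (.cut .v 17825792 (.cut .s 8454144 (.cut .v 17301504 (.cut .d (-262144) (.pos 25 .mp ⟨1438702, 0, 0, 0, 0, 4673542, 0, 0, 0, ⟨0, 0⟩, 0⟩ 0 0) (.cut .d (-131072) (.pos 25 .mp ⟨2424166, 0, 0, 0, 0, 2766103, 0, 0, 0, ⟨0, 0⟩, 0⟩ 0 0) (.pos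 25 .mp ⟨2240849, 0, 0, 0, 0, 1967290, 0, 0, 0, ⟨0, 0⟩, 0⟩ 0 0))) (.pos 26 .mp ⟨5164399, 0, 0, 0, 0, 0, 0, 0, 0, ⟨0, 0⟩, 0⟩ 0 0)) (.cut .v 17301504 (.cut .d (-262144) (.pos 25 .mp ⟨2154508, 0, 0, 0, 0, 5087217, 0, 0, 0, ⟨0, 0⟩, 0⟩ 0 0) (.cut .d (-131072) (.cut .s 8519680 (.pos 25 .mp ⟨2497625, 0, 0, 0, 0, 3920768, 0, 0, 0, ⟨0, 0⟩, 0⟩ 0 0) (.pos 25 .mp ⟨2981500, 0, 0, 0, 0, 3925160, 0, 0, 0, ⟨0, 0⟩, 0⟩ 0 0)) (.pos 25 .mp ⟨2937245, 0, 0, 0, 0, 2194749, 0, 0, 0, ⟨0, 0⟩, 0⟩ 0 0))) (.pos 26 .mp ⟨6151126, 0, 0, 0, 0, 0, 0, 0, 0, ⟨0, 0⟩, 0⟩ 0 0))) (.pos 24 .mp ⟨6368818, 0, 0, 0, 0, 0, 0, 0, 0, ⟨0, 0⟩, 0⟩ 0 0)))))) (.pos 22 .mp ⟨16977829, 0, 0, 0, 0, 0, 0, 0, 0, ⟨0, 0⟩,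 0⟩ 0 0)))) (.void 20 ⟨100000, 0, 0, 0, 0, 0, 0, 0, 0, ⟨0, 0⟩, 0⟩ 0 0)) (.void 18 ⟨100000, 0, 0, 0, 0, 0, 0, 0, 0, ⟨0, 0⟩, 0⟩ 0 0)) (.void 45 ⟨100000, 0, 0, 0, 0, 0, 0, 0, 0, ⟨0, 0⟩, 0⟩ 0 0))) (.cut .v 16777216 (.cut .v 8388608 (.cut .v 4194304 (.void 4 ⟨0, 0, 50000, 0, 50000, 0, 0, 0, 0, ⟨0, 0⟩, 0⟩ 0 0) (.pos 5 .pm ⟨0, 0, 0, 0, 0, 0, 0, 0, 1946463, ⟨0, 0⟩, 9975792⟩ 0 0)) (.cut .d 9070610 (.cut .v 12582912 (.pos 6 .pm ⟨0, 0, 0, 0, 0, 0, 0, 0, 0, ⟨0, 0⟩, 0⟩ 0 0) (.pos 7 .pm ⟨0, 0, 0, 0, 0, 0, 0, 0, 0, ⟨0, 0⟩, 0⟩ 0 0)) (.void 3 ⟨0, 0, 0, 0, 0, 0, 0, 0, 100000, ⟨0, 0⟩, 14107901⟩ 0 0))) (.cut .v 33554432 (.cut .d 9070610 (.cut .v 25165824 (.cut .v 20971520 (.cut .v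 18874368 (.cut .d 4535305 (.pos 21 .pp ⟨1341499, 0, 0, 0, 0, 0, 0, 0, 0, ⟨0, 0⟩, 0⟩ 0 0) (.pos 21 .pp ⟨0, 0, 0, 0, 0, 0, 0, 1422938, 0, ⟨5809551, 1257444⟩, 0⟩ 156 212)) (.pos 22 .pp ⟨1507233, 0, 0, 0, 0, 0, 0, 0, 0, ⟨0, 0⟩, 0⟩ 0 0)) (.pos 20 .pp ⟨3041565, 0, 0, 0, 0, 0, 104704, 0, 0, ⟨0, 0⟩, 0⟩ 0 0)) (.cut .d 4535305 (.pos 18 .pp ⟨14531304, 0, 0, 0, 0, 0, 0, 0, 0, ⟨0, 0⟩, 0⟩ 0 0) (.pos 18 .pp ⟨0, 0, 0, 0, 0, 0, 0, 2134407, 0, ⟨5809551, 1257444⟩, 0⟩ 156 212))) (.cut .v 25165824 (.pos 17 .pp ⟨0, 0, 0, 0, 0, 0, 0, 0, 8340334, ⟨0, 0⟩, 18567042⟩ 0 0) (.pos 18 .pp ⟨0, 4406115, 0, 0, 0, 0, 0, 0, 815390, ⟨0, 0⟩, 22080058⟩ 0 0))) (.cut .v 50331648 (.cut .d 9070610 (.cut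 .d 4535305 (.pos 46 .pp ⟨62846702, 0, 0, 0, 0, 0, 0, 0, 0, ⟨0, 0⟩, 0⟩ 0 0) (.pos 46 .pp ⟨0, 0, 0, 0, 0, 0, 882470, 0, 0, ⟨0, 0⟩, 0⟩ 0 0)) (.void 46 ⟨0, 100000, 0, 0, 0, 0, 0, 0, 0, ⟨0, 0⟩, 0⟩ 0 0)) (.void 47 ⟨0, 0, 0, 0, 0, 0, 100000, 0, 0, ⟨0, 0⟩, 0⟩ 0 0))))),
    by decide +kernel⟩

def covers10 : cell.Covers table row10.1 :=
  ⟨(.cut .d 0 (.cut .v 16777216 (.cut .d (-8388608) (.void 1 ⟨0, 0, 0, 0, 0, 100000, 0, 0, 0, ⟨0, 0⟩, 0⟩ 0 0) (.cut .d (-4194304) (.void 1 ⟨0, 0, 0, 0, 0, 100000, 0, 0, 0, ⟨0, 0⟩, 0⟩ 0 0) (.cut .d (-2097152) (.void 1 ⟨0, 0, 0, 0, 0, 100000, 0, 0, 0, ⟨0, 0⟩, 0⟩ 0 0) (.cut .d (-1048576) (.void 1 ⟨0, 0, 0, 0, 0, 100000, 0, 0, 0, ⟨0, 0⟩, 0⟩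 0 0) (.cut .v 8388608 (.cut .v 4194304 (.void 4 ⟨0, 0, 100000, 0, 0, 0, 0, 0, 0, ⟨0, 0⟩, 0⟩ 0 0) (.pos 5 .mm ⟨0, 0, 0, 0, 0, 1953462, 0, 0, 1145278, ⟨0, 0⟩, 9975792⟩ 0 0)) (.cut .v 12582912 (.pos 6 .mm ⟨0, 0, 0, 0, 0, 1387271, 0, 0, 0, ⟨0, 0⟩, 0⟩ 0 0) (.cut .d (-524288) (.pos 7 .mm ⟨0, 0, 0, 0, 0, 12520419, 0, 0, 0, ⟨0, 0⟩, 0⟩ 0 0) (.cut .s 8814592 (.pos 7 .mm ⟨0, 0, 0, 0, 0, 7893266, 0, 0, 0, ⟨0, 0⟩, 0⟩ 0 0) (.pos 7 .mm ⟨0, 0, 0, 0, 0, 10534442, 0, 0, 0, ⟨0, 0⟩, 0⟩ 0 0))))))))) (.cut .v 33554432 (.cut .v 25165824 (.cut .v 20971520 (.cut .d (-8388608) (.void 19 ⟨0, 0, 0, 0, 0, 100000, 0, 0, 0, ⟨0, 0⟩, 0⟩ 0 0) (.cut .d (-4194304) (.void 19 ⟨0, 0, 0, 0, 0, 100000,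 0, 0, 0, ⟨0, 0⟩, 0⟩ 0 0) (.cut .v 18874368 (.cut .d (-2097152) (.void 21 ⟨0, 0, 0, 0, 0, 100000, 0, 0, 0, ⟨0, 0⟩, 0⟩ 0 0) (.cut .d (-1048576) (.void 21 ⟨0, 0, 0, 0, 0, 100000, 0, 0, 0, ⟨0, 0⟩, 0⟩ 0 0) (.cut .d (-524288) (.cut .v 17825792 (.cut .s 8814592 (.pos 23 .mp ⟨3753909, 0, 0, 0, 0, 7587902, 0, 0, 0, ⟨0, 0⟩, 0⟩ 0 0) (.pos 23 .mp ⟨6361698, 0, 0, 0, 0, 8270898, 0, 0, 0, ⟨0, 0⟩, 0⟩ 0 0)) (.void 24 ⟨100000, 0, 0, 0, 0, 0, 0, 0, 0, ⟨0, 0⟩, 0⟩ 0 0)) (.cut .s 8814592 (.cut .v 17825792 (.cut .s 8699904 (.cut .v 17301504 (.cut .d (-262144) (.pos 25 .mp ⟨3040176, 0, 0, 0, 0, 5296491, 0, 0, 0, ⟨0, 0⟩, 0⟩ 0 0) (.cut .d (-131072) (.pos 25 .mp ⟨4392731, 0, 0, 0, 0, 2666750,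 0, 0, 0, ⟨0, 0⟩, 0⟩ 0 0) (.pos 25 .mp ⟨3765027, 0, 0, 0, 0, 2308420, 0, 0, 0, ⟨0, 0⟩, 0⟩ 0 0))) (.pos 26 .mp ⟨7173677, 0, 0, 0, 0, 0, 0, 0, 0, ⟨0, 0⟩, 0⟩ 0 0)) (.cut .v 17301504 (.cut .d (-262144) (.pos 25 .mp ⟨3803330, 0, 0, 0, 0, 5760450, 0, 0, 0, ⟨0, 0⟩, 0⟩ 0 0) (.cut .d (-131072) (.cut .s 8757248 (.pos 25 .mp ⟨4392995, 0, 0, 0, 0, 4031092, 0, 0, 0, ⟨0, 0⟩, 0⟩ 0 0) (.pos 25 .mp ⟨4926576, 0, 0, 0, 0, 4015011, 0, 0, 0, ⟨0, 0⟩, 0⟩ 0 0)) (.pos 25 .mp ⟨4674381, 0, 0, 0, 0, 2335222, 0, 0, 0, ⟨0, 0⟩, 0⟩ 0 0))) (.pos 26 .mp ⟨8237152, 0, 0, 0, 0, 0, 0, 0, 0, ⟨0, 0⟩, 0⟩ 0 0))) (.pos 24 .mp ⟨8577888, 0, 0, 0, 0, 0, 0, 0, 0, ⟨0, 0⟩, 0⟩ 0 0)) (.cut .v 17825792 (.cut .s 8929280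 (.cut .v 17301504 (.cut .d (-262144) (.pos 25 .mp ⟨4612539, 0, 0, 0, 0, 6303199, 0, 0, 0, ⟨0, 0⟩, 0⟩ 0 0) (.cut .v 17039360 (.cut .d (-131072) (.pos 27 .mp ⟨4810208, 0, 0, 0, 0, 5139493, 0, 0, 0, ⟨0, 0⟩, 0⟩ 0 0) (.cut .s 8871936 (.pos 27 .mp ⟨5154753, 0, 0, 0, 0, 2839955, 0, 0, 0, ⟨0, 0⟩, 0⟩ 0 0) (.pos 27 .mp ⟨5657838, 0, 0, 0, 0, 2889008, 0, 0, 0, ⟨0, 0⟩, 0⟩ 0 0))) (.pos 28 .mp ⟨8673803, 0, 0, 0, 0, 0, 0, 0, 0, ⟨0, 0⟩, 0⟩ 0 0))) (.pos 26 .mp ⟨9399817, 0, 0, 0, 0, 0, 0, 0, 0, ⟨0, 0⟩, 0⟩ 0 0)) (.cut .v 17301504 (.cut .d (-262144) (.pos 25 .mp ⟨5348659, 0, 0, 0, 0, 7148704, 0, 0, 0, ⟨0, 0⟩, 0⟩ 0 0) (.cut .v 17039360 (.cut .d (-131072) (.pos 27 .mp ⟨5656174, 0, 0,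 0, 0, 5644743, 0, 0, 0, ⟨0, 0⟩, 0⟩ 0 0) (.cut .s 8986624 (.pos 27 .mp ⟨6182389, 0, 0, 0, 0, 2940095, 0, 0, 0, ⟨0, 0⟩, 0⟩ 0 0) (.pos 27 .mp ⟨6722946, 0, 0, 0, 0, 3001841, 0, 0, 0, ⟨0, 0⟩, 0⟩ 0 0))) (.pos 28 .mp ⟨9854811, 0, 0, 0, 0, 0, 0, 0, 0, ⟨0, 0⟩, 0⟩ 0 0))) (.pos 26 .mp ⟨10659709, 0, 0, 0, 0, 0, 0, 0, 0, ⟨0, 0⟩, 0⟩ 0 0))) (.pos 24 .mp ⟨11231533, 0, 0, 0, 0, 0, 0, 0, 0, ⟨0, 0⟩, 0⟩ 0 0)))))) (.pos 22 .mp ⟨27055454, 0, 0, 0, 0, 0, 0, 0, 0, ⟨0, 0⟩, 0⟩ 0 0)))) (.void 20 ⟨100000, 0, 0, 0, 0, 0, 0, 0, 0, ⟨0, 0⟩, 0⟩ 0 0)) (.void 18 ⟨100000, 0, 0, 0, 0, 0, 0, 0, 0, ⟨0, 0⟩, 0⟩ 0 0)) (.void 45 ⟨100000, 0, 0, 0, 0, 0, 0, 0, 0, ⟨0, 0⟩, 0⟩ 0 0))) (.cut .v 16777216 (.cut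 .v 8388608 (.cut .v 4194304 (.void 4 ⟨0, 0, 50000, 0, 50000, 0, 0, 0, 0, ⟨0, 0⟩, 0⟩ 0 0) (.pos 5 .pm ⟨0, 0, 0, 0, 0, 0, 0, 0, 1132809, ⟨0, 0⟩, 9975792⟩ 0 0)) (.cut .d 8004398 (.cut .v 12582912 (.pos 6 .pm ⟨0, 0, 0, 0, 0, 0, 0, 0, 0, ⟨0, 0⟩, 0⟩ 0 0) (.pos 7 .pm ⟨0, 0, 0, 0, 0, 0, 0, 0, 0, ⟨0, 0⟩, 0⟩ 0 0)) (.pos 3 .pm ⟨0, 0, 0, 0, 0, 0, 0, 0, 9847391, ⟨0, 0⟩, 14107901⟩ 0 0))) (.cut .v 33554432 (.cut .d 8004398 (.cut .d 4002199 (.cut .v 25165824 (.cut .v 20971520 (.cut .v 18874368 (.cut .v 17825792 (.pos 23 .pp ⟨3755022, 0, 0, 0, 0, 0, 0, 0, 0, ⟨0, 0⟩, 0⟩ 0 0) (.cut .s 8814592 (.pos 24 .pp ⟨5019471, 0, 0, 0, 0, 0, 0, 0, 0, ⟨0, 0⟩, 0⟩ 0 0) (.pos 24 .pp ⟨6510272, 0,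 0, 0, 0, 0, 0, 0, 0, ⟨0, 0⟩, 0⟩ 0 0))) (.pos 22 .pp ⟨7064596, 0, 0, 0, 0, 0, 0, 0, 0, ⟨0, 0⟩, 0⟩ 0 0)) (.pos 20 .pp ⟨11650875, 0, 0, 0, 0, 0, 0, 0, 0, ⟨0, 0⟩, 0⟩ 0 0)) (.pos 18 .pp ⟨27693464, 0, 0, 0, 0, 0, 0, 0, 0, ⟨0, 0⟩, 0⟩ 0 0)) (.pos 16 .pp ⟨0, 0, 0, 0, 0, 0, 0, 2922204, 0, ⟨5966791, 1050916⟩, 0⟩ 162 216)) (.pos 16 .pp ⟨0, 1783505, 0, 0, 0, 0, 0, 0, 2314163, ⟨0, 0⟩, 19951585⟩ 0 0)) (.cut .d 8004398 (.cut .d 4002199 (.cut .d 2001099 (.void 45 ⟨100000, 0, 0, 0, 0, 0, 0, 0, 0, ⟨0, 0⟩, 0⟩ 0 0) (.pos 45 .pp ⟨70329446, 0, 0, 0, 0, 0, 0, 0, 0, ⟨0, 0⟩, 0⟩ 0 0)) (.pos 45 .pp ⟨0, 0, 0, 0, 0, 0, 1580399, 0, 0, ⟨0, 0⟩, 0⟩ 0 0)) (.pos 45 .pp ⟨0, 0, 0, 0, 0, 0, 1580399,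 0, 0, ⟨0, 0⟩, 0⟩ 0 0))))),
    by decide +kernel⟩

def covers11 : cell.Covers table row11.1 :=
  ⟨(.cut .d 0 (.cut .v 16777216 (.cut .d (-8388608) (.void 1 ⟨0, 0, 0, 0, 0, 100000, 0, 0, 0, ⟨0, 0⟩, 0⟩ 0 0) (.cut .d (-4194304) (.void 1 ⟨0, 0, 0, 0, 0, 100000, 0, 0, 0, ⟨0, 0⟩, 0⟩ 0 0) (.cut .d (-2097152) (.void 1 ⟨0, 0, 0, 0, 0, 100000, 0, 0, 0, ⟨0, 0⟩, 0⟩ 0 0) (.cut .d (-1048576) (.void 1 ⟨0, 0, 0, 0, 0, 100000, 0, 0, 0, ⟨0, 0⟩, 0⟩ 0 0) (.cut .v 8388608 (.cut .v 4194304 (.void 4 ⟨0, 0, 100000, 0, 0, 0, 0, 0, 0, ⟨0, 0⟩, 0⟩ 0 0) (.pos 5 .mm ⟨0, 0, 0, 0, 0, 599565, 0, 0, 0, ⟨0, 0⟩, 0⟩ 0 0)) (.cut .d (-524288) (.pos 3 .mm ⟨0, 0, 0, 0, 0, 23403485, 0, 0, 0, ⟨0, 0⟩, 0⟩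 0 0) (.cut .s 9306112 (.cut .s 9175040 (.pos 3 .mm ⟨0, 0, 0, 0, 0, 12355086, 0, 0, 0, ⟨0, 0⟩, 0⟩ 0 0) (.pos 3 .mm ⟨0, 0, 0, 0, 0, 14643219, 0, 0, 0, ⟨0, 0⟩, 0⟩ 0 0)) (.pos 3 .mm ⟨0, 0, 0, 0, 0, 19145414, 0, 0, 0, ⟨0, 0⟩, 0⟩ 0 0)))))))) (.cut .v 33554432 (.cut .v 25165824 (.cut .v 20971520 (.cut .d (-8388608) (.void 19 ⟨0, 0, 0, 0, 0, 100000, 0, 0, 0, ⟨0, 0⟩, 0⟩ 0 0) (.cut .d (-4194304) (.void 19 ⟨0, 0, 0, 0, 0, 100000, 0, 0, 0, ⟨0, 0⟩, 0⟩ 0 0) (.cut .d (-2097152) (.void 19 ⟨0, 0, 0, 0, 0, 100000, 0, 0, 0, ⟨0, 0⟩, 0⟩ 0 0) (.cut .v 18874368 (.cut .d (-1048576) (.void 21 ⟨0, 0, 0, 0, 0, 100000, 0, 0, 0, ⟨0, 0⟩, 0⟩ 0 0) (.cut .d (-524288) (.cut .v 17825792 (.cut .s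 9306112 (.pos 23 .mp ⟨8614446, 0, 0, 0, 0, 16837246, 0, 0, 0, ⟨0, 0⟩, 0⟩ 0 0) (.void 23 ⟨0, 0, 0, 0, 0, 100000, 0, 0, 0, ⟨0, 0⟩, 0⟩ 0 0)) (.void 24 ⟨100000, 0, 0, 0, 0, 0, 0, 0, 0, ⟨0, 0⟩, 0⟩ 0 0)) (.cut .s 9306112 (.cut .v 17825792 (.cut .d (-262144) (.cut .v 17301504 (.cut .l 1416742 (.pos 25 .mp ⟨7055875, 0, 0, 0, 0, 10192825, 0, 0, 0, ⟨0, 0⟩, 0⟩ 0 0) (.cut .s 9175040 (.pos 25 .mp ⟨4208492, 0, 0, 0, 0, 9922902, 0, 0, 0, ⟨0, 0⟩, 0⟩ 0 0) (.pos 25 .mp ⟨4552656, 0, 0, 0, 0, 11911714, 0, 0, 0, ⟨0, 0⟩, 0⟩ 0 0))) (.cut .s 9175040 (.pos 26 .mp ⟨12364829, 0, 0, 0, 0, 0, 0, 0, 0, ⟨0, 0⟩, 0⟩ 0 0) (.pos 26 .mp ⟨14252257, 0, 0, 0, 0, 0, 0, 0, 0, ⟨0, 0⟩, 0⟩ 0 0))) (.cut .l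 1416742 (.cut .v 17301504 (.cut .s 9175040 (.cut .v 17039360 (.cut .d (-131072) (.pos 27 .mp ⟨6656159, 0, 0, 0, 0, 6370529, 0, 0, 0, ⟨0, 0⟩, 0⟩ 0 0) (.cut .s 9109504 (.pos 27 .mp ⟨7364947, 0, 0, 0, 0, 2986457, 0, 0, 0, ⟨0, 0⟩, 0⟩ 0 0) (.cut .s 9142272 (.pos 27 .mp ⟨7695106, 0, 0, 0, 0, 3399845, 0, 0, 0, ⟨0, 0⟩, 0⟩ 0 0) (.pos 27 .mp ⟨8033633, 0, 0, 0, 0, 3461999, 0, 0, 0, ⟨0, 0⟩, 0⟩ 0 0)))) (.pos 28 .mp ⟨11387682, 0, 0, 0, 0, 0, 0, 0, 0, ⟨0, 0⟩, 0⟩ 0 0)) (.cut .l 913425 (.cut .v 17039360 (.cut .d (-131072) (.pos 27 .mp ⟨7601747, 0, 0, 0, 0, 8440060, 0, 0, 0, ⟨0, 0⟩, 0⟩ 0 0) (.cut .d (-65536) (.cut .s 9240576 (.pos 27 .mp ⟨7591465, 0, 0, 0, 0, 6100120, 0, 0, 0, ⟨0,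 0⟩, 0⟩ 0 0) (.pos 27 .mp ⟨8281702, 0, 0, 0, 0, 6379558, 0, 0, 0, ⟨0, 0⟩, 0⟩ 0 0)) (.pos 27 .mp ⟨7951548, 0, 0, 0, 0, 0, 0, 0, 0, ⟨0, 0⟩, 0⟩ 0 0))) (.pos 28 .mp ⟨13311299, 0, 0, 0, 0, 0, 0, 0, 0, ⟨0, 0⟩, 0⟩ 0 0)) (.pos 25 .mp ⟨10468482, 0, 0, 0, 0, 1412305, 0, 0, 0, ⟨0, 0⟩, 0⟩ 0 0))) (.pos 26 .mp ⟨12904456, 0, 0, 0, 0, 0, 0, 0, 0, ⟨0, 0⟩, 0⟩ 0 0)) (.pos 23 .mp ⟨8859991, 0, 0, 0, 0, 0, 0, 0, 0, ⟨0, 0⟩, 0⟩ 0 0))) (.cut .s 9175040 (.pos 24 .mp ⟨13409319, 0, 0, 0, 0, 0, 0, 0, 0, ⟨0, 0⟩, 0⟩ 0 0) (.pos 24 .mp ⟨15455374, 0, 0, 0, 0, 0, 0, 0, 0, ⟨0, 0⟩, 0⟩ 0 0))) (.cut .v 17825792 (.cut .d (-262144) (.cut .v 17301504 (.cut .l 1416742 (.pos 25 .mp ⟨9965472, 0, 0, 0, 0, 12582837,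 0, 0, 0, ⟨0, 0⟩, 0⟩ 0 0) (.cut .s 9437184 (.pos 25 .mp ⟨4908500, 0, 0, 0, 0, 14153235, 0, 0, 0, ⟨0, 0⟩, 0⟩ 0 0) (.pos 25 .mp ⟨5475885, 0, 0, 0, 0, 16392039, 0, 0, 0, ⟨0, 0⟩, 0⟩ 0 0))) (.cut .l 1416742 (.void 26 ⟨100000, 0, 0, 0, 0, 0, 0, 0, 0, ⟨0, 0⟩, 0⟩ 0 0) (.cut .s 9437184 (.pos 26 .mp ⟨16032528, 0, 0, 0, 0, 30161, 0, 0, 0, ⟨0, 0⟩, 0⟩ 0 0) (.pos 26 .mp ⟨18330217, 0, 0, 0, 0, 0, 0, 0, 0, ⟨0, 0⟩, 0⟩ 0 0)))) (.cut .l 1416742 (.cut .v 17301504 (.cut .s 9437184 (.cut .v 17039360 (.cut .d (-131072) (.pos 27 .mp ⟨9214627, 0, 0, 0, 0, 7917717, 0, 0, 0, ⟨0, 0⟩, 0⟩ 0 0) (.cut .d (-65536) (.cut .s 9371648 (.pos 27 .mp ⟨9003502, 0, 0, 0, 0, 6679842, 0, 0, 0, ⟨0, 0⟩, 0⟩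 0 0) (.pos 27 .mp ⟨9757586, 0, 0, 0, 0, 6998043, 0, 0, 0, ⟨0, 0⟩, 0⟩ 0 0)) (.pos 27 .mp ⟨9436103, 0, 0, 0, 0, 0, 0, 0, 0, ⟨0, 0⟩, 0⟩ 0 0))) (.cut .s 9371648 (.pos 28 .mp ⟨14529270, 0, 0, 0, 0, 0, 0, 0, 0, ⟨0, 0⟩, 0⟩ 0 0) (.pos 28 .mp ⟨15499765, 0, 0, 0, 0, 0, 0, 0, 0, ⟨0, 0⟩, 0⟩ 0 0))) (.cut .v 17039360 (.cut .d (-131072) (.pos 27 .mp ⟨9933568, 0, 0, 0, 0, 10199046, 0, 0, 0, ⟨0, 0⟩, 0⟩ 0 0) (.cut .d (-65536) (.cut .s 9502720 (.pos 27 .mp ⟨10544700, 0, 0, 0, 0, 7331220, 0, 0, 0, ⟨0, 0⟩, 0⟩ 0 0) (.pos 27 .mp ⟨11365616, 0, 0, 0, 0, 7676414, 0, 0, 0, ⟨0, 0⟩, 0⟩ 0 0)) (.pos 27 .mp ⟨11049914, 0, 0, 0, 0, 0, 0, 0, 0, ⟨0, 0⟩, 0⟩ 0 0))) (.cut .s 9502720 (.pos 28 .mp ⟨16513132,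 0, 0, 0, 0, 0, 0, 0, 0, ⟨0, 0⟩, 0⟩ 0 0) (.pos 28 .mp ⟨17568860, 0, 0, 0, 0, 0, 0, 0, 0, ⟨0, 0⟩, 0⟩ 0 0)))) (.pos 26 .mp ⟨16808951, 0, 0, 0, 0, 0, 0, 0, 0, ⟨0, 0⟩, 0⟩ 0 0)) (.pos 23 .mp ⟨12666444, 0, 0, 0, 0, 0, 0, 0, 0, ⟨0, 0⟩, 0⟩ 0 0))) (.cut .s 9437184 (.pos 24 .mp ⟨17702870, 0, 0, 0, 0, 0, 0, 0, 0, ⟨0, 0⟩, 0⟩ 0 0) (.pos 24 .mp ⟨20149672, 0, 0, 0, 0, 0, 0, 0, 0, ⟨0, 0⟩, 0⟩ 0 0)))))) (.pos 22 .mp ⟨34756089, 0, 0, 0, 0, 0, 0, 0, 0, ⟨0, 0⟩, 0⟩ 0 0))))) (.void 20 ⟨100000, 0, 0, 0, 0, 0, 0, 0, 0, ⟨0, 0⟩, 0⟩ 0 0)) (.void 18 ⟨100000, 0, 0, 0, 0, 0, 0, 0, 0, ⟨0, 0⟩, 0⟩ 0 0)) (.void 45 ⟨100000, 0, 0, 0, 0, 0, 0, 0, 0, ⟨0, 0⟩, 0⟩ 0 0))) (.cut .v 16777216 (.cut .v 8388608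 (.cut .v 4194304 (.void 4 ⟨0, 0, 50000, 0, 50000, 0, 0, 0, 0, ⟨0, 0⟩, 0⟩ 0 0) (.pos 5 .pm ⟨0, 0, 0, 0, 0, 0, 0, 0, 255147, ⟨0, 0⟩, 9975792⟩ 0 0)) (.cut .d 7172869 (.cut .d 3586434 (.pos 3 .pm ⟨0, 0, 0, 0, 0, 0, 0, 0, 0, ⟨0, 0⟩, 0⟩ 0 0) (.pos 3 .pm ⟨0, 0, 0, 0, 0, 0, 0, 0, 2378824, ⟨0, 0⟩, 14107901⟩ 0 0)) (.pos 3 .pm ⟨0, 0, 0, 0, 0, 0, 0, 0, 7752686, ⟨0, 0⟩, 14107901⟩ 0 0))) (.cut .d 7172869 (.cut .v 33554432 (.cut .d 3586434 (.cut .d 1793217 (.cut .v 25165824 (.cut .v 20971520 (.cut .d 896608 (.cut .v 18874368 (.cut .v 17825792 (.pos 23 .pp ⟨9042741, 0, 0, 0, 0, 0, 0, 0, 0, ⟨0, 0⟩, 0⟩ 0 0) (.pos 24 .pp ⟨12381817, 0, 0, 0, 0, 0, 0, 0, 0, ⟨0, 0⟩, 0⟩ 0 0)) (.pos 22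 .pp ⟨16334923, 0, 0, 0, 0, 0, 0, 0, 0, ⟨0, 0⟩, 0⟩ 0 0)) (.pos 19 .pp ⟨0, 0, 0, 0, 0, 0, 0, 0, 0, ⟨0, 0⟩, 0⟩ 0 0)) (.pos 20 .pp ⟨24355222, 0, 0, 0, 0, 0, 0, 0, 0, ⟨0, 0⟩, 0⟩ 0 0)) (.pos 18 .pp ⟨58710697, 0, 0, 0, 0, 0, 0, 0, 0, ⟨0, 0⟩, 0⟩ 0 0)) (.pos 16 .pp ⟨0, 0, 0, 0, 0, 0, 0, 6222647, 0, ⟨5346850, 1996593⟩, 0⟩ 152 178)) (.pos 16 .pp ⟨0, 0, 0, 0, 0, 0, 0, 4666985, 0, ⟨6115691, 850913⟩, 0⟩ 167 225)) (.cut .v 50331648 (.cut .d 3586434 (.pos 46 .pp ⟨148066174, 0, 0, 0, 0, 0, 0, 0, 0, ⟨0, 0⟩, 0⟩ 0 0) (.pos 46 .pp ⟨0, 0, 0, 0, 0, 0, 2196815, 0, 0, ⟨0, 0⟩, 0⟩ 0 0)) (.pos 47 .pp ⟨347193601, 188353577, 0, 0, 0, 0, 0, 0, 0, ⟨0, 0⟩, 0⟩ 0 0))) (.pos 44 .pp ⟨0, 5661430, 0,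 0, 0, 0, 0, 0, 673589, ⟨0, 0⟩, 23726566⟩ 0 0)))),
    by decide +kernel⟩

def covers12 : cell.Covers table row12.1 :=
  ⟨(.cut .d 0 (.cut .v 16777216 (.cut .d (-8388608) (.void 1 ⟨0, 0, 0, 0, 0, 100000, 0, 0, 0, ⟨0, 0⟩, 0⟩ 0 0) (.cut .d (-4194304) (.void 1 ⟨0, 0, 0, 0, 0, 100000, 0, 0, 0, ⟨0, 0⟩, 0⟩ 0 0) (.cut .d (-2097152) (.void 1 ⟨0, 0, 0, 0, 0, 100000, 0, 0, 0, ⟨0, 0⟩, 0⟩ 0 0) (.cut .d (-1048576) (.void 1 ⟨0, 0, 0, 0, 0, 100000, 0, 0, 0, ⟨0, 0⟩, 0⟩ 0 0) (.cut .d (-524288) (.void 1 ⟨0, 0, 0, 0, 0, 100000, 0, 0, 0, ⟨0, 0⟩, 0⟩ 0 0) (.cut .v 8388608 (.cut .v 4194304 (.void 4 ⟨0, 0, 100000, 0, 0, 0, 0, 0, 0, ⟨0, 0⟩, 0⟩ 0 0) (.pos 5 .mm ⟨0, 0, 0, 0, 0, 1844883, 0,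 0, 0, ⟨0, 0⟩, 0⟩ 0 0)) (.cut .s 9830400 (.pos 3 .mm ⟨0, 0, 0, 0, 0, 25328046, 0, 0, 0, ⟨0, 0⟩, 0⟩ 0 0) (.pos 3 .mm ⟨0, 0, 0, 0, 0, 33117135, 0, 0, 0, ⟨0, 0⟩, 0⟩ 0 0)))))))) (.cut .v 67108864 (.cut .v 33554432 (.cut .v 25165824 (.cut .v 20971520 (.cut .d (-8388608) (.void 19 ⟨0, 0, 0, 0, 0, 100000, 0, 0, 0, ⟨0, 0⟩, 0⟩ 0 0) (.cut .d (-4194304) (.void 19 ⟨0, 0, 0, 0, 0, 100000, 0, 0, 0, ⟨0, 0⟩, 0⟩ 0 0) (.cut .d (-2097152) (.void 19 ⟨0, 0, 0, 0, 0, 100000, 0, 0, 0, ⟨0, 0⟩, 0⟩ 0 0) (.cut .d (-1048576) (.void 19 ⟨0, 0, 0, 0, 0, 100000, 0, 0, 0, ⟨0, 0⟩, 0⟩ 0 0) (.cut .v 18874368 (.cut .d (-524288) (.void 21 ⟨0, 0, 0, 0, 0, 100000, 0, 0, 0, ⟨0, 0⟩, 0⟩ 0 0) (.cut .v 17825792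 (.cut .s 9830400 (.cut .d (-262144) (.cut .l 1416742 (.cut .v 17301504 (.pos 25 .mp ⟨13487607, 0, 0, 0, 0, 15964857, 0, 0, 0, ⟨0, 0⟩, 0⟩ 0 0) (.void 26 ⟨100000, 0, 0, 0, 0, 0, 0, 0, 0, ⟨0, 0⟩, 0⟩ 0 0)) (.cut .v 17301504 (.cut .s 9699328 (.pos 25 .mp ⟨6139036, 0, 0, 0, 0, 18797637, 0, 0, 0, ⟨0, 0⟩, 0⟩ 0 0) (.cut .s 9764864 (.pos 25 .mp ⟨11692269, 0, 0, 0, 0, 14221312, 0, 0, 0, ⟨0, 0⟩, 0⟩ 0 0) (.pos 25 .mp ⟨12448370, 0, 0, 0, 0, 15161250, 0, 0, 0, ⟨0, 0⟩, 0⟩ 0 0))) (.cut .s 9699328 (.cut .s 9633792 (.pos 26 .mp ⟨19250855, 0, 0, 0, 0, 1145887, 0, 0, 0, ⟨0, 0⟩, 0⟩ 0 0) (.pos 26 .mp ⟨20484381, 0, 0, 0, 0, 1283727, 0, 0, 0, ⟨0, 0⟩, 0⟩ 0 0)) (.cut .s 9764864 (.pos 26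 .mp ⟨21760786, 0, 0, 0, 0, 1464401, 0, 0, 0, ⟨0, 0⟩, 0⟩ 0 0) (.pos 26 .mp ⟨23086123, 0, 0, 0, 0, 1677862, 0, 0, 0, ⟨0, 0⟩, 0⟩ 0 0))))) (.cut .s 9699328 (.cut .v 17301504 (.cut .l 1416742 (.cut .d (-131072) (.cut .v 17039360 (.pos 27 .mp ⟨11512406, 0, 0, 0, 0, 11208181, 0, 0, 0, ⟨0, 0⟩, 0⟩ 0 0) (.pos 28 .mp ⟨17371458, 0, 0, 0, 0, 2996439, 0, 0, 0, ⟨0, 0⟩, 0⟩ 0 0)) (.cut .d (-65536) (.cut .v 17039360 (.cut .s 9633792 (.pos 27 .mp ⟨12200715, 0, 0, 0, 0, 8080001, 0, 0, 0, ⟨0, 0⟩, 0⟩ 0 0) (.pos 27 .mp ⟨13121976, 0, 0, 0, 0, 8465305, 0, 0, 0, ⟨0, 0⟩, 0⟩ 0 0)) (.pos 28 .mp ⟨18748610, 0, 0, 0, 0, 0, 0, 0, 0, ⟨0, 0⟩, 0⟩ 0 0)) (.pos 25 .mp ⟨13541825, 0, 0, 0, 0, 0, 0, 0,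 0, ⟨0, 0⟩, 0⟩ 0 0))) (.pos 25 .mp ⟨14152319, 0, 0, 0, 0, 0, 0, 0, 0, ⟨0, 0⟩, 0⟩ 0 0)) (.pos 26 .mp ⟨19558872, 0, 0, 0, 0, 0, 0, 0, 0, ⟨0, 0⟩, 0⟩ 0 0)) (.cut .v 17301504 (.cut .l 1416742 (.cut .d (-131072) (.cut .v 17039360 (.pos 27 .mp ⟨13235728, 0, 0, 0, 0, 12505736, 0, 0, 0, ⟨0, 0⟩, 0⟩ 0 0) (.pos 28 .mp ⟨19849342, 0, 0, 0, 0, 3169173, 0, 0, 0, ⟨0, 0⟩, 0⟩ 0 0)) (.cut .d (-65536) (.cut .v 17039360 (.cut .s 9764864 (.pos 27 .mp ⟨14082977, 0, 0, 0, 0, 8894192, 0, 0, 0, ⟨0, 0⟩, 0⟩ 0 0) (.pos 27 .mp ⟨15084707, 0, 0, 0, 0, 9362502, 0, 0, 0, ⟨0, 0⟩, 0⟩ 0 0)) (.pos 28 .mp ⟨21212101, 0, 0, 0, 0, 0, 0, 0, 0, ⟨0, 0⟩, 0⟩ 0 0)) (.pos 25 .mp ⟨15584778, 0, 0, 0, 0, 0, 0, 0,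 0, ⟨0, 0⟩, 0⟩ 0 0))) (.pos 25 .mp ⟨16340066, 0, 0, 0, 0, 3813582, 0, 0, 0, ⟨0, 0⟩, 0⟩ 0 0)) (.pos 26 .mp ⟨22098281, 0, 0, 0, 0, 0, 0, 0, 0, ⟨0, 0⟩, 0⟩ 0 0)))) (.cut .d (-262144) (.cut .l 1416742 (.void 23 ⟨0, 0, 0, 0, 0, 100000, 0, 0, 0, ⟨0, 0⟩, 0⟩ 0 0) (.cut .v 17301504 (.cut .d (-393216) (.pos 25 .mp ⟨0, 0, 0, 0, 0, 43104565, 0, 0, 0, ⟨0, 0⟩, 0⟩ 0 0) (.cut .s 9961472 (.pos 25 .mp ⟨16090123, 0, 0, 0, 0, 13106151, 0, 0, 0, ⟨0, 0⟩, 0⟩ 0 0) (.pos 25 .mp ⟨18311351, 0, 0, 0, 0, 14592709, 0, 0, 0, ⟨0, 0⟩, 0⟩ 0 0))) (.cut .s 9961472 (.cut .s 9895936 (.pos 26 .mp ⟨24466505, 0, 0, 0, 0, 1913860, 0, 0, 0, ⟨0, 0⟩, 0⟩ 0 0) (.pos 26 .mp ⟨25908115, 0, 0, 0, 0, 2161928, 0, 0,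 0, ⟨0, 0⟩, 0⟩ 0 0)) (.cut .d (-393216) (.pos 26 .mp ⟨29266507, 0, 0, 0, 0, 2732866, 0, 0, 0, ⟨0, 0⟩, 0⟩ 0 0) (.pos 26 .mp ⟨28783904, 0, 0, 0, 0, 0, 0, 0, 0, ⟨0, 0⟩, 0⟩ 0 0))))) (.cut .s 9961472 (.cut .v 17301504 (.cut .l 1416742 (.cut .d (-131072) (.cut .v 17039360 (.pos 27 .mp ⟨15124148, 0, 0, 0, 0, 13908888, 0, 0, 0, ⟨0, 0⟩, 0⟩ 0 0) (.pos 28 .mp ⟨22559464, 0, 0, 0, 0, 3358865, 0, 0, 0, ⟨0, 0⟩, 0⟩ 0 0)) (.cut .v 17039360 (.cut .d (-65536) (.cut .s 9895936 (.pos 27 .mp ⟨16128194, 0, 0, 0, 0, 9866060, 0, 0, 0, ⟨0, 0⟩, 0⟩ 0 0) (.pos 27 .mp ⟨17214504, 0, 0, 0, 0, 10400664, 0, 0, 0, ⟨0, 0⟩, 0⟩ 0 0)) (.pos 27 .mp ⟨16977821, 0, 0, 0, 0, 0, 0, 0, 0, ⟨0, 0⟩, 0⟩ 0 0)) (.pos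 28 .mp ⟨23717310, 0, 0, 0, 0, 0, 0, 0, 0, ⟨0, 0⟩, 0⟩ 0 0))) (.pos 25 .mp ⟨18939615, 0, 0, 0, 0, 3830845, 0, 0, 0, ⟨0, 0⟩, 0⟩ 0 0)) (.pos 26 .mp ⟨24886840, 0, 0, 0, 0, 0, 0, 0, 0, ⟨0, 0⟩, 0⟩ 0 0)) (.cut .v 17301504 (.cut .l 1416742 (.cut .d (-131072) (.cut .l 913425 (.pos 25 .mp ⟨18957531, 0, 0, 0, 0, 16491914, 0, 0, 0, ⟨0, 0⟩, 0⟩ 0 0) (.cut .s 10027008 (.pos 25 .mp ⟨17684189, 0, 0, 0, 0, 13818853, 0, 0, 0, ⟨0, 0⟩, 0⟩ 0 0) (.pos 25 .mp ⟨18802451, 0, 0, 0, 0, 14591934, 0, 0, 0, ⟨0, 0⟩, 0⟩ 0 0))) (.cut .v 17039360 (.cut .d (-65536) (.cut .s 10027008 (.pos 27 .mp ⟨18344743, 0, 0, 0, 0, 10962085, 0, 0, 0, ⟨0, 0⟩, 0⟩ 0 0) (.pos 27 .mp ⟨19579261, 0, 0, 0, 0, 11413469,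 0, 0, 0, ⟨0, 0⟩, 0⟩ 0 0)) (.pos 27 .mp ⟨19327667, 0, 0, 0, 0, 0, 0, 0, 0, ⟨0, 0⟩, 0⟩ 0 0)) (.pos 28 .mp ⟨26631069, 0, 0, 0, 0, 0, 0, 0, 0, ⟨0, 0⟩, 0⟩ 0 0))) (.pos 25 .mp ⟨21732438, 0, 0, 0, 0, 3932569, 0, 0, 0, ⟨0, 0⟩, 0⟩ 0 0)) (.pos 26 .mp ⟨27924311, 0, 0, 0, 0, 0, 0, 0, 0, ⟨0, 0⟩, 0⟩ 0 0))))) (.cut .l 1416742 (.pos 24 .mp ⟨32757138, 0, 0, 0, 0, 0, 0, 0, 0, ⟨0, 0⟩, 0⟩ 0 0) (.cut .d (-262144) (.cut .s 9830400 (.pos 24 .mp ⟨25947582, 0, 0, 0, 0, 0, 0, 0, 0, ⟨0, 0⟩, 0⟩ 0 0) (.pos 24 .mp ⟨33348239, 0, 0, 0, 0, 0, 0, 0, 0, ⟨0, 0⟩, 0⟩ 0 0)) (.cut .s 9830400 (.pos 24 .mp ⟨21906009, 0, 0, 0, 0, 0, 0, 0, 0, ⟨0, 0⟩, 0⟩ 0 0) (.pos 24 .mp ⟨28074807, 0, 0, 0, 0, 0, 0, 0, 0,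 ⟨0, 0⟩, 0⟩ 0 0)))))) (.pos 22 .mp ⟨46284351, 0, 0, 0, 0, 0, 0, 0, 0, ⟨0, 0⟩, 0⟩ 0 0)))))) (.void 20 ⟨100000, 0, 0, 0, 0, 0, 0, 0, 0, ⟨0, 0⟩, 0⟩ 0 0)) (.void 18 ⟨100000, 0, 0, 0, 0, 0, 0, 0, 0, ⟨0, 0⟩, 0⟩ 0 0)) (.void 45 ⟨100000, 0, 0, 0, 0, 0, 0, 0, 0, ⟨0, 0⟩, 0⟩ 0 0)) (.void 60 ⟨100000, 0, 0, 0, 0, 0, 0, 0, 0, ⟨0, 0⟩, 0⟩ 0 0))) (.cut .v 16777216 (.cut .v 8388608 (.cut .v 4194304 (.void 4 ⟨0, 0, 50000, 0, 50000, 0, 0, 0, 0, ⟨0, 0⟩, 0⟩ 0 0) (.pos 5 .pm ⟨0, 0, 0, 0, 0, 0, 0, 0, 3892828, ⟨0, 0⟩, 9975792⟩ 0 0)) (.cut .d 6320185 (.pos 3 .pm ⟨0, 0, 0, 0, 0, 0, 0, 0, 0, ⟨0, 0⟩, 0⟩ 0 0) (.cut .d 9480278 (.pos 3 .pm ⟨0, 820576, 0, 0, 0, 0, 0, 0, 7714762, ⟨0, 0⟩, 14107901⟩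 0 0) (.pos 3 .pm ⟨0, 42230563, 0, 0, 0, 0, 0, 0, 16544286, ⟨0, 0⟩, 14107901⟩ 0 0)))) (.cut .v 67108864 (.cut .d 6320185 (.cut .d 3160092 (.cut .v 33554432 (.cut .d 1580046 (.cut .v 25165824 (.cut .d 790023 (.cut .v 20971520 (.cut .d 395011 (.cut .v 18874368 (.cut .d 197505 (.cut .v 17825792 (.cut .v 17301504 (.pos 25 .pp ⟨11587213, 0, 0, 0, 0, 0, 0, 0, 0, ⟨0, 0⟩, 0⟩ 0 0) (.pos 26 .pp ⟨18891349, 0, 0, 0, 0, 0, 0, 0, 0, ⟨0, 0⟩, 0⟩ 0 0)) (.pos 24 .pp ⟨22033725, 0, 0, 0, 0, 0, 0, 0, 0, ⟨0, 0⟩, 0⟩ 0 0)) (.pos 21 .pp ⟨10817807, 0, 0, 0, 0, 0, 0, 0, 0, ⟨0, 0⟩, 0⟩ 0 0)) (.pos 22 .pp ⟨28573199, 0, 0, 0, 0, 0, 0, 0, 0, ⟨0, 0⟩, 0⟩ 0 0)) (.pos 19 .pp ⟨10474608, 0, 0, 0, 0,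 0, 0, 0, 0, ⟨0, 0⟩, 0⟩ 0 0)) (.pos 20 .pp ⟨44375805, 0, 0, 0, 0, 0, 0, 0, 0, ⟨0, 0⟩, 0⟩ 0 0)) (.pos 17 .pp ⟨6424939, 0, 0, 0, 0, 0, 0, 0, 0, ⟨0, 0⟩, 0⟩ 0 0)) (.pos 18 .pp ⟨90046011, 0, 0, 0, 0, 0, 0, 0, 0, ⟨0, 0⟩, 0⟩ 0 0)) (.pos 16 .pp ⟨0, 0, 0, 0, 0, 0, 0, 0, 0, ⟨0, 0⟩, 0⟩ 0 0)) (.cut .d 1580046 (.void 45 ⟨100000, 0, 0, 0, 0, 0, 0, 0, 0, ⟨0, 0⟩, 0⟩ 0 0) (.cut .v 50331648 (.pos 46 .pp ⟨106117562, 0, 0, 0, 0, 0, 0, 0, 0, ⟨0, 0⟩, 0⟩ 0 0) (.pos 47 .pp ⟨380002803, 23533180, 0, 0, 0, 0, 0, 0, 0, ⟨0, 0⟩, 0⟩ 0 0)))) (.pos 44 .pp ⟨0, 0, 0, 0, 0, 0, 2872192, 0, 0, ⟨0, 0⟩, 0⟩ 0 0)) (.pos 44 .pp ⟨0, 10118535, 0, 0, 0, 0, 0, 0, 0, ⟨0, 0⟩, 0⟩ 0 0)) (.void 60 ⟨37646, 62354,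 0, 0, 0, 0, 0, 0, 0, ⟨0, 0⟩, 0⟩ 0 0)))),
    by decide +kernel⟩

def covers13 : cell.Covers table row13.1 :=
  ⟨(.cut .d 0 (.cut .v 16777216 (.cut .d (-8388608) (.void 1 ⟨0, 0, 0, 0, 0, 100000, 0, 0, 0, ⟨0, 0⟩, 0⟩ 0 0) (.cut .d (-4194304) (.void 1 ⟨0, 0, 0, 0, 0, 100000, 0, 0, 0, ⟨0, 0⟩, 0⟩ 0 0) (.cut .d (-2097152) (.void 1 ⟨0, 0, 0, 0, 0, 100000, 0, 0, 0, ⟨0, 0⟩, 0⟩ 0 0) (.cut .d (-1048576) (.void 1 ⟨0, 0, 0, 0, 0, 100000, 0, 0, 0, ⟨0, 0⟩, 0⟩ 0 0) (.cut .d (-524288) (.void 1 ⟨0, 0, 0, 0, 0, 100000, 0, 0, 0, ⟨0, 0⟩, 0⟩ 0 0) (.cut .v 8388608 (.cut .v 4194304 (.void 4 ⟨0, 0, 100000, 0, 0, 0, 0, 0, 0, ⟨0, 0⟩, 0⟩ 0 0) (.pos 5 .mm ⟨0, 0, 0, 0, 0, 5095335, 0, 0, 0, ⟨0,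 0⟩, 0⟩ 0 0)) (.cut .s 10289152 (.pos 3 .mm ⟨0, 0, 0, 0, 0, 40509306, 0, 0, 0, ⟨0, 0⟩, 0⟩ 0 0) (.pos 3 .mm ⟨0, 0, 0, 0, 0, 48915318, 0, 0, 0, ⟨0, 0⟩, 0⟩ 0 0)))))))) (.cut .v 67108864 (.cut .v 33554432 (.cut .v 25165824 (.cut .v 20971520 (.cut .d (-8388608) (.void 19 ⟨0, 0, 0, 0, 0, 100000, 0, 0, 0, ⟨0, 0⟩, 0⟩ 0 0) (.cut .d (-4194304) (.void 19 ⟨0, 0, 0, 0, 0, 100000, 0, 0, 0, ⟨0, 0⟩, 0⟩ 0 0) (.cut .d (-2097152) (.void 19 ⟨100000, 0, 0, 0, 0, 0, 0, 0, 0, ⟨0, 0⟩, 0⟩ 0 0) (.cut .d (-1048576) (.void 19 ⟨0, 0, 0, 0, 0, 100000, 0, 0, 0, ⟨0, 0⟩, 0⟩ 0 0) (.cut .v 18874368 (.cut .d (-524288) (.void 21 ⟨0, 0, 0, 0, 0, 100000, 0, 0, 0, ⟨0, 0⟩, 0⟩ 0 0) (.cut .v 17825792 (.cut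 .d (-262144) (.cut .l 1416742 (.void 23 ⟨0, 0, 0, 0, 0, 100000, 0, 0, 0, ⟨0, 0⟩, 0⟩ 0 0) (.cut .s 10289152 (.cut .v 17301504 (.cut .s 10190848 (.pos 25 .mp ⟨13944766, 0, 0, 0, 0, 25243975, 0, 0, 0, ⟨0, 0⟩, 0⟩ 0 0) (.pos 25 .mp ⟨15382720, 0, 0, 0, 0, 27467968, 0, 0, 0, ⟨0, 0⟩, 0⟩ 0 0)) (.cut .d (-393216) (.pos 26 .mp ⟨28887535, 0, 0, 0, 0, 15558614, 0, 0, 0, ⟨0, 0⟩, 0⟩ 0 0) (.cut .s 10190848 (.pos 26 .mp ⟨31031366, 0, 0, 0, 0, 1064011, 0, 0, 0, ⟨0, 0⟩, 0⟩ 0 0) (.pos 26 .mp ⟨34223551, 0, 0, 0, 0, 612372, 0, 0, 0, ⟨0, 0⟩, 0⟩ 0 0)))) (.cut .d (-393216) (.void 23 ⟨0, 0, 0, 0, 0, 100000, 0, 0, 0, ⟨0, 0⟩, 0⟩ 0 0) (.cut .v 17301504 (.cut .s 10387456 (.pos 25 .mp ⟨24783897,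 0, 0, 0, 0, 18413846, 0, 0, 0, ⟨0, 0⟩, 0⟩ 0 0) (.pos 25 .mp ⟨27019396, 0, 0, 0, 0, 20009610, 0, 0, 0, ⟨0, 0⟩, 0⟩ 0 0)) (.cut .s 10387456 (.pos 26 .mp ⟨37000932, 0, 0, 0, 0, 1071638, 0, 0, 0, ⟨0, 0⟩, 0⟩ 0 0) (.pos 26 .mp ⟨39795444, 0, 0, 0, 0, 1973673, 0, 0, 0, ⟨0, 0⟩, 0⟩ 0 0)))))) (.cut .s 10289152 (.cut .l 1416742 (.cut .v 17301504 (.cut .d (-131072) (.cut .d (-196608) (.pos 25 .mp ⟨21363270, 0, 0, 0, 0, 20345349, 0, 0, 0, ⟨0, 0⟩, 0⟩ 0 0) (.cut .l 913425 (.cut .s 10190848 (.pos 25 .mp ⟨21384964, 0, 0, 0, 0, 16807594, 0, 0, 0, ⟨0, 0⟩, 0⟩ 0 0) (.pos 25 .mp ⟨23506963, 0, 0, 0, 0, 17886140, 0, 0, 0, ⟨0, 0⟩, 0⟩ 0 0)) (.cut .v 17039360 (.pos 27 .mp ⟨13100013, 0, 0,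 0, 0, 24928209, 0, 0, 0, ⟨0, 0⟩, 0⟩ 0 0) (.pos 28 .mp ⟨27451094, 0, 0, 0, 0, 4658635, 0, 0, 0, ⟨0, 0⟩, 0⟩ 0 0)))) (.cut .l 913425 (.cut .v 17039360 (.cut .d (-65536) (.cut .s 10190848 (.cut .s 10141696 (.pos 27 .mp ⟨20565555, 0, 0, 0, 0, 12314656, 0, 0, 0, ⟨0, 0⟩, 0⟩ 0 0) (.pos 27 .mp ⟨21528004, 0, 0, 0, 0, 12746524, 0, 0, 0, ⟨0, 0⟩, 0⟩ 0 0)) (.cut .s 10240000 (.pos 27 .mp ⟨22519532, 0, 0, 0, 0, 13200301, 0, 0, 0, ⟨0, 0⟩, 0⟩ 0 0) (.pos 27 .mp ⟨23540694, 0, 0, 0, 0, 13676576, 0, 0, 0, ⟨0, 0⟩, 0⟩ 0 0))) (.cut .v 16908288 (.pos 50 .mp ⟨21109864, 0, 0, 0, 0, 7711490, 0, 0, 0, ⟨0, 0⟩, 0⟩ 0 0) (.pos 51 .mp ⟨28605792, 0, 0, 0, 0, 0, 0, 0, 0, ⟨0, 0⟩, 0⟩ 0 0))) (.pos 28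 .mp ⟨30961999, 0, 0, 0, 0, 0, 0, 0, 0, ⟨0, 0⟩, 0⟩ 0 0)) (.pos 25 .mp ⟨22907453, 0, 0, 0, 0, 0, 0, 0, 0, ⟨0, 0⟩, 0⟩ 0 0))) (.pos 26 .mp ⟨33153280, 0, 0, 0, 0, 0, 0, 0, 0, ⟨0, 0⟩, 0⟩ 0 0)) (.cut .v 17301504 (.cut .s 10190848 (.pos 25 .mp ⟨24192906, 0, 0, 0, 0, 4707881, 0, 0, 0, ⟨0, 0⟩, 0⟩ 0 0) (.pos 25 .mp ⟨26712260, 0, 0, 0, 0, 4753344, 0, 0, 0, ⟨0, 0⟩, 0⟩ 0 0)) (.pos 26 .mp ⟨30793100, 0, 0, 0, 0, 0, 0, 0, 0, ⟨0, 0⟩, 0⟩ 0 0))) (.cut .s 10387456 (.cut .v 17301504 (.cut .l 1416742 (.cut .d (-131072) (.cut .v 17039360 (.pos 27 .mp ⟨23166536, 0, 0, 0, 0, 19521877, 0, 0, 0, ⟨0, 0⟩, 0⟩ 0 0) (.pos 28 .mp ⟨33191163, 0, 0, 0, 0, 4754297, 0, 0, 0, ⟨0, 0⟩, 0⟩ 0 0)) (.cut .v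 17039360 (.cut .l 913425 (.cut .l 661767 (.cut .d (-65536) (.cut .s 10338304 (.pos 27 .mp ⟨24592060, 0, 0, 0, 0, 14175955, 0, 0, 0, ⟨0, 0⟩, 0⟩ 0 0) (.pos 27 .mp ⟨25674221, 0, 0, 0, 0, 14699066, 0, 0, 0, ⟨0, 0⟩, 0⟩ 0 0)) (.cut .s 10338304 (.pos 27 .mp ⟨24648902, 0, 0, 0, 0, 9798142, 0, 0, 0, ⟨0, 0⟩, 0⟩ 0 0) (.pos 27 .mp ⟨25732295, 0, 0, 0, 0, 10241371, 0, 0, 0, ⟨0, 0⟩, 0⟩ 0 0))) (.pos 27 .mp ⟨27171981, 0, 0, 0, 0, 7161405, 0, 0, 0, ⟨0, 0⟩, 0⟩ 0 0)) (.pos 27 .mp ⟨0, 0, 0, 0, 0, 0, 0, 0, 0, ⟨0, 0⟩, 0⟩ 0 0)) (.pos 28 .mp ⟨34961569, 0, 0, 0, 0, 0, 0, 0, 0, ⟨0, 0⟩, 0⟩ 0 0))) (.pos 25 .mp ⟨29371897, 0, 0, 0, 0, 4888726, 0, 0, 0, ⟨0, 0⟩, 0⟩ 0 0)) (.pos 26 .mp ⟨36493921,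 0, 0, 0, 0, 0, 0, 0, 0, ⟨0, 0⟩, 0⟩ 0 0)) (.cut .v 17301504 (.cut .l 1416742 (.cut .d (-131072) (.cut .s 10436608 (.pos 25 .mp ⟨26959291, 0, 0, 0, 0, 17921763, 0, 0, 0, ⟨0, 0⟩, 0⟩ 0 0) (.pos 25 .mp ⟨28054367, 0, 0, 0, 0, 18757324, 0, 0, 0, ⟨0, 0⟩, 0⟩ 0 0)) (.cut .v 17039360 (.cut .l 913425 (.cut .l 661767 (.cut .d (-65536) (.cut .s 10436608 (.pos 27 .mp ⟨26787784, 0, 0, 0, 0, 15246554, 0, 0, 0, ⟨0, 0⟩, 0⟩ 0 0) (.pos 27 .mp ⟨27909081, 0, 0, 0, 0, 15897468, 0, 0, 0, ⟨0, 0⟩, 0⟩ 0 0)) (.cut .s 10436608 (.pos 27 .mp ⟨26847119, 0, 0, 0, 0, 10707610, 0, 0, 0, ⟨0, 0⟩, 0⟩ 0 0) (.pos 27 .mp ⟨27994042, 0, 0, 0, 0, 11194424, 0, 0, 0, ⟨0, 0⟩, 0⟩ 0 0))) (.pos 27 .mp ⟨29517847,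 0, 0, 0, 0, 8003750, 0, 0, 0, ⟨0, 0⟩, 0⟩ 0 0)) (.pos 27 .mp ⟨27133864, 0, 0, 0, 0, 0, 0, 0, 0, ⟨0, 0⟩, 0⟩ 0 0)) (.pos 28 .mp ⟨37936002, 0, 0, 0, 0, 0, 0, 0, 0, ⟨0, 0⟩, 0⟩ 0 0))) (.pos 25 .mp ⟨32178033, 0, 0, 0, 0, 5092434, 0, 0, 0, ⟨0, 0⟩, 0⟩ 0 0)) (.pos 26 .mp ⟨39587572, 0, 0, 0, 0, 0, 0, 0, 0, ⟨0, 0⟩, 0⟩ 0 0))))) (.cut .d (-262144) (.pos 24 .mp ⟨46652527, 0, 0, 0, 0, 0, 0, 0, 0, ⟨0, 0⟩, 0⟩ 0 0) (.cut .s 10289152 (.pos 24 .mp ⟨35317594, 0, 0, 0, 0, 0, 0, 0, 0, ⟨0, 0⟩, 0⟩ 0 0) (.pos 24 .mp ⟨41694054, 0, 0, 0, 0, 0, 0, 0, 0, ⟨0, 0⟩, 0⟩ 0 0))))) (.pos 22 .mp ⟨64047285, 0, 0, 0, 0, 0, 0, 0, 0, ⟨0, 0⟩, 0⟩ 0 0)))))) (.void 20 ⟨100000, 0, 0, 0, 0, 0, 0, 0, 0, ⟨0, 0⟩,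 0⟩ 0 0)) (.void 18 ⟨100000, 0, 0, 0, 0, 0, 0, 0, 0, ⟨0, 0⟩, 0⟩ 0 0)) (.void 45 ⟨100000, 0, 0, 0, 0, 0, 0, 0, 0, ⟨0, 0⟩, 0⟩ 0 0)) (.void 60 ⟨100000, 0, 0, 0, 0, 0, 0, 0, 0, ⟨0, 0⟩, 0⟩ 0 0))) (.cut .v 16777216 (.cut .v 8388608 (.cut .v 4194304 (.void 4 ⟨0, 0, 50000, 0, 50000, 0, 0, 0, 0, ⟨0, 0⟩, 0⟩ 0 0) (.pos 5 .pm ⟨0, 0, 0, 0, 0, 0, 0, 0, 6421419, ⟨0, 0⟩, 9975792⟩ 0 0)) (.cut .d 5556092 (.pos 3 .pm ⟨0, 0, 0, 0, 0, 0, 0, 0, 0, ⟨0, 0⟩, 0⟩ 0 0) (.cut .v 12582912 (.cut .d 8334138 (.pos 6 .pm ⟨0, 0, 0, 0, 0, 0, 0, 0, 7490492, ⟨0, 0⟩, 13128881⟩ 0 0) (.pos 6 .pm ⟨0, 18338150, 0, 0, 0, 0, 0, 0, 8900073, ⟨0, 0⟩, 13128881⟩ 0 0)) (.cut .d 8334138 (.pos 7 .pm ⟨0, 5918353, 0,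 0, 0, 0, 0, 6733342, 1881183, ⟨6735009, 87856⟩, 15612959⟩ 218 287) (.pos 7 .pm ⟨0, 20871401, 0, 0, 0, 0, 0, 0, 6122961, ⟨0, 0⟩, 15612959⟩ 0 0))))) (.cut .v 67108864 (.cut .d 5556092 (.cut .d 2778046 (.cut .v 33554432 (.cut .d 1389023 (.cut .v 25165824 (.cut .d 694511 (.cut .v 20971520 (.cut .d 347255 (.cut .v 18874368 (.cut .v 17825792 (.pos 23 .pp ⟨24474451, 0, 0, 0, 0, 0, 0, 0, 0, ⟨0, 0⟩, 0⟩ 0 0) (.pos 24 .pp ⟨32763118, 0, 0, 0, 0, 0, 0, 0, 0, ⟨0, 0⟩, 0⟩ 0 0)) (.pos 22 .pp ⟨41668546, 0, 0, 0, 0, 0, 0, 0, 0, ⟨0, 0⟩, 0⟩ 0 0)) (.pos 19 .pp ⟨19378761, 0, 0, 0, 0, 0, 0, 0, 0, ⟨0, 0⟩, 0⟩ 0 0)) (.pos 20 .pp ⟨62450011, 0, 0, 0, 0, 0, 0, 0, 0, ⟨0, 0⟩, 0⟩ 0 0)) (.pos 17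 .pp ⟨17084313, 0, 0, 0, 0, 0, 0, 0, 0, ⟨0, 0⟩, 0⟩ 0 0)) (.pos 18 .pp ⟨121379801, 0, 0, 0, 0, 0, 0, 0, 0, ⟨0, 0⟩, 0⟩ 0 0)) (.pos 16 .pp ⟨2797130, 0, 0, 0, 0, 0, 0, 0, 0, ⟨0, 0⟩, 0⟩ 0 0)) (.cut .v 50331648 (.cut .d 1389023 (.void 46 ⟨100000, 0, 0, 0, 0, 0, 0, 0, 0, ⟨0, 0⟩, 0⟩ 0 0) (.pos 46 .pp ⟨159906909, 0, 0, 0, 0, 0, 0, 0, 0, ⟨0, 0⟩, 0⟩ 0 0)) (.pos 47 .pp ⟨657549362, 0, 0, 0, 0, 0, 0, 0, 0, ⟨0, 0⟩, 0⟩ 0 0))) (.pos 44 .pp ⟨0, 0, 0, 0, 0, 0, 2654232, 0, 0, ⟨0, 0⟩, 0⟩ 0 0)) (.pos 44 .pp ⟨0, 13282177, 0, 0, 0, 0, 0, 0, 0, ⟨0, 0⟩, 0⟩ 0 0)) (.void 60 ⟨37538, 62462, 0, 0, 0, 0, 0, 0, 0, ⟨0, 0⟩, 0⟩ 0 0)))),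
    by decide +kernel⟩

def covers14 : cell.Covers table row14.1 :=
  ⟨(.cut .d 0 (.cut .v 16777216 (.cut .d (-8388608) (.void 1 ⟨0, 0, 0, 0, 0, 100000, 0, 0, 0, ⟨0, 0⟩, 0⟩ 0 0) (.cut .d (-4194304) (.void 1 ⟨0, 0, 0, 0, 0, 100000, 0, 0, 0, ⟨0, 0⟩, 0⟩ 0 0) (.cut .d (-2097152) (.void 1 ⟨0, 0, 0, 0, 0, 100000, 0, 0, 0, ⟨0, 0⟩, 0⟩ 0 0) (.cut .d (-1048576) (.void 1 ⟨0, 0, 0, 0, 0, 100000, 0, 0, 0, ⟨0, 0⟩, 0⟩ 0 0) (.cut .d (-524288) (.void 1 ⟨0, 0, 0, 0, 0, 100000, 0, 0, 0, ⟨0, 0⟩, 0⟩ 0 0) (.cut .v 8388608 (.cut .v 4194304 (.void 4 ⟨0, 0, 100000, 0, 0, 0, 0, 0, 0, ⟨0, 0⟩, 0⟩ 0 0) (.pos 5 .mm ⟨0, 0, 0, 0, 0, 9483061, 0, 0, 0, ⟨0, 0⟩, 0⟩ 0 0)) (.cut .s 10682368 (.pos 3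 .mm ⟨0, 0, 0, 0, 0, 57341554, 0, 0, 0, ⟨0, 0⟩, 0⟩ 0 0) (.pos 3 .mm ⟨0, 0, 0, 0, 0, 68940022, 0, 0, 0, ⟨0, 0⟩, 0⟩ 0 0)))))))) (.cut .v 67108864 (.cut .v 33554432 (.cut .v 25165824 (.cut .v 20971520 (.cut .d (-8388608) (.void 19 ⟨0, 0, 0, 0, 0, 100000, 0, 0, 0, ⟨0, 0⟩, 0⟩ 0 0) (.cut .d (-4194304) (.void 19 ⟨100000, 0, 0, 0, 0, 0, 0, 0, 0, ⟨0, 0⟩, 0⟩ 0 0) (.cut .d (-2097152) (.void 19 ⟨100000, 0, 0, 0, 0, 0, 0, 0, 0, ⟨0, 0⟩, 0⟩ 0 0) (.cut .d (-1048576) (.void 19 ⟨0, 0, 0, 0, 0, 100000, 0, 0, 0, ⟨0, 0⟩, 0⟩ 0 0) (.cut .v 18874368 (.cut .d (-524288) (.void 21 ⟨0, 0, 0, 0, 0, 100000, 0, 0, 0, ⟨0, 0⟩, 0⟩ 0 0) (.cut .v 17825792 (.cut .d (-262144) (.cut .d (-393216) (.void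 23 ⟨0, 0, 0, 0, 0, 100000, 0, 0, 0, ⟨0, 0⟩, 0⟩ 0 0) (.cut .l 1416742 (.void 23 ⟨0, 0, 0, 0, 0, 100000, 0, 0, 0, ⟨0, 0⟩, 0⟩ 0 0) (.cut .s 10682368 (.cut .v 17301504 (.cut .s 10584064 (.pos 25 .mp ⟨29402215, 0, 0, 0, 0, 20365132, 0, 0, 0, ⟨0, 0⟩, 0⟩ 0 0) (.pos 25 .mp ⟨31844664, 0, 0, 0, 0, 22493934, 0, 0, 0, ⟨0, 0⟩, 0⟩ 0 0)) (.cut .s 10584064 (.pos 26 .mp ⟨41822840, 0, 0, 0, 0, 3309887, 0, 0, 0, ⟨0, 0⟩, 0⟩ 0 0) (.pos 26 .mp ⟨45719297, 0, 0, 0, 0, 3125083, 0, 0, 0, ⟨0, 0⟩, 0⟩ 0 0))) (.cut .v 17301504 (.pos 25 .mp ⟨34455055, 0, 0, 0, 0, 28100701, 0, 0, 0, ⟨0, 0⟩, 0⟩ 0 0) (.pos 26 .mp ⟨54093309, 0, 0, 0, 0, 0, 0, 0, 0, ⟨0, 0⟩, 0⟩ 0 0))))) (.cut .s 10682368 (.cut .s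 10584064 (.cut .v 17301504 (.cut .l 1416742 (.cut .v 17039360 (.cut .d (-131072) (.pos 27 .mp ⟨22893132, 0, 0, 0, 0, 27729497, 0, 0, 0, ⟨0, 0⟩, 0⟩ 0 0) (.cut .d (-65536) (.pos 27 .mp ⟨28242176, 0, 0, 0, 0, 17831625, 0, 0, 0, ⟨0, 0⟩, 0⟩ 0 0) (.pos 27 .mp ⟨28242176, 0, 0, 0, 0, 12867979, 0, 0, 0, ⟨0, 0⟩, 0⟩ 0 0))) (.pos 28 .mp ⟨41571641, 0, 0, 0, 0, 0, 0, 0, 0, ⟨0, 0⟩, 0⟩ 0 0)) (.pos 25 .mp ⟨32240427, 0, 0, 0, 0, 8941923, 0, 0, 0, ⟨0, 0⟩, 0⟩ 0 0)) (.pos 26 .mp ⟨42280522, 0, 0, 0, 0, 0, 0, 0, 0, ⟨0, 0⟩, 0⟩ 0 0)) (.cut .s 10633216 (.cut .v 17301504 (.pos 25 .mp ⟨39612866, 0, 0, 0, 0, 4728455, 0, 0, 0, ⟨0, 0⟩, 0⟩ 0 0) (.pos 26 .mp ⟨44935388, 0, 0, 0, 0, 0, 0, 0, 0,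 ⟨0, 0⟩, 0⟩ 0 0)) (.pos 23 .mp ⟨43450134, 0, 0, 0, 0, 1689905, 0, 0, 0, ⟨0, 0⟩, 0⟩ 0 0))) (.cut .s 10780672 (.cut .s 10731520 (.pos 23 .mp ⟨45182426, 0, 0, 0, 0, 1814749, 0, 0, 0, ⟨0, 0⟩, 0⟩ 0 0) (.pos 23 .mp ⟨46970942, 0, 0, 0, 0, 1947148, 0, 0, 0, ⟨0, 0⟩, 0⟩ 0 0)) (.pos 23 .mp ⟨50674541, 0, 0, 0, 0, 0, 0, 0, 0, ⟨0, 0⟩, 0⟩ 0 0)))) (.cut .s 10682368 (.cut .d (-262144) (.pos 24 .mp ⟨54924183, 0, 0, 0, 0, 0, 0, 0, 0, ⟨0, 0⟩, 0⟩ 0 0) (.pos 24 .mp ⟨48129792, 0, 0, 0, 0, 0, 0, 0, 0, ⟨0, 0⟩, 0⟩ 0 0)) (.pos 24 .mp ⟨61125244, 0, 0, 0, 0, 0, 0, 0, 0, ⟨0, 0⟩, 0⟩ 0 0)))) (.pos 22 .mp ⟨85546556, 0, 0, 0, 0, 0, 0, 0, 0, ⟨0, 0⟩, 0⟩ 0 0)))))) (.void 20 ⟨100000, 0, 0, 0, 0, 0,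 0, 0, 0, ⟨0, 0⟩, 0⟩ 0 0)) (.void 18 ⟨100000, 0, 0, 0, 0, 0, 0, 0, 0, ⟨0, 0⟩, 0⟩ 0 0)) (.void 45 ⟨100000, 0, 0, 0, 0, 0, 0, 0, 0, ⟨0, 0⟩, 0⟩ 0 0)) (.void 60 ⟨100000, 0, 0, 0, 0, 0, 0, 0, 0, ⟨0, 0⟩, 0⟩ 0 0))) (.cut .v 16777216 (.cut .v 8388608 (.cut .v 4194304 (.pos 4 .pm ⟨0, 0, 34730931, 0, 0, 0, 0, 0, 71064376, ⟨0, 0⟩, 3966728⟩ 0 0) (.cut .d 5033166 (.pos 5 .pm ⟨0, 0, 0, 0, 0, 0, 0, 0, 0, ⟨0, 0⟩, 0⟩ 0 0) (.pos 5 .pm ⟨0, 0, 0, 0, 0, 0, 0, 0, 20345852, ⟨0, 0⟩, 9975792⟩ 0 0))) (.cut .d 5033166 (.pos 3 .pm ⟨0, 0, 0, 0, 0, 0, 0, 0, 0, ⟨0, 0⟩, 0⟩ 0 0) (.cut .d 7549749 (.cut .v 12582912 (.pos 6 .pm ⟨0, 0, 0, 0, 0, 0, 0, 0, 4603597, ⟨0, 0⟩, 13128881⟩ 0 0) (.pos 7 .pm ⟨0,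 0, 0, 0, 0, 0, 0, 10655618, 0, ⟨6751595, 69780⟩, 0⟩ 224 291)) (.cut .v 12582912 (.cut .v 10485760 (.pos 8 .pm ⟨0, 28614667, 0, 0, 0, 0, 0, 0, 7187610, ⟨0, 0⟩, 12543895⟩ 0 0) (.cut .d 8808040 (.pos 9 .pm ⟨0, 26819294, 0, 0, 0, 0, 0, 0, 5432221, ⟨0, 0⟩, 13882102⟩ 0 0) (.void 9 ⟨0, 92862, 0, 0, 0, 0, 0, 0, 7138, ⟨0, 0⟩, 13882102⟩ 0 0))) (.pos 7 .pm ⟨0, 33609255, 0, 0, 0, 0, 0, 0, 0, ⟨0, 0⟩, 0⟩ 0 0))))) (.cut .v 67108864 (.cut .d 5033166 (.cut .d 2516583 (.cut .v 33554432 (.cut .d 1258291 (.cut .v 25165824 (.cut .d 629145 (.cut .v 20971520 (.cut .v 18874368 (.cut .v 17825792 (.pos 23 .pp ⟨28577610, 0, 0, 0, 0, 0, 0, 0, 0, ⟨0, 0⟩, 0⟩ 0 0) (.pos 24 .pp ⟨42526106, 0,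 0, 0, 0, 0, 0, 0, 0, ⟨0, 0⟩, 0⟩ 0 0)) (.pos 22 .pp ⟨53142641, 0, 0, 0, 0, 0, 0, 0, 0, ⟨0, 0⟩, 0⟩ 0 0)) (.pos 20 .pp ⟨82768366, 0, 0, 0, 0, 0, 0, 0, 0, ⟨0, 0⟩, 0⟩ 0 0)) (.pos 17 .pp ⟨26891016, 0, 0, 0, 0, 0, 0, 0, 0, ⟨0, 0⟩, 0⟩ 0 0)) (.cut .d 629145 (.void 18 ⟨100000, 0, 0, 0, 0, 0, 0, 0, 0, ⟨0, 0⟩, 0⟩ 0 0) (.pos 18 .pp ⟨116858322, 0, 0, 0, 0, 0, 0, 0, 0, ⟨0, 0⟩, 0⟩ 0 0))) (.pos 16 .pp ⟨15225083, 0, 0, 0, 0, 0, 0, 0, 0, ⟨0, 0⟩, 0⟩ 0 0)) (.cut .v 50331648 (.cut .d 1258291 (.void 46 ⟨100000, 0, 0, 0, 0, 0, 0, 0, 0, ⟨0, 0⟩, 0⟩ 0 0) (.pos 46 .pp ⟨214618996, 0, 0, 0, 0, 0, 0, 0, 0, ⟨0, 0⟩, 0⟩ 0 0)) (.pos 47 .pp ⟨810438442, 0, 0, 0, 0, 0, 0, 0, 0, ⟨0, 0⟩, 0⟩ 0 0))) (.pos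 44 .pp ⟨0, 0, 0, 0, 0, 0, 0, 0, 0, ⟨0, 0⟩, 0⟩ 0 0)) (.pos 44 .pp ⟨0, 17057125, 0, 0, 0, 0, 0, 0, 0, ⟨0, 0⟩, 0⟩ 0 0)) (.void 60 ⟨37231, 62769, 0, 0, 0, 0, 0, 0, 0, ⟨0, 0⟩, 0⟩ 0 0)))),
    by decide +kernel⟩

def covers15 : cell.Covers table row15.1 :=
  ⟨(.cut .d 0 (.cut .v 16777216 (.cut .d (-8388608) (.void 1 ⟨0, 0, 0, 0, 0, 100000, 0, 0, 0, ⟨0, 0⟩, 0⟩ 0 0) (.cut .d (-4194304) (.void 1 ⟨0, 0, 0, 0, 0, 100000, 0, 0, 0, ⟨0, 0⟩, 0⟩ 0 0) (.cut .d (-2097152) (.void 1 ⟨0, 0, 0, 0, 0, 100000, 0, 0, 0, ⟨0, 0⟩, 0⟩ 0 0) (.cut .d (-1048576) (.void 1 ⟨0, 0, 0, 0, 0, 100000, 0, 0, 0, ⟨0, 0⟩, 0⟩ 0 0) (.cut .d (-524288) (.void 1 ⟨0, 0, 0, 0, 0, 100000, 0, 0, 0, ⟨0, 0⟩, 0⟩ 0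 0) (.cut .v 8388608 (.cut .v 4194304 (.void 4 ⟨0, 0, 100000, 0, 0, 0, 0, 0, 0, ⟨0, 0⟩, 0⟩ 0 0) (.pos 5 .mm ⟨0, 0, 0, 0, 0, 16269481, 0, 0, 0, ⟨0, 0⟩, 0⟩ 0 0)) (.pos 3 .mm ⟨0, 0, 0, 0, 0, 90232627, 0, 0, 0, ⟨0, 0⟩, 0⟩ 0 0))))))) (.cut .v 67108864 (.cut .v 33554432 (.cut .v 25165824 (.cut .d (-8388608) (.void 17 ⟨0, 0, 0, 0, 0, 100000, 0, 0, 0, ⟨0, 0⟩, 0⟩ 0 0) (.cut .v 20971520 (.cut .d (-4194304) (.void 19 ⟨100000, 0, 0, 0, 0, 0, 0, 0, 0, ⟨0, 0⟩, 0⟩ 0 0) (.cut .d (-2097152) (.void 19 ⟨100000, 0, 0, 0, 0, 0, 0, 0, 0, ⟨0, 0⟩, 0⟩ 0 0) (.cut .v 18874368 (.cut .d (-1048576) (.void 21 ⟨100000, 0, 0, 0, 0, 0, 0, 0, 0, ⟨0, 0⟩, 0⟩ 0 0) (.cut .d (-524288) (.void 21 ⟨0, 0,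 0, 0, 0, 100000, 0, 0, 0, ⟨0, 0⟩, 0⟩ 0 0) (.cut .d (-262144) (.cut .v 17825792 (.cut .s 11108352 (.pos 23 .mp ⟨42668914, 0, 0, 0, 0, 46500609, 0, 0, 0, ⟨0, 0⟩, 0⟩ 0 0) (.pos 23 .mp ⟨51135826, 0, 0, 0, 0, 56867939, 0, 0, 0, ⟨0, 0⟩, 0⟩ 0 0)) (.void 24 ⟨100000, 0, 0, 0, 0, 0, 0, 0, 0, ⟨0, 0⟩, 0⟩ 0 0)) (.cut .v 17825792 (.cut .s 11108352 (.pos 23 .mp ⟨54521145, 0, 0, 0, 0, 0, 0, 0, 0, ⟨0, 0⟩, 0⟩ 0 0) (.pos 23 .mp ⟨55421486, 0, 0, 0, 0, 12889637, 0, 0, 0, ⟨0, 0⟩, 0⟩ 0 0)) (.pos 24 .mp ⟨69131542, 0, 0, 0, 0, 0, 0, 0, 0, ⟨0, 0⟩, 0⟩ 0 0))))) (.pos 22 .mp ⟨141144625, 0, 0, 0, 0, 0, 0, 0, 0, ⟨0, 0⟩, 0⟩ 0 0)))) (.void 20 ⟨100000, 0, 0, 0, 0, 0, 0, 0, 0, ⟨0, 0⟩, 0⟩ 0 0)))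 (.void 18 ⟨100000, 0, 0, 0, 0, 0, 0, 0, 0, ⟨0, 0⟩, 0⟩ 0 0)) (.void 45 ⟨100000, 0, 0, 0, 0, 0, 0, 0, 0, ⟨0, 0⟩, 0⟩ 0 0)) (.void 60 ⟨100000, 0, 0, 0, 0, 0, 0, 0, 0, ⟨0, 0⟩, 0⟩ 0 0))) (.cut .v 16777216 (.cut .v 8388608 (.cut .v 4194304 (.cut .v 2097152 (.void 65 ⟨0, 0, 50000, 0, 50000, 0, 0, 0, 0, ⟨0, 0⟩, 0⟩ 0 0) (.void 66 ⟨0, 0, 45679, 0, 0, 0, 0, 0, 54321, ⟨0, 0⟩, 7053950⟩ 0 0)) (.cut .d 4548041 (.pos 5 .pm ⟨0, 0, 0, 0, 0, 0, 0, 0, 0, ⟨0, 0⟩, 0⟩ 0 0) (.cut .d 6822062 (.pos 5 .pm ⟨0, 0, 0, 0, 0, 0, 0, 0, 252969, ⟨0, 0⟩, 9975792⟩ 0 0) (.cut .d 7959072 (.cut .v 6291456 (.void 61 ⟨0, 0, 0, 0, 0, 0, 0, 0, 100000, ⟨0, 0⟩, 9283521⟩ 0 0) (.cut .d 7390567 (.cut .d 7106314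 (.pos 62 .pm ⟨0, 0, 0, 0, 0, 0, 0, 0, 0, ⟨0, 0⟩, 0⟩ 0 0) (.cut .v 7340032 (.pos 67 .pm ⟨0, 0, 0, 0, 0, 0, 0, 0, 27604882, ⟨0, 0⟩, 10677565⟩ 0 0) (.pos 68 .pm ⟨0, 33962248, 0, 0, 0, 0, 0, 0, 5128803, ⟨0, 0⟩, 11473790⟩ 0 0))) (.pos 62 .pm ⟨0, 42314214, 0, 0, 0, 0, 0, 0, 6195145, ⟨0, 0⟩, 11040029⟩ 0 0))) (.void 5 ⟨0, 75004, 0, 0, 0, 0, 0, 0, 24996, ⟨0, 0⟩, 9975792⟩ 0 0))))) (.cut .d 4548041 (.pos 3 .pm ⟨0, 0, 0, 0, 0, 0, 0, 0, 0, ⟨0, 0⟩, 0⟩ 0 0) (.cut .d 6822062 (.pos 3 .pm ⟨0, 0, 0, 0, 0, 0, 0, 0, 0, ⟨0, 0⟩, 0⟩ 0 0) (.cut .d 7959072 (.cut .v 12582912 (.cut .v 10485760 (.cut .d 7390567 (.cut .s 11108352 (.pos 8 .pm ⟨0, 0, 0, 0, 0, 0, 0, 0, 1902063, ⟨0, 0⟩, 12543895⟩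 0 0) (.cut .v 9437184 (.cut .d 7106314 (.pos 69 .pm ⟨0, 8458013, 0, 0, 0, 0, 0, 0, 0, ⟨0, 0⟩, 0⟩ 0 0) (.cut .l 1416742 (.cut .l 913425 (.cut .s 11223040 (.cut .d 7248440 (.pos 69 .pm ⟨0, 0, 0, 0, 0, 0, 0, 0, 699551, ⟨0, 0⟩, 12217800⟩ 0 0) (.cut .l 661767 (.cut .l 535938 (.cut .v 8912896 (.cut .d 7319503 (.pos 71 .pm ⟨0, 30377912, 0, 0, 0, 0, 0, 0, 2207525, ⟨0, 0⟩, 12044454⟩ 0 0) (.pos 71 .pm ⟨0, 34220636, 0, 0, 0, 0, 0, 0, 3206114, ⟨0, 0⟩, 12044454⟩ 0 0)) (.cut .s 11165696 (.pos 72 .pm ⟨0, 31279215, 0, 0, 0, 0, 0, 0, 2846028, ⟨0, 0⟩, 12404386⟩ 0 0) (.pos 72 .pm ⟨0, 33096832, 0, 0, 0, 0, 0, 0, 2196117, ⟨0, 0⟩, 12404386⟩ 0 0))) (.pos 69 .pm ⟨0, 31536437, 0, 0, 0,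 0, 0, 0, 2235216, ⟨0, 0⟩, 12217800⟩ 0 0)) (.pos 69 .pm ⟨0, 31612007, 0, 0, 0, 0, 0, 0, 2276174, ⟨0, 0⟩, 12217800⟩ 0 0))) (.cut .v 8912896 (.cut .d 7248440 (.pos 71 .pm ⟨0, 32308965, 0, 0, 0, 0, 0, 0, 1646176, ⟨0, 0⟩, 12044454⟩ 0 0) (.pos 71 .pm ⟨0, 35894216, 0, 0, 0, 0, 0, 0, 1851190, ⟨0, 0⟩, 12044454⟩ 0 0)) (.pos 72 .pm ⟨0, 37895330, 0, 0, 0, 0, 0, 0, 0, ⟨0, 0⟩, 0⟩ 0 0))) (.pos 69 .pm ⟨0, 30719531, 0, 0, 0, 0, 0, 0, 1020184, ⟨0, 0⟩, 12217800⟩ 0 0)) (.pos 69 .pm ⟨0, 28332638, 0, 0, 0, 0, 0, 0, 269203, ⟨0, 0⟩, 12217800⟩ 0 0))) (.pos 70 .pm ⟨0, 24731528, 0, 0, 0, 0, 0, 0, 0, ⟨0, 0⟩, 0⟩ 0 0))) (.cut .s 11108352 (.cut .v 9437184 (.pos 69 .pm ⟨0, 31367061, 0, 0, 0,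 0, 0, 0, 4659005, ⟨0, 0⟩, 12217800⟩ 0 0) (.cut .s 10993664 (.pos 70 .pm ⟨0, 27811260, 0, 0, 0, 0, 0, 0, 4829889, ⟨0, 0⟩, 12918751⟩ 0 0) (.cut .s 11051008 (.pos 70 .pm ⟨0, 30566223, 0, 0, 0, 0, 0, 0, 4017802, ⟨0, 0⟩, 12918751⟩ 0 0) (.cut .d 7674819 (.pos 70 .pm ⟨0, 31841566, 0, 0, 0, 0, 0, 0, 2972064, ⟨0, 0⟩, 12918751⟩ 0 0) (.void 70 ⟨0, 100000, 0, 0, 0, 0, 0, 0, 0, ⟨0, 0⟩, 0⟩ 0 0))))) (.cut .v 9437184 (.cut .s 11223040 (.cut .s 11165696 (.cut .v 8912896 (.pos 71 .pm ⟨0, 30056454, 0, 0, 0, 0, 0, 0, 6056741, ⟨0, 0⟩, 12044454⟩ 0 0) (.cut .s 11137024 (.pos 72 .pm ⟨0, 34265674, 0, 0, 0, 0, 0, 0, 3433973, ⟨0, 0⟩, 12404386⟩ 0 0) (.pos 72 .pm ⟨0, 35785252, 0, 0, 0, 0,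 0, 0, 3048855, ⟨0, 0⟩, 12404386⟩ 0 0))) (.pos 69 .pm ⟨0, 96644298, 0, 0, 0, 0, 0, 0, 5912419, ⟨0, 0⟩, 12217800⟩ 0 0)) (.void 69 ⟨0, 100000, 0, 0, 0, 0, 0, 0, 0, ⟨0, 0⟩, 0⟩ 0 0)) (.pos 70 .pm ⟨0, 39226167, 0, 0, 0, 0, 0, 0, 0, ⟨0, 0⟩, 0⟩ 0 0)))) (.pos 9 .pm ⟨0, 30015654, 0, 0, 0, 0, 0, 0, 0, ⟨0, 0⟩, 0⟩ 0 0)) (.pos 7 .pm ⟨0, 32024497, 0, 0, 0, 0, 0, 0, 0, ⟨0, 0⟩, 0⟩ 0 0)) (.void 3 ⟨0, 93993, 0, 0, 0, 0, 0, 0, 6007, ⟨0, 0⟩, 14107901⟩ 0 0))))) (.cut .v 67108864 (.cut .d 4548041 (.cut .d 2274020 (.cut .v 33554432 (.cut .d 1137010 (.cut .v 25165824 (.cut .d 568505 (.cut .v 20971520 (.cut .v 18874368 (.pos 21 .pp ⟨43353545, 0, 0, 0, 0, 0, 0, 0, 0, ⟨0, 0⟩, 0⟩ 0 0) (.pos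 22 .pp ⟨68500419, 0, 0, 0, 0, 0, 0, 0, 0, ⟨0, 0⟩, 0⟩ 0 0)) (.pos 20 .pp ⟨111638723, 0, 0, 0, 0, 0, 0, 0, 0, ⟨0, 0⟩, 0⟩ 0 0)) (.pos 17 .pp ⟨39358918, 0, 0, 0, 0, 0, 0, 0, 0, ⟨0, 0⟩, 0⟩ 0 0)) (.cut .d 568505 (.void 18 ⟨100000, 0, 0, 0, 0, 0, 0, 0, 0, ⟨0, 0⟩, 0⟩ 0 0) (.pos 18 .pp ⟨157385153, 0, 0, 0, 0, 0, 0, 0, 0, ⟨0, 0⟩, 0⟩ 0 0))) (.pos 16 .pp ⟨29634364, 0, 0, 0, 0, 0, 0, 0, 0, ⟨0, 0⟩, 0⟩ 0 0)) (.cut .v 50331648 (.cut .d 1137010 (.void 46 ⟨100000, 0, 0, 0, 0, 0, 0, 0, 0, ⟨0, 0⟩, 0⟩ 0 0) (.pos 46 .pp ⟨289864547, 0, 0, 0, 0, 0, 0, 0, 0, ⟨0, 0⟩, 0⟩ 0 0)) (.pos 47 .pp ⟨1021289059, 0, 0, 0, 0, 0, 0, 0, 0, ⟨0, 0⟩, 0⟩ 0 0))) (.pos 44 .pp ⟨0, 0, 0, 0, 0, 0, 0, 0, 0, ⟨0,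 0⟩, 0⟩ 0 0)) (.pos 44 .pp ⟨0, 21706042, 0, 0, 0, 0, 0, 0, 0, ⟨0, 0⟩, 0⟩ 0 0)) (.void 60 ⟨36792, 63208, 0, 0, 0, 0, 0, 0, 0, ⟨0, 0⟩, 0⟩ 0 0)))),
    by decide +kernel⟩

def covers16 : cell.Covers table row16.1 :=
  ⟨(.cut .d 0 (.cut .v 16777216 (.cut .v 8388608 (.pos 2 .mm ⟨0, 0, 221156040, 0, 0, 0, 0, 0, 0, ⟨0, 0⟩, 0⟩ 0 0) (.cut .d (-8388608) (.void 3 ⟨0, 0, 0, 0, 0, 100000, 0, 0, 0, ⟨0, 0⟩, 0⟩ 0 0) (.cut .d (-4194304) (.void 3 ⟨0, 0, 0, 0, 0, 100000, 0, 0, 0, ⟨0, 0⟩, 0⟩ 0 0) (.cut .d (-2097152) (.void 3 ⟨0, 0, 0, 0, 0, 100000, 0, 0, 0, ⟨0, 0⟩, 0⟩ 0 0) (.cut .d (-1048576) (.void 3 ⟨0, 0, 0, 0, 0, 100000, 0, 0, 0, ⟨0, 0⟩, 0⟩ 0 0) (.cut .s 11534336 (.pos 3 .mm ⟨0,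 0, 0, 0, 0, 129980846, 0, 0, 0, ⟨0, 0⟩, 0⟩ 0 0) (.cut .d (-524288) (.void 3 ⟨0, 0, 0, 0, 0, 100000, 0, 0, 0, ⟨0, 0⟩, 0⟩ 0 0) (.pos 3 .mm ⟨0, 0, 0, 0, 0, 149180826, 0, 0, 0, ⟨0, 0⟩, 0⟩ 0 0)))))))) (.cut .v 67108864 (.cut .v 33554432 (.cut .v 25165824 (.cut .d (-8388608) (.void 17 ⟨0, 0, 0, 0, 0, 100000, 0, 0, 0, ⟨0, 0⟩, 0⟩ 0 0) (.cut .v 20971520 (.cut .d (-4194304) (.void 19 ⟨100000, 0, 0, 0, 0, 0, 0, 0, 0, ⟨0, 0⟩, 0⟩ 0 0) (.cut .d (-2097152) (.void 19 ⟨100000, 0, 0, 0, 0, 0, 0, 0, 0, ⟨0, 0⟩, 0⟩ 0 0) (.cut .v 18874368 (.cut .d (-1048576) (.void 21 ⟨100000, 0, 0, 0, 0, 0, 0, 0, 0, ⟨0, 0⟩, 0⟩ 0 0) (.cut .d (-524288) (.void 21 ⟨0, 0, 0, 0, 0, 100000, 0, 0, 0, ⟨0, 0⟩,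 0⟩ 0 0) (.cut .d (-262144) (.cut .v 17825792 (.cut .v 17301504 (.pos 25 .mp ⟨25047368, 0, 0, 0, 0, 138554636, 0, 0, 0, ⟨0, 0⟩, 0⟩ 0 0) (.pos 26 .mp ⟨107616803, 0, 0, 0, 0, 17657270, 0, 0, 0, ⟨0, 0⟩, 0⟩ 0 0)) (.void 24 ⟨100000, 0, 0, 0, 0, 0, 0, 0, 0, ⟨0, 0⟩, 0⟩ 0 0)) (.cut .v 17825792 (.cut .s 11534336 (.cut .s 11436032 (.pos 23 .mp ⟨64902864, 0, 0, 0, 0, 15118915, 0, 0, 0, ⟨0, 0⟩, 0⟩ 0 0) (.pos 23 .mp ⟨75022486, 0, 0, 0, 0, 11939789, 0, 0, 0, ⟨0, 0⟩, 0⟩ 0 0)) (.cut .s 11632640 (.cut .v 17301504 (.cut .d (-131072) (.pos 25 .mp ⟨56494298, 0, 0, 0, 0, 61126093, 0, 0, 0, ⟨0, 0⟩, 0⟩ 0 0) (.pos 25 .mp ⟨73531305, 0, 0, 0, 0, 20816094, 0, 0, 0, ⟨0, 0⟩, 0⟩ 0 0)) (.pos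 26 .mp ⟨85793246, 0, 0, 0, 0, 15351452, 0, 0, 0, ⟨0, 0⟩, 0⟩ 0 0)) (.cut .v 17301504 (.cut .d (-131072) (.cut .s 11681792 (.pos 25 .mp ⟨60635714, 0, 0, 0, 0, 64383937, 0, 0, 0, ⟨0, 0⟩, 0⟩ 0 0) (.cut .s 11706368 (.pos 25 .mp ⟨62792310, 0, 0, 0, 0, 66014495, 0, 0, 0, ⟨0, 0⟩, 0⟩ 0 0) (.cut .s 11718656 (.pos 25 .mp ⟨64804387, 0, 0, 0, 0, 65103709, 0, 0, 0, ⟨0, 0⟩, 0⟩ 0 0) (.pos 25 .mp ⟨66559337, 0, 0, 0, 0, 64128164, 0, 0, 0, ⟨0, 0⟩, 0⟩ 0 0)))) (.cut .l 1416742 (.cut .d (-65536) (.pos 25 .mp ⟨76906926, 0, 0, 0, 0, 40679410, 0, 0, 0, ⟨0, 0⟩, 0⟩ 0 0) (.cut .v 17039360 (.cut .d (-32768) (.pos 27 .mp ⟨68090803, 0, 0, 0, 0, 51853711, 0, 0, 0, ⟨0, 0⟩, 0⟩ 0 0) (.pos 27 .mp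 ⟨68090803, 0, 0, 0, 0, 0, 0, 0, 0, ⟨0, 0⟩, 0⟩ 0 0)) (.pos 28 .mp ⟨101440087, 0, 0, 0, 0, 0, 0, 0, 0, ⟨0, 0⟩, 0⟩ 0 0))) (.pos 25 .mp ⟨72108507, 0, 0, 0, 0, 0, 0, 0, 0, ⟨0, 0⟩, 0⟩ 0 0))) (.pos 26 .mp ⟨103055425, 0, 0, 0, 0, 1783080, 0, 0, 0, ⟨0, 0⟩, 0⟩ 0 0)))) (.cut .s 11534336 (.pos 24 .mp ⟨92653587, 0, 0, 0, 0, 0, 0, 0, 0, ⟨0, 0⟩, 0⟩ 0 0) (.pos 24 .mp ⟨109691924, 0, 0, 0, 0, 0, 0, 0, 0, ⟨0, 0⟩, 0⟩ 0 0)))))) (.pos 22 .mp ⟨188476145, 0, 0, 0, 0, 0, 0, 0, 0, ⟨0, 0⟩, 0⟩ 0 0)))) (.void 20 ⟨100000, 0, 0, 0, 0, 0, 0, 0, 0, ⟨0, 0⟩, 0⟩ 0 0))) (.void 18 ⟨100000, 0, 0, 0, 0, 0, 0, 0, 0, ⟨0, 0⟩, 0⟩ 0 0)) (.void 45 ⟨100000, 0, 0, 0, 0, 0, 0, 0, 0, ⟨0, 0⟩, 0⟩ 0 0)) (.void 60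 ⟨100000, 0, 0, 0, 0, 0, 0, 0, 0, ⟨0, 0⟩, 0⟩ 0 0))) (.cut .v 16777216 (.cut .v 8388608 (.cut .v 4194304 (.cut .v 2097152 (.void 65 ⟨0, 0, 50000, 0, 50000, 0, 0, 0, 0, ⟨0, 0⟩, 0⟩ 0 0) (.void 66 ⟨0, 0, 45679, 0, 0, 0, 0, 0, 54321, ⟨0, 0⟩, 7053950⟩ 0 0)) (.cut .d 4024593 (.pos 5 .pm ⟨0, 0, 0, 0, 0, 0, 0, 0, 0, ⟨0, 0⟩, 0⟩ 0 0) (.cut .d 6036890 (.pos 5 .pm ⟨0, 0, 0, 0, 0, 0, 0, 0, 0, ⟨0, 0⟩, 0⟩ 0 0) (.cut .v 6291456 (.pos 61 .pm ⟨0, 35341586, 0, 0, 0, 0, 0, 0, 8967810, ⟨0, 0⟩, 9283521⟩ 0 0) (.cut .d 7043038 (.cut .d 6539964 (.pos 62 .pm ⟨0, 29340366, 0, 0, 0, 0, 0, 0, 0, ⟨0, 0⟩, 0⟩ 0 0) (.cut .l 1416742 (.cut .s 11534336 (.cut .v 7340032 (.pos 67 .pm ⟨0, 31169749, 0,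 0, 0, 0, 0, 0, 7288376, ⟨0, 0⟩, 10677565⟩ 0 0) (.cut .s 11436032 (.pos 68 .pm ⟨0, 34195541, 0, 0, 0, 0, 0, 0, 28308, ⟨0, 0⟩, 11473790⟩ 0 0) (.pos 68 .pm ⟨0, 38874910, 0, 0, 0, 0, 0, 0, 0, ⟨0, 0⟩, 0⟩ 0 0))) (.cut .v 7340032 (.pos 67 .pm ⟨0, 44253702, 0, 0, 0, 0, 0, 0, 0, ⟨0, 0⟩, 0⟩ 0 0) (.cut .d 6791501 (.pos 68 .pm ⟨0, 41839022, 0, 0, 0, 0, 0, 0, 0, ⟨0, 0⟩, 0⟩ 0 0) (.pos 68 .pm ⟨0, 47664783, 0, 0, 0, 0, 0, 0, 0, ⟨0, 0⟩, 0⟩ 0 0)))) (.pos 62 .pm ⟨0, 37281296, 0, 0, 0, 0, 0, 0, 0, ⟨0, 0⟩, 0⟩ 0 0))) (.cut .s 11534336 (.cut .s 11436032 (.pos 62 .pm ⟨0, 45901476, 0, 0, 0, 0, 0, 0, 2223023, ⟨0, 0⟩, 11040029⟩ 0 0) (.pos 62 .pm ⟨0, 183908903, 0, 0, 0, 0, 0, 0, 6595020,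 ⟨0, 0⟩, 11040029⟩ 0 0)) (.void 62 ⟨0, 95629, 0, 0, 0, 0, 0, 0, 4371, ⟨0, 0⟩, 11040029⟩ 0 0))))))) (.cut .d 4024593 (.pos 3 .pm ⟨0, 0, 0, 0, 0, 0, 0, 0, 0, ⟨0, 0⟩, 0⟩ 0 0) (.cut .d 6036890 (.pos 3 .pm ⟨0, 0, 0, 0, 0, 0, 0, 0, 0, ⟨0, 0⟩, 0⟩ 0 0) (.cut .v 12582912 (.cut .v 10485760 (.cut .d 7043038 (.cut .s 11534336 (.pos 8 .pm ⟨0, 35497483, 0, 0, 0, 0, 0, 0, 0, ⟨0, 0⟩, 0⟩ 0 0) (.pos 8 .pm ⟨0, 45434410, 0, 0, 0, 0, 0, 0, 0, ⟨0, 0⟩, 0⟩ 0 0)) (.cut .s 11534336 (.pos 8 .pm ⟨0, 51619299, 0, 0, 0, 0, 0, 0, 0, ⟨0, 0⟩, 0⟩ 0 0) (.void 8 ⟨0, 0, 0, 100000, 0, 0, 0, 0, 0, ⟨0, 0⟩, 0⟩ 0 0))) (.pos 9 .pm ⟨0, 56767781, 0, 0, 0, 0, 0, 0, 0, ⟨0, 0⟩, 0⟩ 0 0)) (.pos 7 .pm ⟨0, 58522980,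 0, 0, 0, 0, 0, 0, 0, ⟨0, 0⟩, 0⟩ 0 0))))) (.cut .v 67108864 (.cut .d 4024593 (.cut .d 2012296 (.cut .v 33554432 (.cut .d 1006148 (.cut .v 25165824 (.cut .d 503074 (.cut .v 20971520 (.cut .v 18874368 (.cut .v 17825792 (.pos 23 .pp ⟨71288620, 0, 0, 0, 0, 0, 0, 0, 0, ⟨0, 0⟩, 0⟩ 0 0) (.pos 24 .pp ⟨84222677, 0, 0, 0, 0, 0, 0, 0, 0, ⟨0, 0⟩, 0⟩ 0 0)) (.pos 22 .pp ⟨102091489, 0, 0, 0, 0, 0, 0, 0, 0, ⟨0, 0⟩, 0⟩ 0 0)) (.pos 20 .pp ⟨152470418, 0, 0, 0, 0, 0, 0, 0, 0, ⟨0, 0⟩, 0⟩ 0 0)) (.pos 17 .pp ⟨61945399, 0, 0, 0, 0, 0, 0, 0, 0, ⟨0, 0⟩, 0⟩ 0 0)) (.cut .d 503074 (.void 18 ⟨100000, 0, 0, 0, 0, 0, 0, 0, 0, ⟨0, 0⟩, 0⟩ 0 0) (.pos 18 .pp ⟨215906221, 0, 0, 0, 0, 0, 0, 0, 0, ⟨0,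 0⟩, 0⟩ 0 0))) (.pos 16 .pp ⟨48296457, 0, 0, 0, 0, 0, 0, 0, 0, ⟨0, 0⟩, 0⟩ 0 0)) (.cut .v 50331648 (.cut .d 1006148 (.void 46 ⟨100000, 0, 0, 0, 0, 0, 0, 0, 0, ⟨0, 0⟩, 0⟩ 0 0) (.cut .v 41943040 (.pos 48 .pp ⟨293152295, 0, 0, 0, 0, 0, 0, 0, 0, ⟨0, 0⟩, 0⟩ 0 0) (.pos 49 .pp ⟨555906066, 0, 0, 0, 0, 0, 0, 0, 0, ⟨0, 0⟩, 0⟩ 0 0))) (.pos 47 .pp ⟨1255456402, 0, 0, 0, 0, 0, 0, 0, 0, ⟨0, 0⟩, 0⟩ 0 0))) (.pos 44 .pp ⟨16589731, 0, 0, 0, 0, 0, 1155494, 0, 0, ⟨0, 0⟩, 0⟩ 0 0)) (.pos 44 .pp ⟨0, 29262321, 0, 0, 0, 0, 0, 0, 0, ⟨0, 0⟩, 0⟩ 0 0)) (.void 60 ⟨36578, 63422, 0, 0, 0, 0, 0, 0, 0, ⟨0, 0⟩, 0⟩ 0 0)))),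
    by decide +kernel⟩

def covers17 : cell.Covers table row17.1 :=
  ⟨(.cut .d 0 (.cut .v 16777216 (.cut .v 8388608 (.pos 2 .mm ⟨0, 0, 258585495, 0, 0, 21295728, 0, 0, 0, ⟨0, 0⟩, 0⟩ 0 0) (.cut .d (-8388608) (.void 3 ⟨0, 0, 0, 0, 0, 100000, 0, 0, 0, ⟨0, 0⟩, 0⟩ 0 0) (.cut .d (-4194304) (.void 3 ⟨0, 0, 0, 0, 0, 100000, 0, 0, 0, ⟨0, 0⟩, 0⟩ 0 0) (.cut .d (-2097152) (.void 3 ⟨0, 0, 0, 0, 0, 100000, 0, 0, 0, ⟨0, 0⟩, 0⟩ 0 0) (.cut .d (-1048576) (.void 3 ⟨0, 0, 0, 0, 0, 100000, 0, 0, 0, ⟨0, 0⟩, 0⟩ 0 0) (.cut .d (-524288) (.void 3 ⟨0, 0, 0, 0, 0, 100000, 0, 0, 0, ⟨0, 0⟩, 0⟩ 0 0) (.cut .d (-262144) (.void 3 ⟨0, 0, 0, 0, 0, 100000, 0, 0, 0, ⟨0, 0⟩, 0⟩ 0 0) (.cut .s 11993088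 (.pos 3 .mm ⟨0, 0, 0, 0, 0, 174136317, 0, 0, 0, ⟨0, 0⟩, 0⟩ 0 0) (.cut .s 12124160 (.pos 3 .mm ⟨0, 0, 0, 0, 0, 196528620, 0, 0, 0, ⟨0, 0⟩, 0⟩ 0 0) (.pos 3 .mm ⟨0, 0, 0, 0, 0, 218052468, 0, 0, 0, ⟨0, 0⟩, 0⟩ 0 0)))))))))) (.cut .v 268435456 (.cut .v 67108864 (.cut .v 33554432 (.cut .v 25165824 (.cut .d (-8388608) (.void 17 ⟨100000, 0, 0, 0, 0, 0, 0, 0, 0, ⟨0, 0⟩, 0⟩ 0 0) (.cut .v 20971520 (.cut .d (-4194304) (.void 19 ⟨100000, 0, 0, 0, 0, 0, 0, 0, 0, ⟨0, 0⟩, 0⟩ 0 0) (.cut .d (-2097152) (.void 19 ⟨100000, 0, 0, 0, 0, 0, 0, 0, 0, ⟨0, 0⟩, 0⟩ 0 0) (.cut .d (-1048576) (.void 19 ⟨100000, 0, 0, 0, 0, 0, 0, 0, 0, ⟨0, 0⟩, 0⟩ 0 0) (.cut .d (-524288) (.void 19 ⟨0, 0, 0, 0, 0,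 100000, 0, 0, 0, ⟨0, 0⟩, 0⟩ 0 0) (.cut .v 18874368 (.cut .d (-262144) (.void 21 ⟨0, 0, 0, 0, 0, 100000, 0, 0, 0, ⟨0, 0⟩, 0⟩ 0 0) (.cut .v 17825792 (.cut .s 11993088 (.cut .s 11862016 (.cut .v 17301504 (.cut .d (-131072) (.cut .l 1416742 (.pos 25 .mp ⟨72341005, 0, 0, 0, 0, 73279201, 0, 0, 0, ⟨0, 0⟩, 0⟩ 0 0) (.cut .v 17039360 (.pos 27 .mp ⟨0, 0, 0, 0, 0, 167019518, 0, 0, 0, ⟨0, 0⟩, 0⟩ 0 0) (.cut .d (-196608) (.cut .s 11796480 (.pos 28 .mp ⟨73285231, 0, 0, 0, 0, 60954957, 0, 0, 0, ⟨0, 0⟩, 0⟩ 0 0) (.pos 28 .mp ⟨76771775, 0, 0, 0, 0, 64199215, 0, 0, 0, ⟨0, 0⟩, 0⟩ 0 0)) (.cut .s 11796480 (.pos 28 .mp ⟨84388297, 0, 0, 0, 0, 34383896, 0, 0, 0, ⟨0, 0⟩, 0⟩ 0 0) (.pos 28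 .mp ⟨88361504, 0, 0, 0, 0, 36262518, 0, 0, 0, ⟨0, 0⟩, 0⟩ 0 0))))) (.cut .l 1416742 (.cut .v 17039360 (.cut .d (-65536) (.cut .v 16908288 (.pos 50 .mp ⟨0, 0, 0, 0, 0, 182232132, 0, 0, 0, ⟨0, 0⟩, 0⟩ 0 0) (.cut .s 11796480 (.cut .s 11763712 (.pos 51 .mp ⟨73024816, 0, 0, 0, 0, 50635541, 0, 0, 0, ⟨0, 0⟩, 0⟩ 0 0) (.pos 51 .mp ⟨74280513, 0, 0, 0, 0, 52668742, 0, 0, 0, ⟨0, 0⟩, 0⟩ 0 0)) (.cut .s 11829248 (.pos 51 .mp ⟨75561068, 0, 0, 0, 0, 54777353, 0, 0, 0, ⟨0, 0⟩, 0⟩ 0 0) (.pos 51 .mp ⟨76872946, 0, 0, 0, 0, 56950997, 0, 0, 0, ⟨0, 0⟩, 0⟩ 0 0)))) (.cut .d (-32768) (.cut .l 913425 (.cut .l 661767 (.cut .v 16908288 (.cut .d (-49152) (.pos 50 .mp ⟨66779405, 0, 0, 0, 0, 67380495,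 0, 0, 0, ⟨0, 0⟩, 0⟩ 0 0) (.cut .s 11796480 (.pos 50 .mp ⟨67071826, 0, 0, 0, 0, 56470728, 0, 0, 0, ⟨0, 0⟩, 0⟩ 0 0) (.cut .s 11829248 (.pos 50 .mp ⟨70054583, 0, 0, 0, 0, 56988706, 0, 0, 0, ⟨0, 0⟩, 0⟩ 0 0) (.pos 50 .mp ⟨71583144, 0, 0, 0, 0, 58775124, 0, 0, 0, ⟨0, 0⟩, 0⟩ 0 0)))) (.cut .s 11796480 (.pos 51 .mp ⟨104658037, 0, 0, 0, 0, 0, 0, 0, 0, ⟨0, 0⟩, 0⟩ 0 0) (.pos 51 .mp ⟨109661598, 0, 0, 0, 0, 0, 0, 0, 0, ⟨0, 0⟩, 0⟩ 0 0))) (.pos 27 .mp ⟨72979601, 0, 0, 0, 0, 40741966, 0, 0, 0, ⟨0, 0⟩, 0⟩ 0 0)) (.pos 27 .mp ⟨0, 0, 0, 0, 0, 0, 0, 0, 0, ⟨0, 0⟩, 0⟩ 0 0)) (.pos 27 .mp ⟨71810028, 0, 0, 0, 0, 0, 0, 0, 0, ⟨0, 0⟩, 0⟩ 0 0))) (.cut .s 11796480 (.pos 28 .mp ⟨106006919, 0,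 0, 0, 0, 0, 0, 0, 0, ⟨0, 0⟩, 0⟩ 0 0) (.pos 28 .mp ⟨111035251, 0, 0, 0, 0, 0, 0, 0, 0, ⟨0, 0⟩, 0⟩ 0 0))) (.pos 25 .mp ⟨76439397, 0, 0, 0, 0, 0, 0, 0, 0, ⟨0, 0⟩, 0⟩ 0 0))) (.cut .s 11796480 (.pos 26 .mp ⟨103236047, 0, 0, 0, 0, 11471803, 0, 0, 0, ⟨0, 0⟩, 0⟩ 0 0) (.cut .s 11829248 (.pos 26 .mp ⟨101047814, 0, 0, 0, 0, 21743045, 0, 0, 0, ⟨0, 0⟩, 0⟩ 0 0) (.pos 26 .mp ⟨103125411, 0, 0, 0, 0, 22814862, 0, 0, 0, ⟨0, 0⟩, 0⟩ 0 0)))) (.cut .v 17301504 (.cut .d (-131072) (.cut .l 1416742 (.pos 25 .mp ⟨79767625, 0, 0, 0, 0, 80267048, 0, 0, 0, ⟨0, 0⟩, 0⟩ 0 0) (.cut .v 17039360 (.pos 27 .mp ⟨0, 0, 0, 0, 0, 186307054, 0, 0, 0, ⟨0, 0⟩, 0⟩ 0 0) (.cut .d (-196608) (.cut .s 11927552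 (.pos 28 .mp ⟨80393471, 0, 0, 0, 0, 67700158, 0, 0, 0, ⟨0, 0⟩, 0⟩ 0 0) (.cut .s 11960320 (.pos 28 .mp ⟨80440702, 0, 0, 0, 0, 73579504, 0, 0, 0, ⟨0, 0⟩, 0⟩ 0 0) (.pos 28 .mp ⟨81467939, 0, 0, 0, 0, 76913266, 0, 0, 0, ⟨0, 0⟩, 0⟩ 0 0))) (.cut .l 1920059 (.cut .s 11927552 (.pos 28 .mp ⟨92493279, 0, 0, 0, 0, 40191260, 0, 0, 0, ⟨0, 0⟩, 0⟩ 0 0) (.pos 28 .mp ⟨96789785, 0, 0, 0, 0, 42670632, 0, 0, 0, ⟨0, 0⟩, 0⟩ 0 0)) (.pos 28 .mp ⟨92394093, 0, 0, 0, 0, 35663897, 0, 0, 0, ⟨0, 0⟩, 0⟩ 0 0))))) (.cut .l 1416742 (.cut .v 17039360 (.cut .d (-65536) (.cut .v 16908288 (.pos 50 .mp ⟨0, 0, 0, 0, 0, 201335268, 0, 0, 0, ⟨0, 0⟩, 0⟩ 0 0) (.cut .s 11927552 (.cut .s 11894784 (.pos 51 .mp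 ⟨78222712, 0, 0, 0, 0, 59179074, 0, 0, 0, ⟨0, 0⟩, 0⟩ 0 0) (.pos 51 .mp ⟨79617031, 0, 0, 0, 0, 61450747, 0, 0, 0, ⟨0, 0⟩, 0⟩ 0 0)) (.cut .s 11960320 (.pos 51 .mp ⟨81062671, 0, 0, 0, 0, 63754941, 0, 0, 0, ⟨0, 0⟩, 0⟩ 0 0) (.pos 51 .mp ⟨82566514, 0, 0, 0, 0, 66080326, 0, 0, 0, ⟨0, 0⟩, 0⟩ 0 0)))) (.cut .d (-32768) (.cut .l 913425 (.cut .l 661767 (.cut .v 16908288 (.cut .v 16842752 (.pos 86 .mp ⟨0, 0, 0, 0, 0, 174138260, 0, 0, 0, ⟨0, 0⟩, 0⟩ 0 0) (.cut .v 16875520 (.pos 88 .mp ⟨0, 0, 0, 0, 0, 175548472, 0, 0, 0, ⟨0, 0⟩, 0⟩ 0 0) (.cut .s 11927552 (.cut .s 11894784 (.pos 89 .mp ⟨79062086, 0, 0, 0, 0, 52083394, 0, 0, 0, ⟨0, 0⟩, 0⟩ 0 0) (.pos 89 .mp ⟨80791418, 0, 0, 0, 0,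 53747988, 0, 0, 0, ⟨0, 0⟩, 0⟩ 0 0)) (.cut .s 11960320 (.pos 89 .mp ⟨82551255, 0, 0, 0, 0, 55466980, 0, 0, 0, ⟨0, 0⟩, 0⟩ 0 0) (.pos 89 .mp ⟨84342200, 0, 0, 0, 0, 57238254, 0, 0, 0, ⟨0, 0⟩, 0⟩ 0 0))))) (.cut .s 11927552 (.pos 51 .mp ⟨114929081, 0, 0, 0, 0, 0, 0, 0, 0, ⟨0, 0⟩, 0⟩ 0 0) (.pos 51 .mp ⟨120460322, 0, 0, 0, 0, 0, 0, 0, 0, ⟨0, 0⟩, 0⟩ 0 0))) (.pos 27 .mp ⟨80265629, 0, 0, 0, 0, 45251310, 0, 0, 0, ⟨0, 0⟩, 0⟩ 0 0)) (.pos 27 .mp ⟨0, 0, 0, 0, 0, 0, 0, 0, 0, ⟨0, 0⟩, 0⟩ 0 0)) (.pos 27 .mp ⟨78514673, 0, 0, 0, 0, 0, 0, 0, 0, ⟨0, 0⟩, 0⟩ 0 0))) (.cut .s 11927552 (.pos 28 .mp ⟨116335019, 0, 0, 0, 0, 0, 0, 0, 0, ⟨0, 0⟩, 0⟩ 0 0) (.pos 28 .mp ⟨121663003, 0, 0, 0, 0, 383068,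 0, 0, 0, ⟨0, 0⟩, 0⟩ 0 0))) (.pos 25 .mp ⟨84317002, 0, 0, 0, 0, 0, 0, 0, 0, ⟨0, 0⟩, 0⟩ 0 0))) (.cut .d (-131072) (.cut .d (-196608) (.cut .d (-229376) (.pos 26 .mp ⟨105940143, 0, 0, 0, 0, 40806235, 0, 0, 0, ⟨0, 0⟩, 0⟩ 0 0) (.pos 26 .mp ⟨124509594, 0, 0, 0, 0, 0, 0, 0, 0, ⟨0, 0⟩, 0⟩ 0 0)) (.pos 26 .mp ⟨122924007, 0, 0, 0, 0, 0, 0, 0, 0, ⟨0, 0⟩, 0⟩ 0 0)) (.pos 26 .mp ⟨119769867, 0, 0, 0, 0, 0, 0, 0, 0, ⟨0, 0⟩, 0⟩ 0 0)))) (.cut .d (-131072) (.cut .v 17301504 (.cut .l 1416742 (.pos 25 .mp ⟨86264161, 0, 0, 0, 0, 125609189, 0, 0, 0, ⟨0, 0⟩, 0⟩ 0 0) (.cut .v 17039360 (.pos 27 .mp ⟨0, 0, 0, 0, 0, 224571320, 0, 0, 0, ⟨0, 0⟩, 0⟩ 0 0) (.cut .s 12124160 (.cut .s 12058624 (.cut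 .v 17170432 (.pos 56 .mp ⟨54581201, 0, 0, 0, 0, 122970357, 0, 0, 0, ⟨0, 0⟩, 0⟩ 0 0) (.cut .d (-196608) (.cut .s 12025856 (.pos 57 .mp ⟨82584885, 0, 0, 0, 0, 80230419, 0, 0, 0, ⟨0, 0⟩, 0⟩ 0 0) (.pos 57 .mp ⟨91447676, 0, 0, 0, 0, 72660909, 0, 0, 0, ⟨0, 0⟩, 0⟩ 0 0)) (.pos 57 .mp ⟨102720145, 0, 0, 0, 0, 43493315, 0, 0, 0, ⟨0, 0⟩, 0⟩ 0 0))) (.cut .d (-196608) (.pos 28 .mp ⟨92122800, 0, 0, 0, 0, 79733144, 0, 0, 0, ⟨0, 0⟩, 0⟩ 0 0) (.cut .s 12091392 (.pos 28 .mp ⟨101143641, 0, 0, 0, 0, 52317892, 0, 0, 0, ⟨0, 0⟩, 0⟩ 0 0) (.pos 28 .mp ⟨103349692, 0, 0, 0, 0, 53995005, 0, 0, 0, ⟨0, 0⟩, 0⟩ 0 0)))) (.cut .s 12189696 (.cut .d (-196608) (.pos 28 .mp ⟨96339944, 0, 0, 0, 0, 84248707,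 0, 0, 0, ⟨0, 0⟩, 0⟩ 0 0) (.cut .s 12156928 (.pos 28 .mp ⟨105636022, 0, 0, 0, 0, 55654404, 0, 0, 0, ⟨0, 0⟩, 0⟩ 0 0) (.pos 28 .mp ⟨108008450, 0, 0, 0, 0, 57285884, 0, 0, 0, ⟨0, 0⟩, 0⟩ 0 0))) (.cut .d (-196608) (.pos 28 .mp ⟨100721250, 0, 0, 0, 0, 89012587, 0, 0, 0, ⟨0, 0⟩, 0⟩ 0 0) (.cut .v 17170432 (.pos 56 .mp ⟨66372220, 0, 0, 0, 0, 136426739, 0, 0, 0, ⟨0, 0⟩, 0⟩ 0 0) (.pos 57 .mp ⟨117424711, 0, 0, 0, 0, 51975074, 0, 0, 0, ⟨0, 0⟩, 0⟩ 0 0))))))) (.cut .l 1416742 (.void 26 ⟨100000, 0, 0, 0, 0, 0, 0, 0, 0, ⟨0, 0⟩, 0⟩ 0 0) (.cut .l 1920059 (.pos 26 .mp ⟨154747759, 0, 0, 0, 0, 0, 0, 0, 0, ⟨0, 0⟩, 0⟩ 0 0) (.cut .d (-196608) (.cut .d (-229376) (.pos 26 .mp ⟨127167297,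 0, 0, 0, 0, 48057844, 0, 0, 0, ⟨0, 0⟩, 0⟩ 0 0) (.cut .s 12124160 (.pos 26 .mp ⟨137784039, 0, 0, 0, 0, 0, 0, 0, 0, ⟨0, 0⟩, 0⟩ 0 0) (.pos 26 .mp ⟨152197390, 0, 0, 0, 0, 0, 0, 0, 0, ⟨0, 0⟩, 0⟩ 0 0))) (.pos 26 .mp ⟨136478433, 0, 0, 0, 0, 0, 0, 0, 0, ⟨0, 0⟩, 0⟩ 0 0))))) (.cut .l 1416742 (.cut .v 17301504 (.cut .s 12124160 (.cut .v 17039360 (.cut .d (-65536) (.cut .v 16908288 (.pos 50 .mp ⟨0, 0, 0, 0, 0, 222621169, 0, 0, 0, ⟨0, 0⟩, 0⟩ 0 0) (.cut .s 12058624 (.cut .s 12025856 (.pos 51 .mp ⟨84135553, 0, 0, 0, 0, 68415318, 0, 0, 0, ⟨0, 0⟩, 0⟩ 0 0) (.pos 51 .mp ⟨85776900, 0, 0, 0, 0, 70748060, 0, 0, 0, ⟨0, 0⟩, 0⟩ 0 0)) (.cut .s 12091392 (.pos 51 .mp ⟨87497792, 0, 0, 0, 0,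 73066420, 0, 0, 0, ⟨0, 0⟩, 0⟩ 0 0) (.pos 51 .mp ⟨89305594, 0, 0, 0, 0, 75357977, 0, 0, 0, ⟨0, 0⟩, 0⟩ 0 0)))) (.cut .d (-32768) (.cut .l 913425 (.cut .l 661767 (.cut .v 16908288 (.cut .d (-49152) (.pos 50 .mp ⟨79368424, 0, 0, 0, 0, 84803329, 0, 0, 0, ⟨0, 0⟩, 0⟩ 0 0) (.cut .v 16842752 (.pos 86 .mp ⟨0, 0, 0, 0, 0, 190474932, 0, 0, 0, ⟨0, 0⟩, 0⟩ 0 0) (.cut .v 16875520 (.pos 88 .mp ⟨0, 0, 0, 0, 0, 192658935, 0, 0, 0, ⟨0, 0⟩, 0⟩ 0 0) (.cut .s 12058624 (.cut .s 12025856 (.pos 89 .mp ⟨84203171, 0, 0, 0, 0, 60851616, 0, 0, 0, ⟨0, 0⟩, 0⟩ 0 0) (.pos 89 .mp ⟨85999531, 0, 0, 0, 0, 62801427, 0, 0, 0, ⟨0, 0⟩, 0⟩ 0 0)) (.pos 89 .mp ⟨89686706, 0, 0, 0, 0, 65573429, 0, 0, 0, ⟨0,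 0⟩, 0⟩ 0 0))))) (.cut .s 12058624 (.pos 51 .mp ⟨126255159, 0, 0, 0, 0, 0, 0, 0, 0, ⟨0, 0⟩, 0⟩ 0 0) (.pos 51 .mp ⟨132313427, 0, 0, 0, 0, 0, 0, 0, 0, ⟨0, 0⟩, 0⟩ 0 0))) (.pos 27 .mp ⟨87946178, 0, 0, 0, 0, 50788522, 0, 0, 0, ⟨0, 0⟩, 0⟩ 0 0)) (.pos 27 .mp ⟨0, 0, 0, 0, 0, 0, 0, 0, 0, ⟨0, 0⟩, 0⟩ 0 0)) (.pos 27 .mp ⟨85645715, 0, 0, 0, 0, 0, 0, 0, 0, ⟨0, 0⟩, 0⟩ 0 0))) (.cut .s 12058624 (.pos 28 .mp ⟨126982873, 0, 0, 0, 0, 1210658, 0, 0, 0, ⟨0, 0⟩, 0⟩ 0 0) (.pos 28 .mp ⟨132740293, 0, 0, 0, 0, 1779992, 0, 0, 0, ⟨0, 0⟩, 0⟩ 0 0))) (.cut .v 17039360 (.cut .d (-65536) (.cut .v 16908288 (.pos 50 .mp ⟨0, 0, 0, 0, 0, 246280908, 0, 0, 0, ⟨0, 0⟩, 0⟩ 0 0) (.cut .d (-98304) (.pos 51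 .mp ⟨88437469, 0, 0, 0, 0, 97697826, 0, 0, 0, ⟨0, 0⟩, 0⟩ 0 0) (.cut .l 913425 (.pos 51 .mp ⟨91439631, 0, 0, 0, 0, 91852403, 0, 0, 0, ⟨0, 0⟩, 0⟩ 0 0) (.pos 51 .mp ⟨101413711, 0, 0, 0, 0, 58066904, 0, 0, 0, ⟨0, 0⟩, 0⟩ 0 0)))) (.cut .d (-32768) (.cut .l 913425 (.cut .l 661767 (.cut .s 12189696 (.cut .v 16908288 (.cut .s 12156928 (.pos 50 .mp ⟨86546654, 0, 0, 0, 0, 78276639, 0, 0, 0, ⟨0, 0⟩, 0⟩ 0 0) (.pos 50 .mp ⟨88353444, 0, 0, 0, 0, 80628961, 0, 0, 0, ⟨0, 0⟩, 0⟩ 0 0)) (.pos 51 .mp ⟨138634961, 0, 0, 0, 0, 0, 0, 0, 0, ⟨0, 0⟩, 0⟩ 0 0)) (.cut .v 16908288 (.pos 50 .mp ⟨89062093, 0, 0, 0, 0, 89453073, 0, 0, 0, ⟨0, 0⟩, 0⟩ 0 0) (.pos 51 .mp ⟨145219596, 0, 0, 0, 0, 0, 0,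 0, 0, ⟨0, 0⟩, 0⟩ 0 0))) (.pos 27 .mp ⟨96059313, 0, 0, 0, 0, 57221369, 0, 0, 0, ⟨0, 0⟩, 0⟩ 0 0)) (.pos 27 .mp ⟨0, 0, 0, 0, 0, 0, 0, 0, 0, ⟨0, 0⟩, 0⟩ 0 0)) (.pos 27 .mp ⟨93236590, 0, 0, 0, 0, 0, 0, 0, 0, ⟨0, 0⟩, 0⟩ 0 0))) (.cut .s 12189696 (.pos 28 .mp ⟨139029453, 0, 0, 0, 0, 1937938, 0, 0, 0, ⟨0, 0⟩, 0⟩ 0 0) (.pos 28 .mp ⟨145948520, 0, 0, 0, 0, 1522833, 0, 0, 0, ⟨0, 0⟩, 0⟩ 0 0)))) (.pos 26 .mp ⟨141731791, 0, 0, 0, 0, 0, 0, 0, 0, ⟨0, 0⟩, 0⟩ 0 0)) (.cut .v 17301504 (.cut .v 17039360 (.pos 27 .mp ⟨0, 0, 0, 0, 0, 183247098, 0, 0, 0, ⟨0, 0⟩, 0⟩ 0 0) (.pos 28 .mp ⟨105762736, 0, 0, 0, 0, 29721388, 0, 0, 0, ⟨0, 0⟩, 0⟩ 0 0)) (.pos 26 .mp ⟨128884363, 0, 0, 0, 0, 0, 0, 0,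 0, ⟨0, 0⟩, 0⟩ 0 0))))) (.cut .s 11993088 (.pos 24 .mp ⟨129841137, 0, 0, 0, 0, 0, 0, 0, 0, ⟨0, 0⟩, 0⟩ 0 0) (.pos 24 .mp ⟨156063161, 0, 0, 0, 0, 0, 0, 0, 0, ⟨0, 0⟩, 0⟩ 0 0)))) (.pos 22 .mp ⟨203147433, 0, 0, 0, 0, 0, 0, 0, 0, ⟨0, 0⟩, 0⟩ 0 0)))))) (.void 20 ⟨100000, 0, 0, 0, 0, 0, 0, 0, 0, ⟨0, 0⟩, 0⟩ 0 0))) (.void 18 ⟨100000, 0, 0, 0, 0, 0, 0, 0, 0, ⟨0, 0⟩, 0⟩ 0 0)) (.void 45 ⟨100000, 0, 0, 0, 0, 0, 0, 0, 0, ⟨0, 0⟩, 0⟩ 0 0)) (.void 60 ⟨100000, 0, 0, 0, 0, 0, 0, 0, 0, ⟨0, 0⟩, 0⟩ 0 0)) (.void 83 ⟨93193, 0, 0, 6807, 0, 0, 0, 0, 0, ⟨0, 0⟩, 0⟩ 0 0))) (.cut .v 16777216 (.cut .v 8388608 (.cut .v 4194304 (.cut .v 2097152 (.void 65 ⟨0, 0, 25058, 0, 0, 0, 0, 0, 74942, ⟨0, 0⟩,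 2804900⟩ 0 0) (.pos 66 .pm ⟨0, 2668520, 0, 0, 0, 0, 0, 0, 10395973, ⟨0, 0⟩, 7053950⟩ 0 0)) (.cut .d 3608508 (.pos 5 .pm ⟨0, 0, 284407, 0, 0, 0, 0, 0, 0, ⟨0, 0⟩, 0⟩ 0 0) (.cut .d 5412762 (.pos 5 .pm ⟨0, 0, 0, 0, 0, 0, 0, 0, 0, ⟨0, 0⟩, 0⟩ 0 0) (.cut .d 6314889 (.cut .v 6291456 (.pos 61 .pm ⟨0, 38674878, 0, 0, 0, 0, 0, 0, 0, ⟨0, 0⟩, 0⟩ 0 0) (.cut .s 11993088 (.pos 62 .pm ⟨0, 35587851, 0, 0, 0, 0, 0, 0, 0, ⟨0, 0⟩, 0⟩ 0 0) (.pos 62 .pm ⟨0, 51575306, 0, 0, 0, 0, 0, 0, 0, ⟨0, 0⟩, 0⟩ 0 0))) (.cut .v 6291456 (.pos 61 .pm ⟨0, 61256090, 0, 0, 0, 0, 0, 0, 0, ⟨0, 0⟩, 0⟩ 0 0) (.cut .s 11993088 (.cut .v 7340032 (.pos 67 .pm ⟨0, 56819763, 0, 0, 0, 0, 0, 0, 0, ⟨0, 0⟩, 0⟩ 0 0) (.pos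 68 .pm ⟨0, 58980329, 0, 0, 0, 0, 0, 0, 0, ⟨0, 0⟩, 0⟩ 0 0)) (.void 62 ⟨0, 0, 0, 100000, 0, 0, 0, 0, 0, ⟨0, 0⟩, 0⟩ 0 0))))))) (.cut .d 3608508 (.pos 3 .pm ⟨0, 0, 0, 0, 0, 0, 0, 0, 0, ⟨0, 0⟩, 0⟩ 0 0) (.cut .d 5412762 (.pos 3 .pm ⟨0, 0, 0, 0, 0, 0, 0, 0, 0, ⟨0, 0⟩, 0⟩ 0 0) (.cut .d 6314889 (.pos 3 .pm ⟨0, 42784142, 0, 0, 0, 0, 0, 0, 0, ⟨0, 0⟩, 0⟩ 0 0) (.pos 3 .pm ⟨0, 74247723, 0, 0, 0, 0, 0, 0, 0, ⟨0, 0⟩, 0⟩ 0 0))))) (.cut .v 268435456 (.cut .v 67108864 (.cut .d 3608508 (.cut .d 1804254 (.cut .v 33554432 (.cut .d 902127 (.cut .v 25165824 (.cut .d 451063 (.cut .v 20971520 (.cut .d 225531 (.cut .v 18874368 (.cut .v 17825792 (.pos 23 .pp ⟨82819795, 0, 0, 0, 0, 0, 0, 0,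 0, ⟨0, 0⟩, 0⟩ 0 0) (.pos 24 .pp ⟨114776935, 0, 0, 0, 0, 0, 0, 0, 0, ⟨0, 0⟩, 0⟩ 0 0)) (.pos 22 .pp ⟨143699785, 0, 0, 0, 0, 0, 0, 0, 0, ⟨0, 0⟩, 0⟩ 0 0)) (.pos 19 .pp ⟨73889002, 0, 0, 0, 0, 0, 0, 0, 0, ⟨0, 0⟩, 0⟩ 0 0)) (.cut .d 225531 (.pos 20 .pp ⟨224991147, 0, 0, 0, 0, 0, 0, 0, 0, ⟨0, 0⟩, 0⟩ 0 0) (.pos 20 .pp ⟨175572758, 0, 0, 0, 0, 0, 0, 0, 0, ⟨0, 0⟩, 0⟩ 0 0))) (.pos 17 .pp ⟨80347394, 0, 0, 0, 0, 0, 0, 0, 0, ⟨0, 0⟩, 0⟩ 0 0)) (.cut .d 451063 (.void 18 ⟨100000, 0, 0, 0, 0, 0, 0, 0, 0, ⟨0, 0⟩, 0⟩ 0 0) (.pos 18 .pp ⟨288241848, 0, 0, 0, 0, 0, 0, 0, 0, ⟨0, 0⟩, 0⟩ 0 0))) (.pos 16 .pp ⟨72045830, 0, 0, 0, 0, 0, 0, 0, 0, ⟨0, 0⟩, 0⟩ 0 0)) (.cut .v 50331648 (.cut .d 902127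 (.void 46 ⟨100000, 0, 0, 0, 0, 0, 0, 0, 0, ⟨0, 0⟩, 0⟩ 0 0) (.cut .v 41943040 (.pos 48 .pp ⟨377474675, 0, 0, 0, 0, 0, 0, 0, 0, ⟨0, 0⟩, 0⟩ 0 0) (.pos 49 .pp ⟨712344772, 0, 0, 0, 0, 0, 0, 0, 0, ⟨0, 0⟩, 0⟩ 0 0))) (.pos 47 .pp ⟨1607177417, 0, 0, 0, 0, 0, 0, 0, 0, ⟨0, 0⟩, 0⟩ 0 0))) (.cut .v 33554432 (.pos 16 .pp ⟨0, 0, 0, 0, 0, 0, 0, 0, 0, ⟨0, 0⟩, 0⟩ 0 0) (.pos 45 .pp ⟨250406957, 18770968, 0, 0, 0, 0, 0, 0, 0, ⟨0, 0⟩, 0⟩ 0 0))) (.pos 44 .pp ⟨0, 34725159, 0, 0, 0, 0, 0, 0, 0, ⟨0, 0⟩, 0⟩ 0 0)) (.void 60 ⟨36034, 63966, 0, 0, 0, 0, 0, 0, 0, ⟨0, 0⟩, 0⟩ 0 0)) (.void 83 ⟨0, 0, 0, 100000, 0, 0, 0, 0, 0, ⟨0, 0⟩, 0⟩ 0 0)))),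
    by decide +kernel⟩

def covers18 : cell.Covers table row18.1 :=
  ⟨(.cut .d 0 (.cut .v 16777216 (.cut .v 8388608 (.pos 2 .mm ⟨0, 0, 445224619, 0, 0, 0, 0, 0, 0, ⟨0, 0⟩, 0⟩ 0 0) (.cut .d (-8388608) (.void 3 ⟨0, 0, 0, 0, 0, 100000, 0, 0, 0, ⟨0, 0⟩, 0⟩ 0 0) (.cut .d (-4194304) (.void 3 ⟨0, 0, 0, 0, 0, 100000, 0, 0, 0, ⟨0, 0⟩, 0⟩ 0 0) (.cut .d (-2097152) (.void 3 ⟨0, 0, 0, 0, 0, 100000, 0, 0, 0, ⟨0, 0⟩, 0⟩ 0 0) (.cut .d (-1048576) (.void 3 ⟨0, 0, 0, 0, 0, 100000, 0, 0, 0, ⟨0, 0⟩, 0⟩ 0 0) (.cut .d (-524288) (.void 3 ⟨0, 0, 0, 0, 0, 100000, 0, 0, 0, ⟨0, 0⟩, 0⟩ 0 0) (.cut .d (-262144) (.void 3 ⟨0, 0, 0, 0, 0, 100000, 0, 0, 0, ⟨0, 0⟩, 0⟩ 0 0) (.cut .s 12484608 (.pos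 3 .mm ⟨0, 0, 0, 0, 0, 259204161, 0, 0, 0, ⟨0, 0⟩, 0⟩ 0 0) (.cut .s 12599296 (.pos 3 .mm ⟨0, 0, 0, 0, 0, 286467167, 0, 0, 0, ⟨0, 0⟩, 0⟩ 0 0) (.pos 3 .mm ⟨0, 0, 0, 0, 0, 312889387, 0, 0, 0, ⟨0, 0⟩, 0⟩ 0 0)))))))))) (.cut .v 268435456 (.cut .v 67108864 (.cut .v 33554432 (.cut .v 25165824 (.cut .d (-8388608) (.void 17 ⟨100000, 0, 0, 0, 0, 0, 0, 0, 0, ⟨0, 0⟩, 0⟩ 0 0) (.cut .v 20971520 (.cut .d (-4194304) (.void 19 ⟨100000, 0, 0, 0, 0, 0, 0, 0, 0, ⟨0, 0⟩, 0⟩ 0 0) (.cut .d (-2097152) (.void 19 ⟨100000, 0, 0, 0, 0, 0, 0, 0, 0, ⟨0, 0⟩, 0⟩ 0 0) (.cut .v 18874368 (.cut .d (-1048576) (.void 21 ⟨100000, 0, 0, 0, 0, 0, 0, 0, 0, ⟨0, 0⟩, 0⟩ 0 0) (.cut .d (-524288) (.void 21 ⟨100000,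 0, 0, 0, 0, 0, 0, 0, 0, ⟨0, 0⟩, 0⟩ 0 0) (.cut .d (-262144) (.void 21 ⟨0, 0, 0, 0, 0, 100000, 0, 0, 0, ⟨0, 0⟩, 0⟩ 0 0) (.cut .v 17825792 (.cut .d (-131072) (.cut .l 1416742 (.void 23 ⟨0, 0, 0, 0, 0, 100000, 0, 0, 0, ⟨0, 0⟩, 0⟩ 0 0) (.cut .s 12484608 (.cut .v 17301504 (.cut .v 17039360 (.pos 27 .mp ⟨0, 0, 0, 0, 0, 274872309, 0, 0, 0, ⟨0, 0⟩, 0⟩ 0 0) (.cut .d (-196608) (.cut .s 12369920 (.pos 28 .mp ⟨105274321, 0, 0, 0, 0, 106444883, 0, 0, 0, ⟨0, 0⟩, 0⟩ 0 0) (.pos 28 .mp ⟨113851090, 0, 0, 0, 0, 117501049, 0, 0, 0, ⟨0, 0⟩, 0⟩ 0 0)) (.cut .s 12369920 (.cut .s 12312576 (.cut .s 12283904 (.pos 28 .mp ⟨95425991, 0, 0, 0, 0, 101086791, 0, 0, 0, ⟨0, 0⟩, 0⟩ 0 0) (.pos 28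 .mp ⟨97261502, 0, 0, 0, 0, 103236093, 0, 0, 0, ⟨0, 0⟩, 0⟩ 0 0)) (.cut .s 12341248 (.pos 28 .mp ⟨99123551, 0, 0, 0, 0, 105475440, 0, 0, 0, ⟨0, 0⟩, 0⟩ 0 0) (.pos 28 .mp ⟨101012645, 0, 0, 0, 0, 107805044, 0, 0, 0, ⟨0, 0⟩, 0⟩ 0 0))) (.cut .s 12427264 (.cut .s 12398592 (.pos 28 .mp ⟨102929303, 0, 0, 0, 0, 110225101, 0, 0, 0, ⟨0, 0⟩, 0⟩ 0 0) (.pos 28 .mp ⟨104874058, 0, 0, 0, 0, 112735789, 0, 0, 0, ⟨0, 0⟩, 0⟩ 0 0)) (.cut .v 17170432 (.pos 56 .mp ⟨80899574, 0, 0, 0, 0, 158719791, 0, 0, 0, ⟨0, 0⟩, 0⟩ 0 0) (.cut .s 12455936 (.pos 57 .mp ⟨126189821, 0, 0, 0, 0, 80671549, 0, 0, 0, ⟨0, 0⟩, 0⟩ 0 0) (.pos 57 .mp ⟨128230044, 0, 0, 0, 0, 83258641, 0, 0, 0, ⟨0, 0⟩, 0⟩ 0 0)))))))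 (.cut .v 17563648 (.cut .l 1920059 (.pos 54 .mp ⟨187800653, 0, 0, 0, 0, 0, 0, 0, 0, ⟨0, 0⟩, 0⟩ 0 0) (.cut .d (-196608) (.cut .s 12369920 (.pos 54 .mp ⟨178115855, 0, 0, 0, 0, 0, 0, 0, 0, ⟨0, 0⟩, 0⟩ 0 0) (.pos 54 .mp ⟨193479727, 0, 0, 0, 0, 0, 0, 0, 0, ⟨0, 0⟩, 0⟩ 0 0)) (.cut .s 12369920 (.pos 54 .mp ⟨161398130, 0, 0, 0, 0, 0, 0, 0, 0, ⟨0, 0⟩, 0⟩ 0 0) (.pos 54 .mp ⟨176945873, 0, 0, 0, 0, 0, 0, 0, 0, ⟨0, 0⟩, 0⟩ 0 0)))) (.pos 55 .mp ⟨186748252, 0, 0, 0, 0, 0, 0, 0, 0, ⟨0, 0⟩, 0⟩ 0 0))) (.cut .v 17301504 (.cut .d (-196608) (.pos 25 .mp ⟨119340345, 0, 0, 0, 0, 158524772, 0, 0, 0, ⟨0, 0⟩, 0⟩ 0 0) (.cut .v 17039360 (.pos 27 .mp ⟨0, 0, 0, 0, 0, 324979929, 0, 0, 0, ⟨0, 0⟩,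 0⟩ 0 0) (.cut .s 12599296 (.cut .s 12541952 (.cut .v 17170432 (.pos 56 .mp ⟨82473407, 0, 0, 0, 0, 168506409, 0, 0, 0, ⟨0, 0⟩, 0⟩ 0 0) (.cut .s 12513280 (.pos 57 .mp ⟨130362374, 0, 0, 0, 0, 85824126, 0, 0, 0, ⟨0, 0⟩, 0⟩ 0 0) (.pos 57 .mp ⟨132594612, 0, 0, 0, 0, 88354660, 0, 0, 0, ⟨0, 0⟩, 0⟩ 0 0))) (.cut .v 17170432 (.pos 56 .mp ⟨84576835, 0, 0, 0, 0, 177985381, 0, 0, 0, ⟨0, 0⟩, 0⟩ 0 0) (.cut .s 12570624 (.pos 57 .mp ⟨134934706, 0, 0, 0, 0, 90836594, 0, 0, 0, ⟨0, 0⟩, 0⟩ 0 0) (.pos 57 .mp ⟨137390752, 0, 0, 0, 0, 93255953, 0, 0, 0, ⟨0, 0⟩, 0⟩ 0 0)))) (.cut .l 1920059 (.pos 28 .mp ⟨125763167, 0, 0, 0, 0, 141379677, 0, 0, 0, ⟨0, 0⟩, 0⟩ 0 0) (.cut .d (-163840) (.cut .s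 12656640 (.pos 28 .mp ⟨126037356, 0, 0, 0, 0, 126521722, 0, 0, 0, ⟨0, 0⟩, 0⟩ 0 0) (.pos 28 .mp ⟨130813692, 0, 0, 0, 0, 132687399, 0, 0, 0, ⟨0, 0⟩, 0⟩ 0 0)) (.pos 28 .mp ⟨138751747, 0, 0, 0, 0, 92017835, 0, 0, 0, ⟨0, 0⟩, 0⟩ 0 0)))))) (.cut .d (-196608) (.void 26 ⟨100000, 0, 0, 0, 0, 0, 0, 0, 0, ⟨0, 0⟩, 0⟩ 0 0) (.cut .s 12599296 (.pos 26 .mp ⟨191927247, 0, 0, 0, 0, 0, 0, 0, 0, ⟨0, 0⟩, 0⟩ 0 0) (.pos 26 .mp ⟨207859754, 0, 0, 0, 0, 0, 0, 0, 0, ⟨0, 0⟩, 0⟩ 0 0)))))) (.cut .s 12484608 (.cut .v 17301504 (.cut .l 1416742 (.cut .d (-65536) (.cut .s 12369920 (.cut .v 17039360 (.cut .s 12312576 (.pos 27 .mp ⟨90003124, 0, 0, 0, 0, 108150387, 0, 0, 0, ⟨0, 0⟩, 0⟩ 0 0) (.cut .l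 913425 (.pos 27 .mp ⟨98619945, 0, 0, 0, 0, 107798730, 0, 0, 0, ⟨0, 0⟩, 0⟩ 0 0) (.pos 27 .mp ⟨93348384, 0, 0, 0, 0, 108598036, 0, 0, 0, ⟨0, 0⟩, 0⟩ 0 0))) (.pos 28 .mp ⟨158164168, 0, 0, 0, 0, 0, 0, 0, 0, ⟨0, 0⟩, 0⟩ 0 0)) (.cut .v 17039360 (.cut .l 913425 (.pos 27 .mp ⟨102255343, 0, 0, 0, 0, 122951005, 0, 0, 0, ⟨0, 0⟩, 0⟩ 0 0) (.cut .s 12427264 (.pos 27 .mp ⟨96784178, 0, 0, 0, 0, 113843774, 0, 0, 0, ⟨0, 0⟩, 0⟩ 0 0) (.pos 27 .mp ⟨100314067, 0, 0, 0, 0, 119444778, 0, 0, 0, ⟨0, 0⟩, 0⟩ 0 0))) (.cut .s 12427264 (.pos 28 .mp ⟨143564121, 0, 0, 0, 0, 38396102, 0, 0, 0, ⟨0, 0⟩, 0⟩ 0 0) (.pos 28 .mp ⟨147586560, 0, 0, 0, 0, 42962741, 0, 0, 0, ⟨0, 0⟩, 0⟩ 0 0)))) (.cut .l 913425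 (.cut .v 17039360 (.cut .d (-32768) (.cut .s 12369920 (.cut .l 661767 (.cut .d (-49152) (.pos 27 .mp ⟨95270326, 0, 0, 0, 0, 115526884, 0, 0, 0, ⟨0, 0⟩, 0⟩ 0 0) (.cut .v 16908288 (.cut .s 12312576 (.pos 50 .mp ⟨94680485, 0, 0, 0, 0, 90794014, 0, 0, 0, ⟨0, 0⟩, 0⟩ 0 0) (.pos 50 .mp ⟨97532536, 0, 0, 0, 0, 96415790, 0, 0, 0, ⟨0, 0⟩, 0⟩ 0 0)) (.pos 51 .mp ⟨153064132, 0, 0, 0, 0, 0, 0, 0, 0, ⟨0, 0⟩, 0⟩ 0 0))) (.pos 27 .mp ⟨105022044, 0, 0, 0, 0, 66528218, 0, 0, 0, ⟨0, 0⟩, 0⟩ 0 0)) (.cut .s 12427264 (.cut .v 16908288 (.cut .s 12398592 (.pos 50 .mp ⟨101525475, 0, 0, 0, 0, 98886477, 0, 0, 0, ⟨0, 0⟩, 0⟩ 0 0) (.pos 50 .mp ⟨103345245, 0, 0, 0, 0, 101154718, 0, 0, 0, ⟨0, 0⟩,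 0⟩ 0 0)) (.pos 51 .mp ⟨113446737, 0, 0, 0, 0, 81771994, 0, 0, 0, ⟨0, 0⟩, 0⟩ 0 0)) (.cut .l 661767 (.cut .v 16908288 (.cut .s 12455936 (.pos 50 .mp ⟨105187700, 0, 0, 0, 0, 103529711, 0, 0, 0, ⟨0, 0⟩, 0⟩ 0 0) (.pos 50 .mp ⟨107053251, 0, 0, 0, 0, 106013826, 0, 0, 0, ⟨0, 0⟩, 0⟩ 0 0)) (.pos 51 .mp ⟨155429076, 0, 0, 0, 0, 25519562, 0, 0, 0, ⟨0, 0⟩, 0⟩ 0 0)) (.pos 27 .mp ⟨112825958, 0, 0, 0, 0, 83092069, 0, 0, 0, ⟨0, 0⟩, 0⟩ 0 0)))) (.cut .v 16908288 (.cut .s 12369920 (.pos 50 .mp ⟨100895983, 0, 0, 0, 0, 0, 0, 0, 0, ⟨0, 0⟩, 0⟩ 0 0) (.cut .s 12427264 (.pos 50 .mp ⟨102667902, 0, 0, 0, 0, 83868480, 0, 0, 0, ⟨0, 0⟩, 0⟩ 0 0) (.cut .s 12455936 (.pos 50 .mp ⟨105396148, 0, 0,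 0, 0, 89869638, 0, 0, 0, ⟨0, 0⟩, 0⟩ 0 0) (.pos 50 .mp ⟨107263611, 0, 0, 0, 0, 92286066, 0, 0, 0, ⟨0, 0⟩, 0⟩ 0 0)))) (.pos 51 .mp ⟨147743399, 0, 0, 0, 0, 0, 0, 0, 0, ⟨0, 0⟩, 0⟩ 0 0))) (.pos 28 .mp ⟨159883332, 0, 0, 0, 0, 0, 0, 0, 0, ⟨0, 0⟩, 0⟩ 0 0)) (.pos 25 .mp ⟨109015272, 0, 0, 0, 0, 0, 0, 0, 0, ⟨0, 0⟩, 0⟩ 0 0))) (.cut .s 12369920 (.pos 25 .mp ⟨110623933, 0, 0, 0, 0, 56745213, 0, 0, 0, ⟨0, 0⟩, 0⟩ 0 0) (.cut .v 17039360 (.pos 27 .mp ⟨0, 0, 0, 0, 0, 248004069, 0, 0, 0, ⟨0, 0⟩, 0⟩ 0 0) (.pos 28 .mp ⟨122895998, 0, 0, 0, 0, 66078193, 0, 0, 0, ⟨0, 0⟩, 0⟩ 0 0)))) (.cut .s 12369920 (.pos 26 .mp ⟨157507831, 0, 0, 0, 0, 0, 0, 0, 0, ⟨0, 0⟩, 0⟩ 0 0) (.pos 26 .mp ⟨169938926,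 0, 0, 0, 0, 0, 0, 0, 0, ⟨0, 0⟩, 0⟩ 0 0))) (.cut .v 17301504 (.cut .l 1416742 (.cut .d (-65536) (.cut .s 12599296 (.cut .v 17039360 (.cut .l 913425 (.pos 27 .mp ⟨109842200, 0, 0, 0, 0, 135174008, 0, 0, 0, ⟨0, 0⟩, 0⟩ 0 0) (.cut .s 12541952 (.pos 27 .mp ⟨103941801, 0, 0, 0, 0, 125397750, 0, 0, 0, ⟨0, 0⟩, 0⟩ 0 0) (.pos 27 .mp ⟨107671332, 0, 0, 0, 0, 131698976, 0, 0, 0, ⟨0, 0⟩, 0⟩ 0 0))) (.cut .s 12541952 (.pos 28 .mp ⟨152205076, 0, 0, 0, 0, 47067720, 0, 0, 0, ⟨0, 0⟩, 0⟩ 0 0) (.pos 28 .mp ⟨157520912, 0, 0, 0, 0, 50541361, 0, 0, 0, ⟨0, 0⟩, 0⟩ 0 0))) (.cut .l 913425 (.pos 25 .mp ⟨123327517, 0, 0, 0, 0, 150047296, 0, 0, 0, ⟨0, 0⟩, 0⟩ 0 0) (.cut .d (-98304) (.pos 25 .mp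 ⟨121741153, 0, 0, 0, 0, 147984876, 0, 0, 0, ⟨0, 0⟩, 0⟩ 0 0) (.cut .v 17039360 (.pos 27 .mp ⟨111506832, 0, 0, 0, 0, 141583169, 0, 0, 0, ⟨0, 0⟩, 0⟩ 0 0) (.pos 28 .mp ⟨186181679, 0, 0, 0, 0, 15248974, 0, 0, 0, ⟨0, 0⟩, 0⟩ 0 0))))) (.cut .l 913425 (.cut .v 17039360 (.cut .d (-32768) (.cut .s 12599296 (.cut .s 12541952 (.cut .l 661767 (.cut .v 16908288 (.pos 50 .mp ⟨106591097, 0, 0, 0, 0, 115859148, 0, 0, 0, ⟨0, 0⟩, 0⟩ 0 0) (.pos 51 .mp ⟨160542106, 0, 0, 0, 0, 28533813, 0, 0, 0, ⟨0, 0⟩, 0⟩ 0 0)) (.pos 27 .mp ⟨116902381, 0, 0, 0, 0, 87791498, 0, 0, 0, ⟨0, 0⟩, 0⟩ 0 0)) (.cut .v 16908288 (.pos 50 .mp ⟨108298970, 0, 0, 0, 0, 124976832, 0, 0, 0, ⟨0, 0⟩, 0⟩ 0 0) (.cut .s 12570624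 (.pos 51 .mp ⟨126901258, 0, 0, 0, 0, 91292380, 0, 0, 0, ⟨0, 0⟩, 0⟩ 0 0) (.pos 51 .mp ⟨129090212, 0, 0, 0, 0, 93840848, 0, 0, 0, ⟨0, 0⟩, 0⟩ 0 0)))) (.cut .s 12656640 (.cut .v 16908288 (.pos 50 .mp ⟨112103222, 0, 0, 0, 0, 131379164, 0, 0, 0, ⟨0, 0⟩, 0⟩ 0 0) (.pos 51 .mp ⟨130746672, 0, 0, 0, 0, 100372954, 0, 0, 0, ⟨0, 0⟩, 0⟩ 0 0)) (.cut .v 16908288 (.pos 50 .mp ⟨116312597, 0, 0, 0, 0, 137572829, 0, 0, 0, ⟨0, 0⟩, 0⟩ 0 0) (.pos 51 .mp ⟨135410804, 0, 0, 0, 0, 105806906, 0, 0, 0, ⟨0, 0⟩, 0⟩ 0 0)))) (.cut .v 16908288 (.cut .v 16842752 (.pos 86 .mp ⟨0, 0, 0, 0, 0, 261848511, 0, 0, 0, ⟨0, 0⟩, 0⟩ 0 0) (.cut .d (-16384) (.cut .d (-24576) (.cut .d (-28672) (.cut .s 12599296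 (.cut .s 12541952 (.pos 87 .mp ⟨112843689, 0, 0, 0, 0, 92162134, 0, 0, 0, ⟨0, 0⟩, 0⟩ 0 0) (.pos 87 .mp ⟨112122513, 0, 0, 0, 0, 113972699, 0, 0, 0, ⟨0, 0⟩, 0⟩ 0 0)) (.pos 87 .mp ⟨119188513, 0, 0, 0, 0, 117134495, 0, 0, 0, ⟨0, 0⟩, 0⟩ 0 0)) (.pos 87 .mp ⟨124203087, 0, 0, 0, 0, 0, 0, 0, 0, ⟨0, 0⟩, 0⟩ 0 0)) (.pos 87 .mp ⟨0, 0, 0, 0, 0, 0, 0, 0, 0, ⟨0, 0⟩, 0⟩ 0 0)) (.pos 87 .mp ⟨0, 0, 0, 0, 0, 0, 0, 0, 0, ⟨0, 0⟩, 0⟩ 0 0))) (.pos 51 .mp ⟨171884803, 0, 0, 0, 0, 0, 0, 0, 0, ⟨0, 0⟩, 0⟩ 0 0))) (.pos 28 .mp ⟨186944500, 0, 0, 0, 0, 0, 0, 0, 0, ⟨0, 0⟩, 0⟩ 0 0)) (.pos 25 .mp ⟨126327735, 0, 0, 0, 0, 0, 0, 0, 0, ⟨0, 0⟩, 0⟩ 0 0))) (.cut .v 17039360 (.pos 27 .mp ⟨0, 0, 0, 0, 0, 275969476,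 0, 0, 0, ⟨0, 0⟩, 0⟩ 0 0) (.cut .s 12599296 (.pos 28 .mp ⟨132301091, 0, 0, 0, 0, 73143459, 0, 0, 0, ⟨0, 0⟩, 0⟩ 0 0) (.pos 28 .mp ⟨142327220, 0, 0, 0, 0, 81167328, 0, 0, 0, ⟨0, 0⟩, 0⟩ 0 0)))) (.cut .s 12599296 (.pos 26 .mp ⟨183647152, 0, 0, 0, 0, 0, 0, 0, 0, ⟨0, 0⟩, 0⟩ 0 0) (.pos 26 .mp ⟨198728881, 0, 0, 0, 0, 0, 0, 0, 0, ⟨0, 0⟩, 0⟩ 0 0))))) (.cut .s 12484608 (.pos 24 .mp ⟨184711156, 0, 0, 0, 0, 0, 0, 0, 0, ⟨0, 0⟩, 0⟩ 0 0) (.pos 24 .mp ⟨215899903, 0, 0, 0, 0, 0, 0, 0, 0, ⟨0, 0⟩, 0⟩ 0 0)))))) (.pos 22 .mp ⟨375682699, 0, 0, 0, 0, 0, 0, 0, 0, ⟨0, 0⟩, 0⟩ 0 0)))) (.void 20 ⟨100000, 0, 0, 0, 0, 0, 0, 0, 0, ⟨0, 0⟩, 0⟩ 0 0))) (.void 18 ⟨100000, 0, 0, 0, 0, 0, 0, 0, 0, ⟨0,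 0⟩, 0⟩ 0 0)) (.void 45 ⟨100000, 0, 0, 0, 0, 0, 0, 0, 0, ⟨0, 0⟩, 0⟩ 0 0)) (.void 60 ⟨100000, 0, 0, 0, 0, 0, 0, 0, 0, ⟨0, 0⟩, 0⟩ 0 0)) (.void 83 ⟨92956, 0, 0, 7044, 0, 0, 0, 0, 0, ⟨0, 0⟩, 0⟩ 0 0))) (.cut .v 16777216 (.cut .v 8388608 (.cut .v 4194304 (.cut .v 2097152 (.pos 65 .pm ⟨0, 0, 18841299, 0, 0, 0, 0, 0, 30818144, ⟨0, 0⟩, 2804900⟩ 0 0) (.cut .d 3095263 (.pos 66 .pm ⟨0, 0, 13321316, 0, 0, 0, 0, 0, 0, ⟨0, 0⟩, 0⟩ 0 0) (.pos 66 .pm ⟨0, 31224975, 0, 0, 0, 0, 0, 0, 0, ⟨0, 0⟩, 0⟩ 0 0))) (.cut .d 3095263 (.pos 5 .pm ⟨0, 0, 2862779, 0, 0, 0, 0, 0, 0, ⟨0, 0⟩, 0⟩ 0 0) (.cut .d 4642894 (.pos 5 .pm ⟨0, 0, 0, 0, 0, 0, 0, 0, 0, ⟨0, 0⟩, 0⟩ 0 0) (.cut .d 5416710 (.pos 5 .pm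 ⟨0, 40964869, 0, 0, 0, 0, 0, 0, 0, ⟨0, 0⟩, 0⟩ 0 0) (.pos 5 .pm ⟨0, 70428684, 0, 0, 0, 0, 0, 0, 0, ⟨0, 0⟩, 0⟩ 0 0))))) (.cut .d 3095263 (.pos 3 .pm ⟨0, 0, 0, 0, 0, 0, 0, 0, 0, ⟨0, 0⟩, 0⟩ 0 0) (.pos 3 .pm ⟨0, 59080745, 0, 0, 0, 0, 0, 0, 0, ⟨0, 0⟩, 0⟩ 0 0))) (.cut .v 268435456 (.cut .v 67108864 (.cut .d 3095263 (.cut .d 1547631 (.cut .v 33554432 (.cut .d 773815 (.cut .v 25165824 (.cut .d 386907 (.cut .v 20971520 (.cut .v 18874368 (.cut .v 17825792 (.pos 23 .pp ⟨111278635, 0, 0, 0, 0, 0, 0, 0, 0, ⟨0, 0⟩, 0⟩ 0 0) (.pos 24 .pp ⟨158150825, 0, 0, 0, 0, 0, 0, 0, 0, ⟨0, 0⟩, 0⟩ 0 0)) (.pos 22 .pp ⟨189322275, 0, 0, 0, 0, 0, 0, 0, 0, ⟨0, 0⟩, 0⟩ 0 0)) (.pos 20 .pp ⟨277718778,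 0, 0, 0, 0, 0, 0, 0, 0, ⟨0, 0⟩, 0⟩ 0 0)) (.pos 17 .pp ⟨115113006, 0, 0, 0, 0, 0, 0, 0, 0, ⟨0, 0⟩, 0⟩ 0 0)) (.cut .v 29360128 (.pos 41 .pp ⟨383934448, 0, 0, 0, 0, 0, 0, 0, 0, ⟨0, 0⟩, 0⟩ 0 0) (.pos 42 .pp ⟨560590106, 0, 0, 0, 0, 0, 0, 0, 0, ⟨0, 0⟩, 0⟩ 0 0))) (.pos 16 .pp ⟨109402932, 0, 0, 0, 0, 0, 0, 0, 0, ⟨0, 0⟩, 0⟩ 0 0)) (.cut .d 773815 (.void 45 ⟨100000, 0, 0, 0, 0, 0, 0, 0, 0, ⟨0, 0⟩, 0⟩ 0 0) (.cut .v 50331648 (.cut .v 41943040 (.pos 48 .pp ⟨508756996, 0, 0, 0, 0, 0, 0, 0, 0, ⟨0, 0⟩, 0⟩ 0 0) (.pos 49 .pp ⟨928356841, 0, 0, 0, 0, 0, 0, 0, 0, ⟨0, 0⟩, 0⟩ 0 0)) (.pos 47 .pp ⟨1759906097, 0, 0, 0, 0, 0, 0, 0, 0, ⟨0, 0⟩, 0⟩ 0 0)))) (.cut .v 33554432 (.pos 16 .pp ⟨0,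 0, 0, 0, 0, 0, 0, 0, 0, ⟨0, 0⟩, 0⟩ 0 0) (.pos 45 .pp ⟨367644792, 80713561, 0, 0, 0, 0, 0, 0, 0, ⟨0, 0⟩, 0⟩ 0 0))) (.pos 44 .pp ⟨0, 37166554, 0, 0, 0, 0, 0, 0, 0, ⟨0, 0⟩, 0⟩ 0 0)) (.void 60 ⟨35775, 64225, 0, 0, 0, 0, 0, 0, 0, ⟨0, 0⟩, 0⟩ 0 0)) (.void 83 ⟨0, 0, 0, 100000, 0, 0, 0, 0, 0, ⟨0, 0⟩, 0⟩ 0 0)))),
    by decide +kernel⟩

def covers19 : cell.Covers table row19.1 :=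
  ⟨(.cut .d 0 (.cut .v 16777216 (.cut .v 8388608 (.void 2 ⟨0, 0, 100000, 0, 0, 0, 0, 0, 0, ⟨0, 0⟩, 0⟩ 0 0) (.cut .d (-8388608) (.void 3 ⟨0, 0, 0, 0, 0, 100000, 0, 0, 0, ⟨0, 0⟩, 0⟩ 0 0) (.cut .d (-4194304) (.void 3 ⟨0, 0, 0, 0, 0, 100000, 0, 0, 0, ⟨0, 0⟩, 0⟩ 0 0) (.cut .d (-2097152) (.void 3 ⟨0, 0, 0, 0, 0, 100000, 0, 0, 0, ⟨0, 0⟩, 0⟩ 0 0) (.cut .d (-1048576) (.void 3 ⟨0, 0, 0, 0, 0, 100000, 0, 0, 0, ⟨0, 0⟩, 0⟩ 0 0) (.cut .d (-524288) (.void 3 ⟨0, 0, 0, 0, 0, 100000, 0, 0, 0, ⟨0, 0⟩, 0⟩ 0 0) (.cut .d (-262144) (.void 3 ⟨0, 0, 0, 0, 0, 100000, 0, 0, 0, ⟨0, 0⟩, 0⟩ 0 0) (.cut .d (-131072) (.pos 3 .mm ⟨0, 0, 0, 0, 0, 472340508, 0, 0, 0, ⟨0, 0⟩, 0⟩ 0 0) (.cut .s 12976128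 (.pos 3 .mm ⟨0, 0, 0, 0, 0, 364138705, 0, 0, 0, ⟨0, 0⟩, 0⟩ 0 0) (.cut .s 13107200 (.pos 3 .mm ⟨0, 0, 0, 0, 0, 410093681, 0, 0, 0, ⟨0, 0⟩, 0⟩ 0 0) (.pos 3 .mm ⟨0, 0, 0, 0, 0, 452224423, 0, 0, 0, ⟨0, 0⟩, 0⟩ 0 0))))))))))) (.cut .v 268435456 (.cut .v 67108864 (.cut .v 33554432 (.cut .v 25165824 (.cut .d (-8388608) (.void 17 ⟨100000, 0, 0, 0, 0, 0, 0, 0, 0, ⟨0, 0⟩, 0⟩ 0 0) (.cut .d (-4194304) (.void 17 ⟨100000, 0, 0, 0, 0, 0, 0, 0, 0, ⟨0, 0⟩, 0⟩ 0 0) (.cut .v 20971520 (.cut .d (-2097152) (.void 19 ⟨100000, 0, 0, 0, 0, 0, 0, 0, 0, ⟨0, 0⟩, 0⟩ 0 0) (.cut .d (-1048576) (.void 19 ⟨100000, 0, 0, 0, 0, 0, 0, 0, 0, ⟨0, 0⟩, 0⟩ 0 0) (.cut .d (-524288) (.void 19 ⟨100000, 0, 0,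 0, 0, 0, 0, 0, 0, ⟨0, 0⟩, 0⟩ 0 0) (.cut .d (-262144) (.void 19 ⟨0, 0, 0, 0, 0, 100000, 0, 0, 0, ⟨0, 0⟩, 0⟩ 0 0) (.cut .v 18874368 (.cut .d (-131072) (.cut .v 17825792 (.cut .d (-196608) (.void 23 ⟨0, 0, 0, 0, 0, 100000, 0, 0, 0, ⟨0, 0⟩, 0⟩ 0 0) (.cut .l 1416742 (.void 23 ⟨0, 0, 0, 0, 0, 100000, 0, 0, 0, ⟨0, 0⟩, 0⟩ 0 0) (.cut .s 12976128 (.cut .v 17301504 (.cut .v 17039360 (.pos 27 .mp ⟨0, 0, 0, 0, 0, 399275262, 0, 0, 0, ⟨0, 0⟩, 0⟩ 0 0) (.cut .s 12845056 (.cut .l 1920059 (.pos 28 .mp ⟨135287686, 0, 0, 0, 0, 164963339, 0, 0, 0, ⟨0, 0⟩, 0⟩ 0 0) (.cut .v 17170432 (.pos 56 .mp ⟨0, 0, 0, 0, 0, 363646860, 0, 0, 0, ⟨0, 0⟩, 0⟩ 0 0) (.cut .d (-163840) (.cut .s 12779520 (.pos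 57 .mp ⟨137868602, 0, 0, 0, 0, 143460772, 0, 0, 0, ⟨0, 0⟩, 0⟩ 0 0) (.pos 57 .mp ⟨143959387, 0, 0, 0, 0, 151195467, 0, 0, 0, ⟨0, 0⟩, 0⟩ 0 0)) (.cut .s 12779520 (.pos 57 .mp ⟨151320646, 0, 0, 0, 0, 104853956, 0, 0, 0, ⟨0, 0⟩, 0⟩ 0 0) (.pos 57 .mp ⟨157937765, 0, 0, 0, 0, 109979295, 0, 0, 0, ⟨0, 0⟩, 0⟩ 0 0))))) (.cut .l 1920059 (.pos 28 .mp ⟨147146376, 0, 0, 0, 0, 183340729, 0, 0, 0, ⟨0, 0⟩, 0⟩ 0 0) (.cut .v 17170432 (.pos 56 .mp ⟨30151660, 0, 0, 0, 0, 355645693, 0, 0, 0, ⟨0, 0⟩, 0⟩ 0 0) (.cut .d (-163840) (.cut .s 12910592 (.pos 57 .mp ⟨150262005, 0, 0, 0, 0, 159398151, 0, 0, 0, ⟨0, 0⟩, 0⟩ 0 0) (.pos 57 .mp ⟨156787167, 0, 0, 0, 0, 168035931, 0, 0, 0, ⟨0, 0⟩, 0⟩ 0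 0)) (.cut .s 12910592 (.pos 57 .mp ⟨164797631, 0, 0, 0, 0, 115684426, 0, 0, 0, ⟨0, 0⟩, 0⟩ 0 0) (.cut .s 12943360 (.pos 57 .mp ⟨162371967, 0, 0, 0, 0, 135696867, 0, 0, 0, ⟨0, 0⟩, 0⟩ 0 0) (.pos 57 .mp ⟨165540927, 0, 0, 0, 0, 139908883, 0, 0, 0, ⟨0, 0⟩, 0⟩ 0 0)))))))) (.cut .s 12845056 (.pos 26 .mp ⟨232656551, 0, 0, 0, 0, 0, 0, 0, 0, ⟨0, 0⟩, 0⟩ 0 0) (.cut .d (-163840) (.pos 26 .mp ⟨262925586, 0, 0, 0, 0, 0, 0, 0, 0, ⟨0, 0⟩, 0⟩ 0 0) (.pos 26 .mp ⟨241009238, 0, 0, 0, 0, 0, 0, 0, 0, ⟨0, 0⟩, 0⟩ 0 0)))) (.cut .v 17301504 (.cut .l 1920059 (.pos 25 .mp ⟨155018731, 0, 0, 0, 0, 252118809, 0, 0, 0, ⟨0, 0⟩, 0⟩ 0 0) (.cut .v 17039360 (.pos 27 .mp ⟨0, 0, 0, 0, 0, 466747196, 0,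 0, 0, ⟨0, 0⟩, 0⟩ 0 0) (.cut .s 13107200 (.cut .d (-163840) (.pos 28 .mp ⟨161091747, 0, 0, 0, 0, 196045056, 0, 0, 0, ⟨0, 0⟩, 0⟩ 0 0) (.cut .s 13041664 (.cut .s 13008896 (.pos 28 .mp ⟨151580326, 0, 0, 0, 0, 177428341, 0, 0, 0, ⟨0, 0⟩, 0⟩ 0 0) (.pos 28 .mp ⟨154704627, 0, 0, 0, 0, 182321254, 0, 0, 0, ⟨0, 0⟩, 0⟩ 0 0)) (.pos 28 .mp ⟨157881394, 0, 0, 0, 0, 192573537, 0, 0, 0, ⟨0, 0⟩, 0⟩ 0 0))) (.cut .s 13172736 (.pos 28 .mp ⟨164397980, 0, 0, 0, 0, 209492581, 0, 0, 0, ⟨0, 0⟩, 0⟩ 0 0) (.pos 28 .mp ⟨171141905, 0, 0, 0, 0, 221286119, 0, 0, 0, ⟨0, 0⟩, 0⟩ 0 0))))) (.cut .s 13107200 (.pos 26 .mp ⟨277768134, 0, 0, 0, 0, 0, 0, 0, 0, ⟨0, 0⟩, 0⟩ 0 0) (.pos 26 .mp ⟨302910071, 0,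 0, 0, 0, 0, 0, 0, 0, ⟨0, 0⟩, 0⟩ 0 0)))))) (.pos 24 .mp ⟨322046802, 0, 0, 0, 0, 0, 0, 0, 0, ⟨0, 0⟩, 0⟩ 0 0)) (.cut .v 17825792 (.cut .s 12976128 (.cut .s 12845056 (.cut .v 17301504 (.cut .l 1416742 (.cut .d (-65536) (.cut .l 913425 (.pos 25 .mp ⟨136745146, 0, 0, 0, 0, 158739152, 0, 0, 0, ⟨0, 0⟩, 0⟩ 0 0) (.cut .d (-98304) (.pos 25 .mp ⟨133520492, 0, 0, 0, 0, 164794435, 0, 0, 0, ⟨0, 0⟩, 0⟩ 0 0) (.cut .v 17039360 (.cut .s 12779520 (.pos 27 .mp ⟨119538692, 0, 0, 0, 0, 153689484, 0, 0, 0, ⟨0, 0⟩, 0⟩ 0 0) (.pos 27 .mp ⟨124421481, 0, 0, 0, 0, 161575226, 0, 0, 0, ⟨0, 0⟩, 0⟩ 0 0)) (.pos 28 .mp ⟨214835718, 0, 0, 0, 0, 0, 0, 0, 0, ⟨0, 0⟩, 0⟩ 0 0)))) (.cut .v 17039360 (.cut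 .l 913425 (.cut .d (-32768) (.cut .s 12779520 (.cut .v 16908288 (.pos 50 .mp ⟨120651111, 0, 0, 0, 0, 146053543, 0, 0, 0, ⟨0, 0⟩, 0⟩ 0 0) (.cut .s 12746752 (.pos 51 .mp ⟨142580812, 0, 0, 0, 0, 105272898, 0, 0, 0, ⟨0, 0⟩, 0⟩ 0 0) (.pos 51 .mp ⟨143524023, 0, 0, 0, 0, 111310177, 0, 0, 0, ⟨0, 0⟩, 0⟩ 0 0))) (.cut .d (-49152) (.pos 27 .mp ⟨127732250, 0, 0, 0, 0, 163089514, 0, 0, 0, ⟨0, 0⟩, 0⟩ 0 0) (.cut .v 16908288 (.cut .s 12812288 (.pos 50 .mp ⟨131608688, 0, 0, 0, 0, 137129508, 0, 0, 0, ⟨0, 0⟩, 0⟩ 0 0) (.pos 50 .mp ⟨134160118, 0, 0, 0, 0, 140673773, 0, 0, 0, ⟨0, 0⟩, 0⟩ 0 0)) (.pos 51 .mp ⟨142519891, 0, 0, 0, 0, 124226764, 0, 0, 0, ⟨0, 0⟩, 0⟩ 0 0)))) (.cut .d (-16384)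 (.cut .d (-24576) (.cut .v 16908288 (.cut .s 12779520 (.pos 50 .mp ⟨122913438, 0, 0, 0, 0, 137456190, 0, 0, 0, ⟨0, 0⟩, 0⟩ 0 0) (.cut .s 12812288 (.pos 50 .mp ⟨127172534, 0, 0, 0, 0, 140764760, 0, 0, 0, ⟨0, 0⟩, 0⟩ 0 0) (.cut .s 12828672 (.pos 50 .mp ⟨129629306, 0, 0, 0, 0, 141426819, 0, 0, 0, ⟨0, 0⟩, 0⟩ 0 0) (.pos 50 .mp ⟨130870350, 0, 0, 0, 0, 143489719, 0, 0, 0, ⟨0, 0⟩, 0⟩ 0 0)))) (.pos 51 .mp ⟨201498866, 0, 0, 0, 0, 0, 0, 0, 0, ⟨0, 0⟩, 0⟩ 0 0)) (.pos 27 .mp ⟨132932247, 0, 0, 0, 0, 0, 0, 0, 0, ⟨0, 0⟩, 0⟩ 0 0)) (.pos 27 .mp ⟨124230639, 0, 0, 0, 0, 0, 0, 0, 0, ⟨0, 0⟩, 0⟩ 0 0))) (.pos 27 .mp ⟨133147179, 0, 0, 0, 0, 106612331, 0, 0, 0, ⟨0, 0⟩, 0⟩ 0 0)) (.pos 28 .mp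 ⟨209581405, 0, 0, 0, 0, 0, 0, 0, 0, ⟨0, 0⟩, 0⟩ 0 0))) (.cut .v 17039360 (.pos 27 .mp ⟨0, 0, 0, 0, 0, 327845419, 0, 0, 0, ⟨0, 0⟩, 0⟩ 0 0) (.cut .s 12779520 (.pos 28 .mp ⟨148484691, 0, 0, 0, 0, 97704846, 0, 0, 0, ⟨0, 0⟩, 0⟩ 0 0) (.cut .s 12812288 (.pos 28 .mp ⟨151627373, 0, 0, 0, 0, 106695442, 0, 0, 0, ⟨0, 0⟩, 0⟩ 0 0) (.pos 28 .mp ⟨154824812, 0, 0, 0, 0, 109472626, 0, 0, 0, ⟨0, 0⟩, 0⟩ 0 0))))) (.pos 26 .mp ⟨217283179, 0, 0, 0, 0, 0, 0, 0, 0, ⟨0, 0⟩, 0⟩ 0 0)) (.cut .v 17301504 (.cut .d (-65536) (.cut .l 1416742 (.cut .l 913425 (.void 25 ⟨0, 0, 0, 0, 0, 100000, 0, 0, 0, ⟨0, 0⟩, 0⟩ 0 0) (.cut .d (-98304) (.pos 25 .mp ⟨144798814, 0, 0, 0, 0, 182532627, 0, 0, 0, ⟨0, 0⟩,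 0⟩ 0 0) (.cut .v 17039360 (.cut .s 12910592 (.pos 27 .mp ⟨129441731, 0, 0, 0, 0, 170235418, 0, 0, 0, ⟨0, 0⟩, 0⟩ 0 0) (.pos 27 .mp ⟨134606602, 0, 0, 0, 0, 179677017, 0, 0, 0, ⟨0, 0⟩, 0⟩ 0 0)) (.pos 28 .mp ⟨234384181, 0, 0, 0, 0, 0, 0, 0, 0, ⟨0, 0⟩, 0⟩ 0 0)))) (.cut .v 17039360 (.pos 27 .mp ⟨0, 0, 0, 0, 0, 374127828, 0, 0, 0, ⟨0, 0⟩, 0⟩ 0 0) (.cut .l 1920059 (.cut .s 12910592 (.pos 28 .mp ⟨161389500, 0, 0, 0, 0, 113204736, 0, 0, 0, ⟨0, 0⟩, 0⟩ 0 0) (.cut .s 12943360 (.pos 28 .mp ⟨164759636, 0, 0, 0, 0, 122537071, 0, 0, 0, ⟨0, 0⟩, 0⟩ 0 0) (.pos 28 .mp ⟨168190306, 0, 0, 0, 0, 126012102, 0, 0, 0, ⟨0, 0⟩, 0⟩ 0 0))) (.pos 28 .mp ⟨159823497, 0, 0, 0, 0, 0, 0, 0, 0, ⟨0,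 0⟩, 0⟩ 0 0)))) (.cut .l 1416742 (.cut .v 17039360 (.cut .l 913425 (.cut .d (-32768) (.cut .s 12910592 (.cut .d (-49152) (.pos 27 .mp ⟨132815108, 0, 0, 0, 0, 171593515, 0, 0, 0, ⟨0, 0⟩, 0⟩ 0 0) (.cut .l 661767 (.cut .v 16908288 (.pos 50 .mp ⟨130405535, 0, 0, 0, 0, 165694833, 0, 0, 0, ⟨0, 0⟩, 0⟩ 0 0) (.pos 51 .mp ⟨208930347, 0, 0, 0, 0, 29318306, 0, 0, 0, ⟨0, 0⟩, 0⟩ 0 0)) (.pos 27 .mp ⟨141277876, 0, 0, 0, 0, 125026847, 0, 0, 0, ⟨0, 0⟩, 0⟩ 0 0))) (.cut .d (-49152) (.pos 27 .mp ⟨138045221, 0, 0, 0, 0, 181041075, 0, 0, 0, ⟨0, 0⟩, 0⟩ 0 0) (.cut .l 661767 (.cut .v 16908288 (.pos 50 .mp ⟨135458540, 0, 0, 0, 0, 174847033, 0, 0, 0, ⟨0, 0⟩, 0⟩ 0 0) (.pos 51 .mp ⟨217559869,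 0, 0, 0, 0, 32079152, 0, 0, 0, ⟨0, 0⟩, 0⟩ 0 0)) (.pos 27 .mp ⟨146846222, 0, 0, 0, 0, 132773914, 0, 0, 0, ⟨0, 0⟩, 0⟩ 0 0)))) (.cut .d (-16384) (.cut .d (-24576) (.cut .v 16908288 (.cut .v 16842752 (.pos 86 .mp ⟨0, 0, 0, 0, 0, 364332263, 0, 0, 0, ⟨0, 0⟩, 0⟩ 0 0) (.cut .l 661767 (.cut .l 535938 (.cut .l 473023 (.cut .s 12910592 (.cut .d (-28672) (.pos 87 .mp ⟨136255660, 0, 0, 0, 0, 152452762, 0, 0, 0, ⟨0, 0⟩, 0⟩ 0 0) (.cut .s 12877824 (.pos 87 .mp ⟨136757161, 0, 0, 0, 0, 133475552, 0, 0, 0, ⟨0, 0⟩, 0⟩ 0 0) (.pos 87 .mp ⟨139371540, 0, 0, 0, 0, 137504790, 0, 0, 0, ⟨0, 0⟩, 0⟩ 0 0))) (.cut .s 12943360 (.cut .s 12926976 (.pos 87 .mp ⟨138283547, 0, 0, 0, 0, 152692427, 0,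 0, 0, ⟨0, 0⟩, 0⟩ 0 0) (.pos 87 .mp ⟨139588236, 0, 0, 0, 0, 154951623, 0, 0, 0, ⟨0, 0⟩, 0⟩ 0 0)) (.pos 87 .mp ⟨140902284, 0, 0, 0, 0, 160850414, 0, 0, 0, ⟨0, 0⟩, 0⟩ 0 0))) (.pos 87 .mp ⟨144844766, 0, 0, 0, 0, 120747617, 0, 0, 0, ⟨0, 0⟩, 0⟩ 0 0)) (.pos 87 .mp ⟨0, 0, 0, 0, 0, 0, 0, 0, 0, ⟨0, 0⟩, 0⟩ 0 0)) (.pos 87 .mp ⟨0, 0, 0, 0, 0, 0, 0, 0, 0, ⟨0, 0⟩, 0⟩ 0 0))) (.pos 51 .mp ⟨218874853, 0, 0, 0, 0, 0, 0, 0, 0, ⟨0, 0⟩, 0⟩ 0 0)) (.pos 27 .mp ⟨143402727, 0, 0, 0, 0, 0, 0, 0, 0, ⟨0, 0⟩, 0⟩ 0 0)) (.pos 27 .mp ⟨133405823, 0, 0, 0, 0, 0, 0, 0, 0, ⟨0, 0⟩, 0⟩ 0 0))) (.pos 27 .mp ⟨144303117, 0, 0, 0, 0, 119505868, 0, 0, 0, ⟨0, 0⟩, 0⟩ 0 0)) (.pos 28 .mp ⟨228392720, 0, 0, 0,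 0, 0, 0, 0, 0, ⟨0, 0⟩, 0⟩ 0 0)) (.pos 25 .mp ⟨0, 0, 0, 0, 0, 0, 0, 0, 0, ⟨0, 0⟩, 0⟩ 0 0))) (.pos 26 .mp ⟨236899082, 0, 0, 0, 0, 0, 0, 0, 0, ⟨0, 0⟩, 0⟩ 0 0))) (.cut .s 13107200 (.cut .v 17301504 (.cut .d (-65536) (.cut .l 1416742 (.cut .l 913425 (.void 25 ⟨0, 0, 0, 0, 0, 100000, 0, 0, 0, ⟨0, 0⟩, 0⟩ 0 0) (.cut .d (-98304) (.void 25 ⟨0, 0, 0, 0, 0, 100000, 0, 0, 0, ⟨0, 0⟩, 0⟩ 0 0) (.cut .v 17039360 (.cut .s 13041664 (.pos 27 .mp ⟨139923747, 0, 0, 0, 0, 189906400, 0, 0, 0, ⟨0, 0⟩, 0⟩ 0 0) (.pos 27 .mp ⟨145401354, 0, 0, 0, 0, 200929277, 0, 0, 0, ⟨0, 0⟩, 0⟩ 0 0)) (.pos 28 .mp ⟨256155507, 0, 0, 0, 0, 0, 0, 0, 0, ⟨0, 0⟩, 0⟩ 0 0)))) (.cut .v 17039360 (.pos 27 .mp ⟨0, 0,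 0, 0, 0, 413060550, 0, 0, 0, ⟨0, 0⟩, 0⟩ 0 0) (.cut .l 1920059 (.cut .s 13041664 (.cut .s 13008896 (.pos 28 .mp ⟨171683083, 0, 0, 0, 0, 129626830, 0, 0, 0, ⟨0, 0⟩, 0⟩ 0 0) (.pos 28 .mp ⟨175239592, 0, 0, 0, 0, 133379143, 0, 0, 0, ⟨0, 0⟩, 0⟩ 0 0)) (.pos 28 .mp ⟨182550602, 0, 0, 0, 0, 134183144, 0, 0, 0, ⟨0, 0⟩, 0⟩ 0 0)) (.pos 28 .mp ⟨167682999, 0, 0, 0, 0, 131091914, 0, 0, 0, ⟨0, 0⟩, 0⟩ 0 0)))) (.cut .l 1416742 (.cut .v 17039360 (.cut .l 913425 (.cut .d (-32768) (.cut .s 13041664 (.cut .v 16908288 (.pos 50 .mp ⟨135470998, 0, 0, 0, 0, 191614750, 0, 0, 0, ⟨0, 0⟩, 0⟩ 0 0) (.cut .s 13008896 (.pos 51 .mp ⟨161815701, 0, 0, 0, 0, 140701850, 0, 0, 0, ⟨0, 0⟩, 0⟩ 0 0) (.pos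 51 .mp ⟨164995023, 0, 0, 0, 0, 144966136, 0, 0, 0, ⟨0, 0⟩, 0⟩ 0 0))) (.cut .v 16908288 (.pos 50 .mp ⟨141371550, 0, 0, 0, 0, 201625836, 0, 0, 0, ⟨0, 0⟩, 0⟩ 0 0) (.cut .s 13074432 (.pos 51 .mp ⟨168228794, 0, 0, 0, 0, 149402972, 0, 0, 0, ⟨0, 0⟩, 0⟩ 0 0) (.pos 51 .mp ⟨171518480, 0, 0, 0, 0, 154012278, 0, 0, 0, ⟨0, 0⟩, 0⟩ 0 0)))) (.cut .d (-16384) (.cut .d (-24576) (.cut .v 16908288 (.cut .s 13041664 (.cut .s 13008896 (.pos 50 .mp ⟨142439697, 0, 0, 0, 0, 167305781, 0, 0, 0, ⟨0, 0⟩, 0⟩ 0 0) (.pos 50 .mp ⟨145113662, 0, 0, 0, 0, 172195627, 0, 0, 0, ⟨0, 0⟩, 0⟩ 0 0)) (.pos 50 .mp ⟨144486786, 0, 0, 0, 0, 189726559, 0, 0, 0, ⟨0, 0⟩, 0⟩ 0 0)) (.pos 51 .mp ⟨238623807, 0, 0,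 0, 0, 0, 0, 0, 0, ⟨0, 0⟩, 0⟩ 0 0)) (.pos 27 .mp ⟨154444389, 0, 0, 0, 0, 0, 0, 0, 0, ⟨0, 0⟩, 0⟩ 0 0)) (.pos 27 .mp ⟨143062612, 0, 0, 0, 0, 0, 0, 0, 0, ⟨0, 0⟩, 0⟩ 0 0))) (.pos 27 .mp ⟨155860846, 0, 0, 0, 0, 134972681, 0, 0, 0, ⟨0, 0⟩, 0⟩ 0 0)) (.pos 28 .mp ⟨249444770, 0, 0, 0, 0, 0, 0, 0, 0, ⟨0, 0⟩, 0⟩ 0 0)) (.pos 25 .mp ⟨0, 0, 0, 0, 0, 0, 0, 0, 0, ⟨0, 0⟩, 0⟩ 0 0))) (.pos 26 .mp ⟨258870568, 0, 0, 0, 0, 0, 0, 0, 0, ⟨0, 0⟩, 0⟩ 0 0)) (.cut .v 17301504 (.cut .d (-65536) (.cut .l 1416742 (.cut .l 913425 (.void 25 ⟨0, 0, 0, 0, 0, 100000, 0, 0, 0, ⟨0, 0⟩, 0⟩ 0 0) (.cut .s 13172736 (.cut .v 17039360 (.pos 27 .mp ⟨151048192, 0, 0, 0, 0, 215700678, 0, 0, 0, ⟨0, 0⟩, 0⟩ 0 0)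 (.pos 28 .mp ⟨213814091, 0, 0, 0, 0, 110350869, 0, 0, 0, ⟨0, 0⟩, 0⟩ 0 0)) (.pos 25 .mp ⟨161946636, 0, 0, 0, 0, 232465578, 0, 0, 0, ⟨0, 0⟩, 0⟩ 0 0))) (.cut .v 17039360 (.pos 27 .mp ⟨0, 0, 0, 0, 0, 455357931, 0, 0, 0, ⟨0, 0⟩, 0⟩ 0 0) (.cut .s 13172736 (.pos 28 .mp ⟨190137547, 0, 0, 0, 0, 139636132, 0, 0, 0, ⟨0, 0⟩, 0⟩ 0 0) (.pos 28 .mp ⟨198015688, 0, 0, 0, 0, 148278179, 0, 0, 0, ⟨0, 0⟩, 0⟩ 0 0)))) (.cut .v 17039360 (.cut .l 1416742 (.cut .l 913425 (.cut .d (-32768) (.cut .d (-49152) (.pos 27 .mp ⟨154699712, 0, 0, 0, 0, 231731755, 0, 0, 0, ⟨0, 0⟩, 0⟩ 0 0) (.cut .s 13172736 (.cut .s 13139968 (.pos 27 .mp ⟨156820409, 0, 0, 0, 0, 191565579, 0, 0, 0, ⟨0, 0⟩, 0⟩ 0 0) (.pos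 27 .mp ⟨160248585, 0, 0, 0, 0, 196318737, 0, 0, 0, ⟨0, 0⟩, 0⟩ 0 0)) (.pos 27 .mp ⟨158362697, 0, 0, 0, 0, 220135715, 0, 0, 0, ⟨0, 0⟩, 0⟩ 0 0))) (.cut .d (-16384) (.cut .v 16908288 (.cut .s 13172736 (.cut .d (-24576) (.pos 50 .mp ⟨151506509, 0, 0, 0, 0, 197932907, 0, 0, 0, ⟨0, 0⟩, 0⟩ 0 0) (.pos 50 .mp ⟨158042452, 0, 0, 0, 0, 0, 0, 0, 0, ⟨0, 0⟩, 0⟩ 0 0)) (.pos 50 .mp ⟨156333473, 0, 0, 0, 0, 202404692, 0, 0, 0, ⟨0, 0⟩, 0⟩ 0 0)) (.pos 51 .mp ⟨260974014, 0, 0, 0, 0, 0, 0, 0, 0, ⟨0, 0⟩, 0⟩ 0 0)) (.pos 27 .mp ⟨153288546, 0, 0, 0, 0, 0, 0, 0, 0, ⟨0, 0⟩, 0⟩ 0 0))) (.pos 27 .mp ⟨167881745, 0, 0, 0, 0, 152792007, 0, 0, 0, ⟨0, 0⟩, 0⟩ 0 0)) (.pos 27 .mp ⟨0, 0, 0, 0, 0, 0, 0,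 0, 0, ⟨0, 0⟩, 0⟩ 0 0)) (.pos 28 .mp ⟨266144512, 0, 0, 0, 0, 0, 0, 0, 0, ⟨0, 0⟩, 0⟩ 0 0))) (.pos 26 .mp ⟨283261235, 0, 0, 0, 0, 0, 0, 0, 0, ⟨0, 0⟩, 0⟩ 0 0)))) (.cut .s 12976128 (.pos 24 .mp ⟨240190446, 0, 0, 0, 0, 0, 0, 0, 0, ⟨0, 0⟩, 0⟩ 0 0) (.pos 24 .mp ⟨285891826, 0, 0, 0, 0, 0, 0, 0, 0, ⟨0, 0⟩, 0⟩ 0 0)))) (.pos 22 .mp ⟨352506075, 0, 0, 0, 0, 0, 0, 0, 0, ⟨0, 0⟩, 0⟩ 0 0)))))) (.void 20 ⟨100000, 0, 0, 0, 0, 0, 0, 0, 0, ⟨0, 0⟩, 0⟩ 0 0)))) (.void 18 ⟨100000, 0, 0, 0, 0, 0, 0, 0, 0, ⟨0, 0⟩, 0⟩ 0 0)) (.void 45 ⟨100000, 0, 0, 0, 0, 0, 0, 0, 0, ⟨0, 0⟩, 0⟩ 0 0)) (.void 60 ⟨100000, 0, 0, 0, 0, 0, 0, 0, 0, ⟨0, 0⟩, 0⟩ 0 0)) (.void 83 ⟨92686, 0, 0, 7314, 0, 0, 0, 0, 0, ⟨0,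 0⟩, 0⟩ 0 0))) (.cut .v 16777216 (.cut .v 8388608 (.cut .v 4194304 (.cut .v 2097152 (.cut .v 1048576 (.pos 98 .pm ⟨0, 0, 19346198, 0, 0, 0, 0, 0, 35097485, ⟨0, 0⟩, 1983364⟩ 0 0) (.pos 99 .pm ⟨0, 291848, 0, 0, 0, 0, 0, 0, 0, ⟨0, 0⟩, 0⟩ 0 0)) (.cut .d 2680896 (.pos 66 .pm ⟨0, 0, 48679231, 0, 0, 0, 0, 0, 0, ⟨0, 0⟩, 0⟩ 0 0) (.pos 66 .pm ⟨0, 37385722, 0, 0, 0, 0, 0, 0, 0, ⟨0, 0⟩, 0⟩ 0 0))) (.cut .d 2680896 (.pos 5 .pm ⟨0, 0, 48275074, 0, 0, 0, 0, 0, 0, ⟨0, 0⟩, 0⟩ 0 0) (.cut .d 4021344 (.pos 5 .pm ⟨0, 0, 0, 0, 0, 0, 0, 0, 0, ⟨0, 0⟩, 0⟩ 0 0) (.pos 5 .pm ⟨0, 71805153, 0, 0, 0, 0, 0, 0, 0, ⟨0, 0⟩, 0⟩ 0 0)))) (.cut .d 2680896 (.pos 3 .pm ⟨0, 0, 0, 0, 0, 0, 0, 0, 0, ⟨0, 0⟩,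 0⟩ 0 0) (.pos 3 .pm ⟨0, 70092381, 0, 0, 0, 0, 0, 0, 0, ⟨0, 0⟩, 0⟩ 0 0))) (.cut .v 268435456 (.cut .v 67108864 (.cut .d 2680896 (.cut .d 1340448 (.cut .v 33554432 (.cut .d 670224 (.cut .v 25165824 (.cut .d 335112 (.cut .v 20971520 (.cut .v 18874368 (.pos 21 .pp ⟨180059191, 0, 0, 0, 0, 0, 0, 0, 0, ⟨0, 0⟩, 0⟩ 0 0) (.pos 22 .pp ⟨256513243, 0, 0, 0, 0, 0, 0, 0, 0, ⟨0, 0⟩, 0⟩ 0 0)) (.pos 20 .pp ⟨374259013, 0, 0, 0, 0, 0, 0, 0, 0, ⟨0, 0⟩, 0⟩ 0 0)) (.pos 17 .pp ⟨153240183, 0, 0, 0, 0, 0, 0, 0, 0, ⟨0, 0⟩, 0⟩ 0 0)) (.cut .d 335112 (.pos 18 .pp ⟨849985499, 0, 0, 0, 0, 0, 0, 0, 0, ⟨0, 0⟩, 0⟩ 0 0) (.pos 18 .pp ⟨510578751, 0, 0, 0, 0, 0, 0, 0, 0, ⟨0, 0⟩, 0⟩ 0 0))) (.pos 16 .pp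 ⟨152241934, 0, 0, 0, 0, 0, 0, 0, 0, ⟨0, 0⟩, 0⟩ 0 0)) (.cut .d 670224 (.pos 45 .pp ⟨2763571099, 0, 0, 0, 0, 0, 0, 0, 0, ⟨0, 0⟩, 0⟩ 0 0) (.cut .v 50331648 (.cut .v 41943040 (.pos 48 .pp ⟨658225464, 0, 0, 0, 0, 0, 0, 0, 0, ⟨0, 0⟩, 0⟩ 0 0) (.pos 49 .pp ⟨1190475757, 0, 0, 0, 0, 0, 0, 0, 0, ⟨0, 0⟩, 0⟩ 0 0)) (.cut .v 58720256 (.pos 100 .pp ⟨1852678697, 0, 0, 0, 0, 0, 0, 0, 0, ⟨0, 0⟩, 0⟩ 0 0) (.void 101 ⟨37415, 62585, 0, 0, 0, 0, 0, 0, 0, ⟨0, 0⟩, 0⟩ 0 0))))) (.cut .v 33554432 (.pos 16 .pp ⟨0, 0, 0, 0, 0, 0, 0, 0, 0, ⟨0, 0⟩, 0⟩ 0 0) (.cut .v 50331648 (.pos 46 .pp ⟨317103032, 0, 0, 0, 0, 0, 0, 0, 0, ⟨0, 0⟩, 0⟩ 0 0) (.pos 47 .pp ⟨1096170322, 142432880, 0, 0, 0, 0, 0, 0, 0,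 ⟨0, 0⟩, 0⟩ 0 0)))) (.pos 44 .pp ⟨0, 37844084, 0, 0, 0, 0, 0, 0, 0, ⟨0, 0⟩, 0⟩ 0 0)) (.void 60 ⟨35332, 64668, 0, 0, 0, 0, 0, 0, 0, ⟨0, 0⟩, 0⟩ 0 0)) (.void 83 ⟨0, 0, 0, 100000, 0, 0, 0, 0, 0, ⟨0, 0⟩, 0⟩ 0 0)))),
    by decide +kernel⟩

def covers20 : cell.Covers table row20.1 :=
  ⟨(.cut .d 0 (.cut .v 16777216 (.cut .v 8388608 (.void 2 ⟨0, 0, 100000, 0, 0, 0, 0, 0, 0, ⟨0, 0⟩, 0⟩ 0 0) (.cut .d (-8388608) (.void 3 ⟨0, 0, 0, 0, 0, 100000, 0, 0, 0, ⟨0, 0⟩, 0⟩ 0 0) (.cut .d (-4194304) (.void 3 ⟨0, 0, 0, 0, 0, 100000, 0, 0, 0, ⟨0, 0⟩, 0⟩ 0 0) (.cut .d (-2097152) (.void 3 ⟨0, 0, 0, 0, 0, 100000, 0, 0, 0, ⟨0, 0⟩, 0⟩ 0 0) (.cut .d (-1048576) (.pos 3 .mm ⟨231547219, 0, 0,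 0, 0, 167540612781, 0, 0, 0, ⟨0, 0⟩, 0⟩ 0 0) (.cut .d (-524288) (.void 3 ⟨0, 0, 0, 0, 0, 100000, 0, 0, 0, ⟨0, 0⟩, 0⟩ 0 0) (.cut .d (-262144) (.void 3 ⟨0, 0, 0, 0, 0, 100000, 0, 0, 0, ⟨0, 0⟩, 0⟩ 0 0) (.cut .d (-131072) (.pos 3 .mm ⟨0, 0, 0, 0, 0, 721042229, 0, 0, 0, ⟨0, 0⟩, 0⟩ 0 0) (.cut .v 12582912 (.pos 6 .mm ⟨0, 0, 0, 0, 0, 348155739, 0, 0, 0, ⟨0, 0⟩, 0⟩ 0 0) (.cut .v 14680064 (.pos 10 .mm ⟨0, 0, 0, 0, 0, 485115839, 0, 0, 0, ⟨0, 0⟩, 0⟩ 0 0) (.cut .v 15728640 (.pos 12 .mm ⟨0, 0, 0, 0, 0, 537656651, 0, 0, 0, ⟨0, 0⟩, 0⟩ 0 0) (.cut .v 16252928 (.pos 14 .mm ⟨0, 0, 0, 0, 0, 565263063, 0, 0, 0, ⟨0, 0⟩, 0⟩ 0 0) (.cut .s 13500416 (.cut .s 13369344 (.pos 15 .mm ⟨0, 0,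 0, 0, 0, 501027471, 0, 0, 0, ⟨0, 0⟩, 0⟩ 0 0) (.pos 15 .mm ⟨0, 0, 0, 0, 0, 552281359, 0, 0, 0, ⟨0, 0⟩, 0⟩ 0 0)) (.cut .s 13631488 (.pos 15 .mm ⟨0, 0, 0, 0, 0, 608694255, 0, 0, 0, ⟨0, 0⟩, 0⟩ 0 0) (.pos 15 .mm ⟨0, 0, 0, 0, 0, 670120531, 0, 0, 0, ⟨0, 0⟩, 0⟩ 0 0))))))))))))))) (.cut .v 268435456 (.cut .v 67108864 (.cut .v 33554432 (.cut .d (-8388608) (.void 16 ⟨100000, 0, 0, 0, 0, 0, 0, 0, 0, ⟨0, 0⟩, 0⟩ 0 0) (.cut .v 25165824 (.cut .d (-4194304) (.void 17 ⟨100000, 0, 0, 0, 0, 0, 0, 0, 0, ⟨0, 0⟩, 0⟩ 0 0) (.cut .v 20971520 (.cut .d (-2097152) (.void 19 ⟨100000, 0, 0, 0, 0, 0, 0, 0, 0, ⟨0, 0⟩, 0⟩ 0 0) (.cut .v 18874368 (.cut .d (-1048576) (.void 21 ⟨100000, 0, 0, 0, 0,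 0, 0, 0, 0, ⟨0, 0⟩, 0⟩ 0 0) (.cut .d (-524288) (.void 21 ⟨100000, 0, 0, 0, 0, 0, 0, 0, 0, ⟨0, 0⟩, 0⟩ 0 0) (.cut .d (-262144) (.void 21 ⟨100000, 0, 0, 0, 0, 0, 0, 0, 0, ⟨0, 0⟩, 0⟩ 0 0) (.cut .d (-131072) (.cut .v 17825792 (.cut .d (-196608) (.void 23 ⟨0, 0, 0, 0, 0, 100000, 0, 0, 0, ⟨0, 0⟩, 0⟩ 0 0) (.cut .d (-163840) (.void 23 ⟨0, 0, 0, 0, 0, 100000, 0, 0, 0, ⟨0, 0⟩, 0⟩ 0 0) (.cut .l 1416742 (.void 23 ⟨0, 0, 0, 0, 0, 100000, 0, 0, 0, ⟨0, 0⟩, 0⟩ 0 0) (.cut .l 1920059 (.void 23 ⟨0, 0, 0, 0, 0, 100000, 0, 0, 0, ⟨0, 0⟩, 0⟩ 0 0) (.cut .v 17301504 (.cut .d (-147456) (.pos 25 .mp ⟨178648210, 0, 0, 0, 0, 437793368, 0, 0, 0, ⟨0, 0⟩, 0⟩ 0 0) (.cut .l 2171717 (.pos 25 .mp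 ⟨177516293, 0, 0, 0, 0, 436380306, 0, 0, 0, ⟨0, 0⟩, 0⟩ 0 0) (.cut .v 17039360 (.pos 27 .mp ⟨0, 0, 0, 0, 0, 650391531, 0, 0, 0, ⟨0, 0⟩, 0⟩ 0 0) (.cut .s 13500416 (.cut .s 13369344 (.pos 28 .mp ⟨182113043, 0, 0, 0, 0, 251574388, 0, 0, 0, ⟨0, 0⟩, 0⟩ 0 0) (.cut .s 13434880 (.pos 28 .mp ⟨193834317, 0, 0, 0, 0, 263386070, 0, 0, 0, ⟨0, 0⟩, 0⟩ 0 0) (.cut .s 13467648 (.pos 28 .mp ⟨202036851, 0, 0, 0, 0, 264307279, 0, 0, 0, ⟨0, 0⟩, 0⟩ 0 0) (.cut .s 13484032 (.pos 28 .mp ⟨206236592, 0, 0, 0, 0, 265074209, 0, 0, 0, ⟨0, 0⟩, 0⟩ 0 0) (.cut .s 13492224 (.pos 28 .mp ⟨208361960, 0, 0, 0, 0, 265555533, 0, 0, 0, ⟨0, 0⟩, 0⟩ 0 0) (.pos 28 .mp ⟨209431133, 0, 0, 0, 0, 267271401, 0, 0,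 0, ⟨0, 0⟩, 0⟩ 0 0)))))) (.cut .s 13631488 (.cut .s 13565952 (.cut .d (-139264) (.void 28 ⟨0, 0, 0, 0, 0, 100000, 0, 0, 0, ⟨0, 0⟩, 0⟩ 0 0) (.cut .s 13533184 (.cut .s 13516800 (.cut .s 13508608 (.pos 28 .mp ⟨210504676, 0, 0, 0, 0, 267604151, 0, 0, 0, ⟨0, 0⟩, 0⟩ 0 0) (.pos 28 .mp ⟨211582623, 0, 0, 0, 0, 269288637, 0, 0, 0, ⟨0, 0⟩, 0⟩ 0 0)) (.pos 28 .mp ⟨212665007, 0, 0, 0, 0, 273058161, 0, 0, 0, ⟨0, 0⟩, 0⟩ 0 0)) (.pos 28 .mp ⟨214843227, 0, 0, 0, 0, 279938891, 0, 0, 0, ⟨0, 0⟩, 0⟩ 0 0))) (.pos 28 .mp ⟨219254452, 0, 0, 0, 0, 299861463, 0, 0, 0, ⟨0, 0⟩, 0⟩ 0 0)) (.void 28 ⟨0, 0, 0, 0, 0, 100000, 0, 0, 0, ⟨0, 0⟩, 0⟩ 0 0)))))) (.cut .s 13500416 (.pos 26 .mp ⟨369326898,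 0, 0, 0, 0, 0, 0, 0, 0, ⟨0, 0⟩, 0⟩ 0 0) (.pos 26 .mp ⟨427851466, 0, 0, 0, 0, 0, 0, 0, 0, ⟨0, 0⟩, 0⟩ 0 0))))))) (.void 24 ⟨100000, 0, 0, 0, 0, 0, 0, 0, 0, ⟨0, 0⟩, 0⟩ 0 0)) (.cut .v 17825792 (.cut .s 13500416 (.cut .v 17301504 (.cut .d (-65536) (.cut .l 1416742 (.cut .l 913425 (.void 25 ⟨0, 0, 0, 0, 0, 100000, 0, 0, 0, ⟨0, 0⟩, 0⟩ 0 0) (.cut .d (-98304) (.void 25 ⟨0, 0, 0, 0, 0, 100000, 0, 0, 0, ⟨0, 0⟩, 0⟩ 0 0) (.cut .s 13369344 (.cut .v 17039360 (.pos 27 .mp ⟨162916234, 0, 0, 0, 0, 262989049, 0, 0, 0, ⟨0, 0⟩, 0⟩ 0 0) (.pos 28 .mp ⟨241381907, 0, 0, 0, 0, 125836472, 0, 0, 0, ⟨0, 0⟩, 0⟩ 0 0)) (.cut .v 17039360 (.cut .s 13434880 (.pos 27 .mp ⟨176050632, 0, 0, 0, 0, 268443546,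 0, 0, 0, ⟨0, 0⟩, 0⟩ 0 0) (.pos 27 .mp ⟨182873255, 0, 0, 0, 0, 282334761, 0, 0, 0, ⟨0, 0⟩, 0⟩ 0 0)) (.pos 28 .mp ⟨259602007, 0, 0, 0, 0, 141786570, 0, 0, 0, ⟨0, 0⟩, 0⟩ 0 0))))) (.cut .v 17039360 (.cut .s 13369344 (.pos 27 .mp ⟨0, 0, 0, 0, 0, 518504625, 0, 0, 0, ⟨0, 0⟩, 0⟩ 0 0) (.pos 27 .mp ⟨0, 0, 0, 0, 0, 570197730, 0, 0, 0, ⟨0, 0⟩, 0⟩ 0 0)) (.cut .s 13369344 (.cut .s 13303808 (.pos 28 .mp ⟨206519008, 0, 0, 0, 0, 161485443, 0, 0, 0, ⟨0, 0⟩, 0⟩ 0 0) (.cut .s 13336576 (.pos 28 .mp ⟨210862837, 0, 0, 0, 0, 170777651, 0, 0, 0, ⟨0, 0⟩, 0⟩ 0 0) (.pos 28 .mp ⟨215282803, 0, 0, 0, 0, 174514217, 0, 0, 0, ⟨0, 0⟩, 0⟩ 0 0))) (.cut .s 13434880 (.cut .d (-98304) (.cut .v 17170432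 (.cut .s 13402112 (.pos 56 .mp ⟨177242084, 0, 0, 0, 0, 263144774, 0, 0, 0, ⟨0, 0⟩, 0⟩ 0 0) (.pos 56 .mp ⟨180814993, 0, 0, 0, 0, 269309999, 0, 0, 0, ⟨0, 0⟩, 0⟩ 0 0)) (.pos 57 .mp ⟨246844324, 0, 0, 0, 0, 144772553, 0, 0, 0, ⟨0, 0⟩, 0⟩ 0 0)) (.pos 28 .mp ⟨209534027, 0, 0, 0, 0, 194792617, 0, 0, 0, ⟨0, 0⟩, 0⟩ 0 0)) (.cut .d (-98304) (.cut .l 1920059 (.pos 28 .mp ⟨198399626, 0, 0, 0, 0, 276387676, 0, 0, 0, ⟨0, 0⟩, 0⟩ 0 0) (.cut .v 17170432 (.pos 56 .mp ⟨121106496, 0, 0, 0, 0, 390514051, 0, 0, 0, ⟨0, 0⟩, 0⟩ 0 0) (.cut .s 13467648 (.pos 57 .mp ⟨217249109, 0, 0, 0, 0, 216758128, 0, 0, 0, ⟨0, 0⟩, 0⟩ 0 0) (.pos 57 .mp ⟨220375117, 0, 0, 0, 0, 224865340, 0, 0, 0, ⟨0, 0⟩, 0⟩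 0 0)))) (.pos 28 .mp ⟨217967031, 0, 0, 0, 0, 204369346, 0, 0, 0, ⟨0, 0⟩, 0⟩ 0 0)))))) (.cut .l 1416742 (.cut .s 13369344 (.cut .v 17039360 (.cut .d (-32768) (.cut .l 913425 (.cut .s 13303808 (.pos 27 .mp ⟨168644807, 0, 0, 0, 0, 227256976, 0, 0, 0, ⟨0, 0⟩, 0⟩ 0 0) (.cut .v 16908288 (.pos 50 .mp ⟨164231322, 0, 0, 0, 0, 257053393, 0, 0, 0, ⟨0, 0⟩, 0⟩ 0 0) (.pos 51 .mp ⟨200167887, 0, 0, 0, 0, 190913917, 0, 0, 0, ⟨0, 0⟩, 0⟩ 0 0))) (.cut .s 13303808 (.pos 27 .mp ⟨166293610, 0, 0, 0, 0, 217804346, 0, 0, 0, ⟨0, 0⟩, 0⟩ 0 0) (.pos 27 .mp ⟨178913897, 0, 0, 0, 0, 214096096, 0, 0, 0, ⟨0, 0⟩, 0⟩ 0 0))) (.cut .d (-16384) (.cut .v 16908288 (.cut .s 13303808 (.pos 50 .mp ⟨162082350,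 0, 0, 0, 0, 224049581, 0, 0, 0, ⟨0, 0⟩, 0⟩ 0 0) (.cut .s 13336576 (.pos 50 .mp ⟨168059596, 0, 0, 0, 0, 227262638, 0, 0, 0, ⟨0, 0⟩, 0⟩ 0 0) (.pos 50 .mp ⟨171097486, 0, 0, 0, 0, 233717639, 0, 0, 0, ⟨0, 0⟩, 0⟩ 0 0))) (.pos 51 .mp ⟨286628852, 0, 0, 0, 0, 0, 0, 0, 0, ⟨0, 0⟩, 0⟩ 0 0)) (.pos 27 .mp ⟨174456000, 0, 0, 0, 0, 0, 0, 0, 0, ⟨0, 0⟩, 0⟩ 0 0))) (.pos 28 .mp ⟨300383331, 0, 0, 0, 0, 0, 0, 0, 0, ⟨0, 0⟩, 0⟩ 0 0)) (.cut .v 17039360 (.cut .d (-32768) (.cut .s 13434880 (.cut .l 913425 (.cut .v 16908288 (.pos 50 .mp ⟨170356287, 0, 0, 0, 0, 268588193, 0, 0, 0, ⟨0, 0⟩, 0⟩ 0 0) (.cut .s 13402112 (.pos 51 .mp ⟨204032156, 0, 0, 0, 0, 199014625, 0, 0, 0, ⟨0, 0⟩, 0⟩ 0 0) (.pos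 51 .mp ⟨207958138, 0, 0, 0, 0, 204283396, 0, 0, 0, ⟨0, 0⟩, 0⟩ 0 0))) (.pos 27 .mp ⟨166301305, 0, 0, 0, 0, 268222402, 0, 0, 0, ⟨0, 0⟩, 0⟩ 0 0)) (.cut .l 913425 (.cut .v 16908288 (.pos 50 .mp ⟨176621882, 0, 0, 0, 0, 281820741, 0, 0, 0, ⟨0, 0⟩, 0⟩ 0 0) (.cut .s 13467648 (.pos 51 .mp ⟨211947713, 0, 0, 0, 0, 209843979, 0, 0, 0, ⟨0, 0⟩, 0⟩ 0 0) (.pos 51 .mp ⟨216002834, 0, 0, 0, 0, 215696900, 0, 0, 0, ⟨0, 0⟩, 0⟩ 0 0))) (.cut .s 13467648 (.pos 27 .mp ⟨176343056, 0, 0, 0, 0, 269742538, 0, 0, 0, ⟨0, 0⟩, 0⟩ 0 0) (.pos 27 .mp ⟨179069500, 0, 0, 0, 0, 278119206, 0, 0, 0, ⟨0, 0⟩, 0⟩ 0 0)))) (.cut .d (-16384) (.cut .l 913425 (.cut .l 661767 (.cut .v 16908288 (.cut .v 16842752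 (.pos 86 .mp ⟨0, 0, 0, 0, 0, 540749173, 0, 0, 0, ⟨0, 0⟩, 0⟩ 0 0) (.cut .s 13434880 (.cut .l 535938 (.cut .d (-24576) (.pos 87 .mp ⟨182768364, 0, 0, 0, 0, 242060055, 0, 0, 0, ⟨0, 0⟩, 0⟩ 0 0) (.cut .s 13402112 (.pos 87 .mp ⟨182147286, 0, 0, 0, 0, 218792086, 0, 0, 0, ⟨0, 0⟩, 0⟩ 0 0) (.cut .s 13418496 (.pos 87 .mp ⟨183782619, 0, 0, 0, 0, 225706286, 0, 0, 0, ⟨0, 0⟩, 0⟩ 0 0) (.pos 87 .mp ⟨185428281, 0, 0, 0, 0, 229006041, 0, 0, 0, ⟨0, 0⟩, 0⟩ 0 0)))) (.pos 87 .mp ⟨186247953, 0, 0, 0, 0, 213933074, 0, 0, 0, ⟨0, 0⟩, 0⟩ 0 0)) (.cut .l 535938 (.cut .d (-24576) (.cut .s 13467648 (.pos 87 .mp ⟨188751241, 0, 0, 0, 0, 248694833, 0, 0, 0, ⟨0, 0⟩, 0⟩ 0 0) (.pos 87 .mp ⟨192117502,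 0, 0, 0, 0, 255181578, 0, 0, 0, ⟨0, 0⟩, 0⟩ 0 0)) (.cut .d (-20480) (.cut .l 473023 (.cut .v 16875520 (.cut .s 13467648 (.pos 88 .mp ⟨182919882, 0, 0, 0, 0, 249282483, 0, 0, 0, ⟨0, 0⟩, 0⟩ 0 0) (.cut .s 13484032 (.pos 88 .mp ⟨186171906, 0, 0, 0, 0, 251278284, 0, 0, 0, ⟨0, 0⟩, 0⟩ 0 0) (.pos 88 .mp ⟨187813225, 0, 0, 0, 0, 254864009, 0, 0, 0, ⟨0, 0⟩, 0⟩ 0 0))) (.pos 89 .mp ⟨301310812, 0, 0, 0, 0, 49691330, 0, 0, 0, ⟨0, 0⟩, 0⟩ 0 0)) (.pos 87 .mp ⟨190687439, 0, 0, 0, 0, 0, 0, 0, 0, ⟨0, 0⟩, 0⟩ 0 0)) (.pos 87 .mp ⟨190217795, 0, 0, 0, 0, 0, 0, 0, 0, ⟨0, 0⟩, 0⟩ 0 0))) (.pos 87 .mp ⟨179127514, 0, 0, 0, 0, 254707694, 0, 0, 0, ⟨0, 0⟩, 0⟩ 0 0)))) (.pos 51 .mp ⟨322263111, 0, 0,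 0, 0, 0, 0, 0, 0, ⟨0, 0⟩, 0⟩ 0 0)) (.pos 27 .mp ⟨191716217, 0, 0, 0, 0, 0, 0, 0, 0, ⟨0, 0⟩, 0⟩ 0 0)) (.pos 27 .mp ⟨0, 0, 0, 0, 0, 0, 0, 0, 0, ⟨0, 0⟩, 0⟩ 0 0)) (.pos 27 .mp ⟨186069228, 0, 0, 0, 0, 0, 0, 0, 0, ⟨0, 0⟩, 0⟩ 0 0))) (.pos 28 .mp ⟨325866253, 0, 0, 0, 0, 0, 0, 0, 0, ⟨0, 0⟩, 0⟩ 0 0))) (.pos 25 .mp ⟨193378118, 0, 0, 0, 0, 0, 0, 0, 0, ⟨0, 0⟩, 0⟩ 0 0))) (.cut .s 13369344 (.pos 26 .mp ⟨311117422, 0, 0, 0, 0, 0, 0, 0, 0, ⟨0, 0⟩, 0⟩ 0 0) (.pos 26 .mp ⟨337780417, 0, 0, 0, 0, 0, 0, 0, 0, ⟨0, 0⟩, 0⟩ 0 0))) (.cut .s 13631488 (.cut .v 17301504 (.cut .d (-65536) (.cut .l 1416742 (.cut .d (-98304) (.void 25 ⟨0, 0, 0, 0, 0, 100000, 0, 0, 0, ⟨0, 0⟩, 0⟩ 0 0) (.cut .l 913425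 (.void 25 ⟨0, 0, 0, 0, 0, 100000, 0, 0, 0, ⟨0, 0⟩, 0⟩ 0 0) (.cut .d (-81920) (.void 25 ⟨0, 0, 0, 0, 0, 100000, 0, 0, 0, ⟨0, 0⟩, 0⟩ 0 0) (.cut .v 17039360 (.cut .s 13565952 (.pos 27 .mp ⟨189880554, 0, 0, 0, 0, 295749516, 0, 0, 0, ⟨0, 0⟩, 0⟩ 0 0) (.pos 27 .mp ⟨197084418, 0, 0, 0, 0, 312054804, 0, 0, 0, ⟨0, 0⟩, 0⟩ 0 0)) (.pos 28 .mp ⟨354046907, 0, 0, 0, 0, 16244654, 0, 0, 0, ⟨0, 0⟩, 0⟩ 0 0))))) (.cut .v 17039360 (.pos 27 .mp ⟨0, 0, 0, 0, 0, 627028385, 0, 0, 0, ⟨0, 0⟩, 0⟩ 0 0) (.cut .s 13565952 (.cut .d (-98304) (.cut .l 1920059 (.pos 28 .mp ⟨206365297, 0, 0, 0, 0, 290454644, 0, 0, 0, ⟨0, 0⟩, 0⟩ 0 0) (.cut .v 17170432 (.pos 56 .mp ⟨123545122, 0, 0, 0, 0, 413801688,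 0, 0, 0, ⟨0, 0⟩, 0⟩ 0 0) (.cut .s 13533184 (.pos 57 .mp ⟨223809944, 0, 0, 0, 0, 232798845, 0, 0, 0, ⟨0, 0⟩, 0⟩ 0 0) (.pos 57 .mp ⟨227578113, 0, 0, 0, 0, 240513257, 0, 0, 0, ⟨0, 0⟩, 0⟩ 0 0)))) (.cut .s 13533184 (.pos 28 .mp ⟨222288185, 0, 0, 0, 0, 219483998, 0, 0, 0, ⟨0, 0⟩, 0⟩ 0 0) (.pos 28 .mp ⟨226682021, 0, 0, 0, 0, 225326931, 0, 0, 0, ⟨0, 0⟩, 0⟩ 0 0))) (.cut .d (-98304) (.cut .l 1920059 (.pos 28 .mp ⟨214577599, 0, 0, 0, 0, 305273752, 0, 0, 0, ⟨0, 0⟩, 0⟩ 0 0) (.cut .v 17170432 (.pos 56 .mp ⟨129250811, 0, 0, 0, 0, 433035336, 0, 0, 0, ⟨0, 0⟩, 0⟩ 0 0) (.cut .s 13598720 (.pos 57 .mp ⟨231704920, 0, 0, 0, 0, 247961592, 0, 0, 0, ⟨0, 0⟩, 0⟩ 0 0) (.pos 57 .mp ⟨236216471,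 0, 0, 0, 0, 255095192, 0, 0, 0, ⟨0, 0⟩, 0⟩ 0 0)))) (.cut .s 13598720 (.pos 28 .mp ⟨231150839, 0, 0, 0, 0, 231592106, 0, 0, 0, ⟨0, 0⟩, 0⟩ 0 0) (.pos 28 .mp ⟨235697032, 0, 0, 0, 0, 238292891, 0, 0, 0, ⟨0, 0⟩, 0⟩ 0 0)))))) (.cut .l 1416742 (.cut .v 17039360 (.cut .d (-32768) (.cut .s 13565952 (.cut .l 913425 (.cut .l 661767 (.pos 27 .mp ⟨191716217, 0, 0, 0, 0, 302395598, 0, 0, 0, ⟨0, 0⟩, 0⟩ 0 0) (.cut .s 13533184 (.pos 27 .mp ⟨186023355, 0, 0, 0, 0, 286097150, 0, 0, 0, ⟨0, 0⟩, 0⟩ 0 0) (.pos 27 .mp ⟨189345641, 0, 0, 0, 0, 294227252, 0, 0, 0, ⟨0, 0⟩, 0⟩ 0 0))) (.cut .s 13533184 (.pos 27 .mp ⟨182006467, 0, 0, 0, 0, 286458127, 0, 0, 0, ⟨0, 0⟩, 0⟩ 0 0) (.pos 27 .mp ⟨185168936,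 0, 0, 0, 0, 294730441, 0, 0, 0, ⟨0, 0⟩, 0⟩ 0 0))) (.cut .l 913425 (.cut .l 661767 (.pos 27 .mp ⟨198647024, 0, 0, 0, 0, 319420899, 0, 0, 0, ⟨0, 0⟩, 0⟩ 0 0) (.cut .s 13598720 (.pos 27 .mp ⟨192709993, 0, 0, 0, 0, 302664864, 0, 0, 0, ⟨0, 0⟩, 0⟩ 0 0) (.pos 27 .mp ⟨196216498, 0, 0, 0, 0, 311180695, 0, 0, 0, ⟨0, 0⟩, 0⟩ 0 0))) (.cut .s 13598720 (.pos 27 .mp ⟨188572367, 0, 0, 0, 0, 302906300, 0, 0, 0, ⟨0, 0⟩, 0⟩ 0 0) (.pos 27 .mp ⟨192232725, 0, 0, 0, 0, 310954811, 0, 0, 0, ⟨0, 0⟩, 0⟩ 0 0)))) (.cut .d (-16384) (.cut .l 913425 (.cut .l 661767 (.cut .v 16908288 (.cut .v 16842752 (.pos 86 .mp ⟨0, 0, 0, 0, 0, 593864546, 0, 0, 0, ⟨0, 0⟩, 0⟩ 0 0) (.cut .s 13565952 (.cut .l 535938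 (.cut .d (-24576) (.cut .s 13533184 (.pos 87 .mp ⟨195528451, 0, 0, 0, 0, 262100247, 0, 0, 0, ⟨0, 0⟩, 0⟩ 0 0) (.pos 87 .mp ⟨192610932, 0, 0, 0, 0, 288059770, 0, 0, 0, ⟨0, 0⟩, 0⟩ 0 0)) (.cut .d (-20480) (.cut .l 473023 (.cut .l 441566 (.cut .d (-22528) (.pos 87 .mp ⟨190452515, 0, 0, 0, 0, 290590133, 0, 0, 0, ⟨0, 0⟩, 0⟩ 0 0) (.cut .v 16875520 (.cut .d (-21504) (.pos 88 .mp ⟨189225238, 0, 0, 0, 0, 273316015, 0, 0, 0, ⟨0, 0⟩, 0⟩ 0 0) (.pos 88 .mp ⟨189464964, 0, 0, 0, 0, 256805919, 0, 0, 0, ⟨0, 0⟩, 0⟩ 0 0)) (.pos 89 .mp ⟨338079353, 0, 0, 0, 0, 0, 0, 0, 0, ⟨0, 0⟩, 0⟩ 0 0))) (.pos 87 .mp ⟨198239518, 0, 0, 0, 0, 240383350, 0, 0, 0, ⟨0, 0⟩, 0⟩ 0 0)) (.pos 87 .mp ⟨197494213,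 0, 0, 0, 0, 0, 0, 0, 0, ⟨0, 0⟩, 0⟩ 0 0)) (.pos 87 .mp ⟨196960364, 0, 0, 0, 0, 0, 0, 0, 0, ⟨0, 0⟩, 0⟩ 0 0))) (.pos 87 .mp ⟨185469583, 0, 0, 0, 0, 269335305, 0, 0, 0, ⟨0, 0⟩, 0⟩ 0 0)) (.cut .l 535938 (.cut .d (-24576) (.pos 87 .mp ⟨196005703, 0, 0, 0, 0, 302266945, 0, 0, 0, ⟨0, 0⟩, 0⟩ 0 0) (.cut .d (-20480) (.cut .s 13598720 (.pos 87 .mp ⟨196960364, 0, 0, 0, 0, 281053885, 0, 0, 0, ⟨0, 0⟩, 0⟩ 0 0) (.pos 87 .mp ⟨200399018, 0, 0, 0, 0, 288731089, 0, 0, 0, ⟨0, 0⟩, 0⟩ 0 0)) (.pos 87 .mp ⟨203884565, 0, 0, 0, 0, 0, 0, 0, 0, ⟨0, 0⟩, 0⟩ 0 0))) (.pos 87 .mp ⟨191964923, 0, 0, 0, 0, 284836985, 0, 0, 0, ⟨0, 0⟩, 0⟩ 0 0)))) (.pos 51 .mp ⟨350383805, 0, 0, 0, 0, 0, 0, 0, 0, ⟨0, 0⟩,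 0⟩ 0 0)) (.pos 27 .mp ⟨205769958, 0, 0, 0, 0, 0, 0, 0, 0, ⟨0, 0⟩, 0⟩ 0 0)) (.pos 27 .mp ⟨0, 0, 0, 0, 0, 0, 0, 0, 0, ⟨0, 0⟩, 0⟩ 0 0)) (.pos 27 .mp ⟨198187332, 0, 0, 0, 0, 0, 0, 0, 0, ⟨0, 0⟩, 0⟩ 0 0))) (.pos 28 .mp ⟨354853029, 0, 0, 0, 0, 0, 0, 0, 0, ⟨0, 0⟩, 0⟩ 0 0)) (.pos 25 .mp ⟨208396636, 0, 0, 0, 0, 0, 0, 0, 0, ⟨0, 0⟩, 0⟩ 0 0))) (.pos 26 .mp ⟨368079534, 0, 0, 0, 0, 0, 0, 0, 0, ⟨0, 0⟩, 0⟩ 0 0)) (.cut .v 17301504 (.cut .d (-65536) (.cut .l 1416742 (.cut .s 13697024 (.pos 25 .mp ⟨211111208, 0, 0, 0, 0, 342585671, 0, 0, 0, ⟨0, 0⟩, 0⟩ 0 0) (.pos 25 .mp ⟨218998544, 0, 0, 0, 0, 362738838, 0, 0, 0, ⟨0, 0⟩, 0⟩ 0 0)) (.cut .v 17039360 (.pos 27 .mp ⟨0, 0, 0, 0, 0, 688863321,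 0, 0, 0, ⟨0, 0⟩, 0⟩ 0 0) (.cut .s 13697024 (.cut .d (-98304) (.cut .s 13664256 (.pos 28 .mp ⟨210594752, 0, 0, 0, 0, 324248074, 0, 0, 0, ⟨0, 0⟩, 0⟩ 0 0) (.pos 28 .mp ⟨214655377, 0, 0, 0, 0, 333529324, 0, 0, 0, ⟨0, 0⟩, 0⟩ 0 0)) (.pos 28 .mp ⟨245031629, 0, 0, 0, 0, 240756922, 0, 0, 0, ⟨0, 0⟩, 0⟩ 0 0)) (.cut .d (-98304) (.pos 28 .mp ⟨218778153, 0, 0, 0, 0, 353347667, 0, 0, 0, ⟨0, 0⟩, 0⟩ 0 0) (.pos 28 .mp ⟨254707076, 0, 0, 0, 0, 255523645, 0, 0, 0, ⟨0, 0⟩, 0⟩ 0 0))))) (.cut .l 1416742 (.cut .v 17039360 (.cut .d (-32768) (.cut .s 13697024 (.cut .l 913425 (.cut .s 13664256 (.pos 27 .mp ⟨205353008, 0, 0, 0, 0, 311485218, 0, 0, 0, ⟨0, 0⟩, 0⟩ 0 0) (.pos 27 .mp ⟨209646319,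 0, 0, 0, 0, 319360188, 0, 0, 0, ⟨0, 0⟩, 0⟩ 0 0)) (.pos 27 .mp ⟨191049720, 0, 0, 0, 0, 334174854, 0, 0, 0, ⟨0, 0⟩, 0⟩ 0 0)) (.cut .l 913425 (.pos 27 .mp ⟨206616652, 0, 0, 0, 0, 357481569, 0, 0, 0, ⟨0, 0⟩, 0⟩ 0 0) (.pos 27 .mp ⟨199863097, 0, 0, 0, 0, 349228782, 0, 0, 0, ⟨0, 0⟩, 0⟩ 0 0))) (.cut .d (-16384) (.cut .l 913425 (.cut .l 661767 (.cut .v 16908288 (.cut .s 13697024 (.cut .s 13664256 (.cut .s 13647872 (.pos 50 .mp ⟨200116588, 0, 0, 0, 0, 297384394, 0, 0, 0, ⟨0, 0⟩, 0⟩ 0 0) (.pos 50 .mp ⟨201827765, 0, 0, 0, 0, 301699507, 0, 0, 0, ⟨0, 0⟩, 0⟩ 0 0)) (.pos 50 .mp ⟨203550532, 0, 0, 0, 0, 310993962, 0, 0, 0, ⟨0, 0⟩, 0⟩ 0 0)) (.pos 50 .mp ⟨205823311, 0, 0, 0, 0, 331722779,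 0, 0, 0, ⟨0, 0⟩, 0⟩ 0 0)) (.pos 51 .mp ⟨381947387, 0, 0, 0, 0, 0, 0, 0, 0, ⟨0, 0⟩, 0⟩ 0 0)) (.pos 27 .mp ⟨220644926, 0, 0, 0, 0, 21903330, 0, 0, 0, ⟨0, 0⟩, 0⟩ 0 0)) (.pos 27 .mp ⟨0, 0, 0, 0, 0, 0, 0, 0, 0, ⟨0, 0⟩, 0⟩ 0 0)) (.pos 27 .mp ⟨210875897, 0, 0, 0, 0, 0, 0, 0, 0, ⟨0, 0⟩, 0⟩ 0 0))) (.pos 28 .mp ⟨387443838, 0, 0, 0, 0, 0, 0, 0, 0, ⟨0, 0⟩, 0⟩ 0 0)) (.pos 25 .mp ⟨222718021, 0, 0, 0, 0, 0, 0, 0, 0, ⟨0, 0⟩, 0⟩ 0 0))) (.pos 26 .mp ⟨402119257, 0, 0, 0, 0, 0, 0, 0, 0, ⟨0, 0⟩, 0⟩ 0 0)))) (.cut .s 13500416 (.pos 24 .mp ⟨344236537, 0, 0, 0, 0, 0, 0, 0, 0, ⟨0, 0⟩, 0⟩ 0 0) (.pos 24 .mp ⟨407113151, 0, 0, 0, 0, 0, 0, 0, 0, ⟨0, 0⟩, 0⟩ 0 0))))))) (.pos 22 .mp ⟨781272672,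 0, 0, 0, 0, 0, 0, 0, 0, ⟨0, 0⟩, 0⟩ 0 0))) (.void 20 ⟨100000, 0, 0, 0, 0, 0, 0, 0, 0, ⟨0, 0⟩, 0⟩ 0 0))) (.void 18 ⟨100000, 0, 0, 0, 0, 0, 0, 0, 0, ⟨0, 0⟩, 0⟩ 0 0))) (.void 45 ⟨100000, 0, 0, 0, 0, 0, 0, 0, 0, ⟨0, 0⟩, 0⟩ 0 0)) (.void 60 ⟨100000, 0, 0, 0, 0, 0, 0, 0, 0, ⟨0, 0⟩, 0⟩ 0 0)) (.void 83 ⟨92419, 0, 0, 7581, 0, 0, 0, 0, 0, ⟨0, 0⟩, 0⟩ 0 0))) (.cut .v 16777216 (.cut .v 8388608 (.cut .v 4194304 (.cut .v 2097152 (.cut .v 1048576 (.pos 98 .pm ⟨0, 0, 19184192, 0, 0, 0, 0, 0, 19133711, ⟨0, 0⟩, 1983364⟩ 0 0) (.pos 99 .pm ⟨0, 181430, 0, 0, 0, 0, 0, 0, 0, ⟨0, 0⟩, 0⟩ 0 0)) (.cut .d 2242500 (.pos 66 .pm ⟨0, 0, 74713125, 0, 0, 0, 0, 0, 0, ⟨0, 0⟩, 0⟩ 0 0) (.pos 66 .pm ⟨0,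 38318861, 0, 0, 0, 0, 0, 0, 0, ⟨0, 0⟩, 0⟩ 0 0))) (.cut .d 2242500 (.pos 5 .pm ⟨0, 0, 85783719, 0, 0, 0, 0, 0, 0, ⟨0, 0⟩, 0⟩ 0 0) (.pos 5 .pm ⟨0, 54102635, 0, 0, 0, 0, 0, 0, 0, ⟨0, 0⟩, 0⟩ 0 0))) (.pos 3 .pm ⟨0, 0, 0, 0, 0, 0, 0, 0, 0, ⟨0, 0⟩, 0⟩ 0 0)) (.cut .v 268435456 (.cut .v 67108864 (.cut .d 2242500 (.cut .d 1121250 (.cut .v 33554432 (.cut .d 560625 (.cut .v 25165824 (.cut .d 280312 (.cut .v 20971520 (.cut .v 18874368 (.pos 21 .pp ⟨236832801, 0, 0, 0, 0, 0, 0, 0, 0, ⟨0, 0⟩, 0⟩ 0 0) (.pos 22 .pp ⟨355259857, 0, 0, 0, 0, 0, 0, 0, 0, ⟨0, 0⟩, 0⟩ 0 0)) (.pos 20 .pp ⟨508440173, 0, 0, 0, 0, 0, 0, 0, 0, ⟨0, 0⟩, 0⟩ 0 0)) (.pos 17 .pp ⟨206527988, 0, 0, 0, 0, 0, 0, 0,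 0, ⟨0, 0⟩, 0⟩ 0 0)) (.cut .d 280312 (.pos 18 .pp ⟨1194106820, 0, 0, 0, 0, 0, 0, 0, 0, ⟨0, 0⟩, 0⟩ 0 0) (.pos 18 .pp ⟨680217388, 0, 0, 0, 0, 0, 0, 0, 0, ⟨0, 0⟩, 0⟩ 0 0))) (.pos 16 .pp ⟨215788910, 0, 0, 0, 0, 0, 0, 0, 0, ⟨0, 0⟩, 0⟩ 0 0)) (.cut .d 560625 (.pos 45 .pp ⟨3604952892, 0, 0, 0, 0, 0, 0, 0, 0, ⟨0, 0⟩, 0⟩ 0 0) (.cut .v 50331648 (.cut .v 41943040 (.pos 48 .pp ⟨888658065, 0, 0, 0, 0, 0, 0, 0, 0, ⟨0, 0⟩, 0⟩ 0 0) (.pos 49 .pp ⟨1552699869, 0, 0, 0, 0, 0, 0, 0, 0, ⟨0, 0⟩, 0⟩ 0 0)) (.cut .v 58720256 (.pos 100 .pp ⟨2398823373, 0, 0, 0, 0, 0, 0, 0, 0, ⟨0, 0⟩, 0⟩ 0 0) (.void 101 ⟨36726, 63274, 0, 0, 0, 0, 0, 0, 0, ⟨0, 0⟩, 0⟩ 0 0))))) (.cut .v 33554432 (.pos 16 .pp ⟨0,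 0, 0, 0, 0, 0, 0, 0, 0, ⟨0, 0⟩, 0⟩ 0 0) (.cut .v 50331648 (.pos 46 .pp ⟨534289394, 0, 0, 0, 0, 0, 0, 0, 0, ⟨0, 0⟩, 0⟩ 0 0) (.pos 47 .pp ⟨1487949215, 309752930, 0, 0, 0, 0, 0, 0, 0, ⟨0, 0⟩, 0⟩ 0 0)))) (.pos 44 .pp ⟨0, 27114172, 0, 0, 0, 0, 0, 0, 0, ⟨0, 0⟩, 0⟩ 0 0)) (.void 60 ⟨34966, 65034, 0, 0, 0, 0, 0, 0, 0, ⟨0, 0⟩, 0⟩ 0 0)) (.void 83 ⟨0, 0, 0, 100000, 0, 0, 0, 0, 0, ⟨0, 0⟩, 0⟩ 0 0)))),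
    by decide +kernel⟩

def covers21 : cell.Covers table row21.1 :=
  ⟨(.cut .d 0 (.cut .v 16777216 (.cut .v 8388608 (.void 2 ⟨0, 0, 100000, 0, 0, 0, 0, 0, 0, ⟨0, 0⟩, 0⟩ 0 0) (.cut .d (-8388608) (.void 3 ⟨100000, 0, 0, 0, 0, 0, 0, 0, 0, ⟨0, 0⟩, 0⟩ 0 0) (.cut .d (-4194304) (.void 3 ⟨100000, 0, 0, 0, 0, 0, 0, 0, 0, ⟨0, 0⟩, 0⟩ 0 0) (.cut .d (-2097152) (.void 3 ⟨0, 0, 0, 0, 0, 100000, 0, 0, 0, ⟨0, 0⟩, 0⟩ 0 0) (.cut .d (-1048576) (.void 3 ⟨0, 0, 0, 0, 0, 100000, 0, 0, 0, ⟨0, 0⟩, 0⟩ 0 0) (.cut .d (-524288) (.void 3 ⟨0, 0, 0, 0, 0, 100000, 0, 0, 0, ⟨0, 0⟩, 0⟩ 0 0) (.cut .d (-262144) (.void 3 ⟨0, 0, 0, 0, 0, 100000, 0, 0, 0, ⟨0, 0⟩, 0⟩ 0 0) (.cut .d (-131072) (.void 3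 ⟨0, 0, 0, 0, 0, 100000, 0, 0, 0, ⟨0, 0⟩, 0⟩ 0 0) (.cut .s 13959168 (.pos 3 .mm ⟨0, 0, 0, 0, 0, 773330629, 0, 0, 0, ⟨0, 0⟩, 0⟩ 0 0) (.cut .s 14057472 (.pos 3 .mm ⟨0, 0, 0, 0, 0, 838815136, 0, 0, 0, ⟨0, 0⟩, 0⟩ 0 0) (.pos 3 .mm ⟨0, 0, 0, 0, 0, 901779604, 0, 0, 0, ⟨0, 0⟩, 0⟩ 0 0))))))))))) (.cut .v 268435456 (.cut .v 67108864 (.cut .v 33554432 (.cut .d (-8388608) (.void 16 ⟨100000, 0, 0, 0, 0, 0, 0, 0, 0, ⟨0, 0⟩, 0⟩ 0 0) (.cut .v 25165824 (.cut .d (-4194304) (.void 17 ⟨100000, 0, 0, 0, 0, 0, 0, 0, 0, ⟨0, 0⟩, 0⟩ 0 0) (.cut .v 20971520 (.cut .d (-2097152) (.void 19 ⟨100000, 0, 0, 0, 0, 0, 0, 0, 0, ⟨0, 0⟩, 0⟩ 0 0) (.cut .d (-1048576) (.void 19 ⟨100000, 0, 0, 0, 0, 0,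 0, 0, 0, ⟨0, 0⟩, 0⟩ 0 0) (.cut .d (-524288) (.void 19 ⟨100000, 0, 0, 0, 0, 0, 0, 0, 0, ⟨0, 0⟩, 0⟩ 0 0) (.cut .d (-262144) (.void 19 ⟨100000, 0, 0, 0, 0, 0, 0, 0, 0, ⟨0, 0⟩, 0⟩ 0 0) (.cut .d (-131072) (.void 19 ⟨0, 0, 0, 0, 0, 100000, 0, 0, 0, ⟨0, 0⟩, 0⟩ 0 0) (.cut .v 18874368 (.cut .v 17825792 (.cut .s 13959168 (.cut .v 17301504 (.cut .d (-65536) (.cut .l 1416742 (.pos 25 .mp ⟨239064593, 0, 0, 0, 0, 437717379, 0, 0, 0, ⟨0, 0⟩, 0⟩ 0 0) (.cut .v 17039360 (.pos 27 .mp ⟨0, 0, 0, 0, 0, 805887829, 0, 0, 0, ⟨0, 0⟩, 0⟩ 0 0) (.cut .d (-98304) (.cut .s 13860864 (.pos 28 .mp ⟨227177944, 0, 0, 0, 0, 399083019, 0, 0, 0, ⟨0, 0⟩, 0⟩ 0 0) (.cut .d (-114688) (.pos 28 .mp ⟨252535136,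 0, 0, 0, 0, 480855062, 0, 0, 0, ⟨0, 0⟩, 0⟩ 0 0) (.cut .s 13910016 (.pos 28 .mp ⟨241428348, 0, 0, 0, 0, 397363190, 0, 0, 0, ⟨0, 0⟩, 0⟩ 0 0) (.cut .s 13934592 (.pos 28 .mp ⟨253638523, 0, 0, 0, 0, 387491883, 0, 0, 0, ⟨0, 0⟩, 0⟩ 0 0) (.cut .v 17170432 (.pos 56 .mp ⟨0, 0, 0, 0, 0, 897880475, 0, 0, 0, ⟨0, 0⟩, 0⟩ 0 0) (.pos 57 .mp ⟨272695237, 0, 0, 0, 0, 364938089, 0, 0, 0, ⟨0, 0⟩, 0⟩ 0 0)))))) (.cut .s 13860864 (.cut .s 13811712 (.pos 28 .mp ⟨262481114, 0, 0, 0, 0, 281262264, 0, 0, 0, ⟨0, 0⟩, 0⟩ 0 0) (.pos 28 .mp ⟨270477754, 0, 0, 0, 0, 289558195, 0, 0, 0, ⟨0, 0⟩, 0⟩ 0 0)) (.cut .v 17170432 (.cut .s 13910016 (.cut .s 13885440 (.pos 56 .mp ⟨270294485, 0, 0, 0, 0, 308746099,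 0, 0, 0, ⟨0, 0⟩, 0⟩ 0 0) (.pos 56 .mp ⟨218709634, 0, 0, 0, 0, 425902514, 0, 0, 0, ⟨0, 0⟩, 0⟩ 0 0)) (.cut .s 13934592 (.pos 56 .mp ⟨221764065, 0, 0, 0, 0, 433747440, 0, 0, 0, ⟨0, 0⟩, 0⟩ 0 0) (.pos 56 .mp ⟨224837051, 0, 0, 0, 0, 441968043, 0, 0, 0, ⟨0, 0⟩, 0⟩ 0 0))) (.pos 57 .mp ⟨446242541, 0, 0, 0, 0, 0, 0, 0, 0, ⟨0, 0⟩, 0⟩ 0 0)))))) (.cut .l 1416742 (.cut .s 13860864 (.cut .v 17039360 (.cut .d (-32768) (.cut .s 13811712 (.pos 27 .mp ⟨214893409, 0, 0, 0, 0, 365294388, 0, 0, 0, ⟨0, 0⟩, 0⟩ 0 0) (.cut .l 913425 (.pos 27 .mp ⟨219588317, 0, 0, 0, 0, 395381267, 0, 0, 0, ⟨0, 0⟩, 0⟩ 0 0) (.pos 27 .mp ⟨207119317, 0, 0, 0, 0, 399826206, 0, 0, 0, ⟨0, 0⟩, 0⟩ 0 0))) (.cut .d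 (-16384) (.cut .l 913425 (.cut .v 16908288 (.cut .s 13811712 (.pos 50 .mp ⟨214603687, 0, 0, 0, 0, 350912107, 0, 0, 0, ⟨0, 0⟩, 0⟩ 0 0) (.pos 50 .mp ⟨214273710, 0, 0, 0, 0, 376019808, 0, 0, 0, ⟨0, 0⟩, 0⟩ 0 0)) (.pos 51 .mp ⟨390971917, 0, 0, 0, 0, 38494336, 0, 0, 0, ⟨0, 0⟩, 0⟩ 0 0)) (.pos 27 .mp ⟨0, 0, 0, 0, 0, 0, 0, 0, 0, ⟨0, 0⟩, 0⟩ 0 0)) (.pos 27 .mp ⟨228911245, 0, 0, 0, 0, 0, 0, 0, 0, ⟨0, 0⟩, 0⟩ 0 0))) (.pos 28 .mp ⟨402139458, 0, 0, 0, 0, 35333544, 0, 0, 0, ⟨0, 0⟩, 0⟩ 0 0)) (.cut .v 17039360 (.cut .d (-32768) (.cut .v 16908288 (.pos 50 .mp ⟨0, 0, 0, 0, 0, 849382173, 0, 0, 0, ⟨0, 0⟩, 0⟩ 0 0) (.cut .s 13910016 (.cut .s 13885440 (.pos 51 .mp ⟨233710346, 0, 0, 0, 0,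 372341015, 0, 0, 0, ⟨0, 0⟩, 0⟩ 0 0) (.pos 51 .mp ⟨234297132, 0, 0, 0, 0, 384562147, 0, 0, 0, ⟨0, 0⟩, 0⟩ 0 0)) (.cut .s 13934592 (.pos 51 .mp ⟨235284185, 0, 0, 0, 0, 396387201, 0, 0, 0, ⟨0, 0⟩, 0⟩ 0 0) (.pos 51 .mp ⟨236696113, 0, 0, 0, 0, 407770412, 0, 0, 0, ⟨0, 0⟩, 0⟩ 0 0)))) (.cut .d (-16384) (.cut .l 913425 (.cut .l 661767 (.cut .v 16908288 (.cut .v 16842752 (.pos 86 .mp ⟨0, 0, 0, 0, 0, 776192624, 0, 0, 0, ⟨0, 0⟩, 0⟩ 0 0) (.cut .s 13910016 (.cut .s 13885440 (.pos 87 .mp ⟨227692896, 0, 0, 0, 0, 366522361, 0, 0, 0, ⟨0, 0⟩, 0⟩ 0 0) (.pos 87 .mp ⟨230059370, 0, 0, 0, 0, 375511872, 0, 0, 0, ⟨0, 0⟩, 0⟩ 0 0)) (.cut .d (-24576) (.pos 87 .mp ⟨231128558, 0, 0, 0, 0, 412580865,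 0, 0, 0, ⟨0, 0⟩, 0⟩ 0 0) (.cut .s 13934592 (.pos 87 .mp ⟨232814658, 0, 0, 0, 0, 382594964, 0, 0, 0, ⟨0, 0⟩, 0⟩ 0 0) (.cut .s 13946880 (.pos 87 .mp ⟨235713511, 0, 0, 0, 0, 384465521, 0, 0, 0, ⟨0, 0⟩, 0⟩ 0 0) (.cut .s 13953024 (.pos 87 .mp ⟨237171080, 0, 0, 0, 0, 385485217, 0, 0, 0, ⟨0, 0⟩, 0⟩ 0 0) (.pos 87 .mp ⟨237901935, 0, 0, 0, 0, 387614942, 0, 0, 0, ⟨0, 0⟩, 0⟩ 0 0))))))) (.pos 51 .mp ⟨402017799, 0, 0, 0, 0, 79381737, 0, 0, 0, ⟨0, 0⟩, 0⟩ 0 0)) (.pos 27 .mp ⟨244949984, 0, 0, 0, 0, 323218480, 0, 0, 0, ⟨0, 0⟩, 0⟩ 0 0)) (.pos 27 .mp ⟨0, 0, 0, 0, 0, 0, 0, 0, 0, ⟨0, 0⟩, 0⟩ 0 0)) (.pos 27 .mp ⟨240565995, 0, 0, 0, 0, 0, 0, 0, 0, ⟨0, 0⟩, 0⟩ 0 0))) (.pos 28 .mp ⟨423073746,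 0, 0, 0, 0, 45491510, 0, 0, 0, ⟨0, 0⟩, 0⟩ 0 0))) (.pos 25 .mp ⟨254164204, 0, 0, 0, 0, 258929568, 0, 0, 0, ⟨0, 0⟩, 0⟩ 0 0))) (.cut .s 13860864 (.pos 26 .mp ⟨443593509, 0, 0, 0, 0, 0, 0, 0, 0, ⟨0, 0⟩, 0⟩ 0 0) (.pos 26 .mp ⟨472095132, 0, 0, 0, 0, 0, 0, 0, 0, ⟨0, 0⟩, 0⟩ 0 0))) (.cut .v 17301504 (.cut .d (-65536) (.cut .l 1416742 (.void 25 ⟨0, 0, 0, 0, 0, 100000, 0, 0, 0, ⟨0, 0⟩, 0⟩ 0 0) (.cut .s 14057472 (.cut .v 17039360 (.pos 27 .mp ⟨0, 0, 0, 0, 0, 896378477, 0, 0, 0, ⟨0, 0⟩, 0⟩ 0 0) (.cut .d (-98304) (.cut .d (-114688) (.void 28 ⟨0, 0, 0, 0, 0, 100000, 0, 0, 0, ⟨0, 0⟩, 0⟩ 0 0) (.cut .l 1920059 (.void 28 ⟨0, 0, 0, 0, 0, 100000, 0, 0, 0, ⟨0, 0⟩, 0⟩ 0 0) (.cut .v 17170432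 (.pos 56 .mp ⟨0, 0, 0, 0, 0, 919913988, 0, 0, 0, ⟨0, 0⟩, 0⟩ 0 0) (.cut .l 2171717 (.pos 57 .mp ⟨297900228, 0, 0, 0, 0, 378264064, 0, 0, 0, ⟨0, 0⟩, 0⟩ 0 0) (.cut .v 17235968 (.cut .s 14008320 (.cut .s 13983744 (.pos 92 .mp ⟨258272348, 0, 0, 0, 0, 407925125, 0, 0, 0, ⟨0, 0⟩, 0⟩ 0 0) (.pos 92 .mp ⟨262093559, 0, 0, 0, 0, 415339791, 0, 0, 0, ⟨0, 0⟩, 0⟩ 0 0)) (.pos 92 .mp ⟨265954325, 0, 0, 0, 0, 429449747, 0, 0, 0, ⟨0, 0⟩, 0⟩ 0 0)) (.pos 93 .mp ⟨508604897, 0, 0, 0, 0, 0, 0, 0, 0, ⟨0, 0⟩, 0⟩ 0 0)))))) (.cut .s 14008320 (.cut .v 17170432 (.cut .s 13983744 (.pos 56 .mp ⟨227929158, 0, 0, 0, 0, 450568935, 0, 0, 0, ⟨0, 0⟩, 0⟩ 0 0) (.pos 56 .mp ⟨231040975, 0, 0, 0, 0, 459554781,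 0, 0, 0, ⟨0, 0⟩, 0⟩ 0 0)) (.pos 57 .mp ⟨302678680, 0, 0, 0, 0, 317980210, 0, 0, 0, ⟨0, 0⟩, 0⟩ 0 0)) (.cut .v 17170432 (.cut .s 14032896 (.pos 56 .mp ⟨234173112, 0, 0, 0, 0, 468930297, 0, 0, 0, ⟨0, 0⟩, 0⟩ 0 0) (.pos 56 .mp ⟨237326197, 0, 0, 0, 0, 478700254, 0, 0, 0, ⟨0, 0⟩, 0⟩ 0 0)) (.pos 57 .mp ⟨309058292, 0, 0, 0, 0, 335776783, 0, 0, 0, ⟨0, 0⟩, 0⟩ 0 0))))) (.cut .v 17039360 (.pos 27 .mp ⟨0, 0, 0, 0, 0, 961940740, 0, 0, 0, ⟨0, 0⟩, 0⟩ 0 0) (.cut .d (-98304) (.cut .s 14106624 (.pos 28 .mp ⟨271632380, 0, 0, 0, 0, 465922548, 0, 0, 0, ⟨0, 0⟩, 0⟩ 0 0) (.pos 28 .mp ⟨279587221, 0, 0, 0, 0, 485226089, 0, 0, 0, ⟨0, 0⟩, 0⟩ 0 0)) (.cut .s 14106624 (.cut .l 1920059 (.pos 28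 .mp ⟨313598796, 0, 0, 0, 0, 357050866, 0, 0, 0, ⟨0, 0⟩, 0⟩ 0 0) (.pos 28 .mp ⟨291836583, 0, 0, 0, 0, 384779717, 0, 0, 0, ⟨0, 0⟩, 0⟩ 0 0)) (.cut .s 14131200 (.pos 28 .mp ⟨309533652, 0, 0, 0, 0, 385737233, 0, 0, 0, ⟨0, 0⟩, 0⟩ 0 0) (.pos 28 .mp ⟨315484473, 0, 0, 0, 0, 391394689, 0, 0, 0, ⟨0, 0⟩, 0⟩ 0 0))))))) (.cut .l 1416742 (.cut .s 14057472 (.cut .v 17039360 (.cut .d (-32768) (.cut .v 16908288 (.pos 50 .mp ⟨0, 0, 0, 0, 0, 906818953, 0, 0, 0, ⟨0, 0⟩, 0⟩ 0 0) (.cut .s 14008320 (.cut .l 913425 (.pos 51 .mp ⟨245749800, 0, 0, 0, 0, 420940185, 0, 0, 0, ⟨0, 0⟩, 0⟩ 0 0) (.cut .d (-49152) (.pos 51 .mp ⟨238126047, 0, 0, 0, 0, 431532261, 0, 0, 0, ⟨0, 0⟩, 0⟩ 0 0) (.pos 51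 .mp ⟨260169278, 0, 0, 0, 0, 366866908, 0, 0, 0, ⟨0, 0⟩, 0⟩ 0 0))) (.cut .s 14032896 (.pos 51 .mp ⟨243738423, 0, 0, 0, 0, 438788501, 0, 0, 0, ⟨0, 0⟩, 0⟩ 0 0) (.pos 51 .mp ⟨247111094, 0, 0, 0, 0, 447915775, 0, 0, 0, ⟨0, 0⟩, 0⟩ 0 0)))) (.cut .d (-16384) (.cut .l 913425 (.cut .l 661767 (.cut .v 16908288 (.cut .v 16842752 (.pos 86 .mp ⟨0, 0, 0, 0, 0, 832064535, 0, 0, 0, ⟨0, 0⟩, 0⟩ 0 0) (.cut .s 14008320 (.cut .d (-24576) (.pos 87 .mp ⟨237017164, 0, 0, 0, 0, 428659031, 0, 0, 0, ⟨0, 0⟩, 0⟩ 0 0) (.cut .l 535938 (.cut .d (-20480) (.pos 87 .mp ⟨237822556, 0, 0, 0, 0, 424841946, 0, 0, 0, ⟨0, 0⟩, 0⟩ 0 0) (.cut .v 16875520 (.cut .s 13983744 (.cut .s 13971456 (.pos 88 .mp ⟨237670103,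 0, 0, 0, 0, 390249013, 0, 0, 0, ⟨0, 0⟩, 0⟩ 0 0) (.pos 88 .mp ⟨239132390, 0, 0, 0, 0, 394450094, 0, 0, 0, ⟨0, 0⟩, 0⟩ 0 0)) (.pos 88 .mp ⟨240600338, 0, 0, 0, 0, 403212650, 0, 0, 0, ⟨0, 0⟩, 0⟩ 0 0)) (.pos 89 .mp ⟨342442863, 0, 0, 0, 0, 211149165, 0, 0, 0, ⟨0, 0⟩, 0⟩ 0 0))) (.pos 87 .mp ⟨246913635, 0, 0, 0, 0, 369319923, 0, 0, 0, ⟨0, 0⟩, 0⟩ 0 0))) (.cut .s 14032896 (.cut .s 14020608 (.pos 87 .mp ⟨244543594, 0, 0, 0, 0, 412217108, 0, 0, 0, ⟨0, 0⟩, 0⟩ 0 0) (.pos 87 .mp ⟨246035621, 0, 0, 0, 0, 416788082, 0, 0, 0, ⟨0, 0⟩, 0⟩ 0 0)) (.pos 87 .mp ⟨247533692, 0, 0, 0, 0, 428045586, 0, 0, 0, ⟨0, 0⟩, 0⟩ 0 0)))) (.pos 51 .mp ⟨439716009, 0, 0, 0, 0, 63545009, 0, 0, 0, ⟨0, 0⟩,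 0⟩ 0 0)) (.cut .s 14008320 (.pos 27 .mp ⟨251294061, 0, 0, 0, 0, 359532001, 0, 0, 0, ⟨0, 0⟩, 0⟩ 0 0) (.pos 27 .mp ⟨257754781, 0, 0, 0, 0, 375161809, 0, 0, 0, ⟨0, 0⟩, 0⟩ 0 0))) (.pos 27 .mp ⟨0, 0, 0, 0, 0, 0, 0, 0, 0, ⟨0, 0⟩, 0⟩ 0 0)) (.pos 27 .mp ⟨252585468, 0, 0, 0, 0, 0, 0, 0, 0, ⟨0, 0⟩, 0⟩ 0 0))) (.pos 28 .mp ⟨457001081, 0, 0, 0, 0, 37705708, 0, 0, 0, ⟨0, 0⟩, 0⟩ 0 0)) (.cut .v 17039360 (.cut .d (-32768) (.cut .v 16908288 (.pos 50 .mp ⟨0, 0, 0, 0, 0, 972914248, 0, 0, 0, ⟨0, 0⟩, 0⟩ 0 0) (.cut .l 913425 (.pos 51 .mp ⟨253768299, 0, 0, 0, 0, 496143278, 0, 0, 0, ⟨0, 0⟩, 0⟩ 0 0) (.cut .d (-49152) (.pos 51 .mp ⟨250943733, 0, 0, 0, 0, 486939313, 0, 0, 0, ⟨0, 0⟩, 0⟩ 0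 0) (.pos 51 .mp ⟨281554520, 0, 0, 0, 0, 389994407, 0, 0, 0, ⟨0, 0⟩, 0⟩ 0 0)))) (.cut .d (-16384) (.cut .l 913425 (.cut .l 661767 (.cut .v 16908288 (.cut .s 14106624 (.cut .s 14082048 (.pos 50 .mp ⟨248516205, 0, 0, 0, 0, 440859721, 0, 0, 0, ⟨0, 0⟩, 0⟩ 0 0) (.pos 50 .mp ⟨251529054, 0, 0, 0, 0, 450513232, 0, 0, 0, ⟨0, 0⟩, 0⟩ 0 0)) (.pos 50 .mp ⟨248118277, 0, 0, 0, 0, 484546665, 0, 0, 0, ⟨0, 0⟩, 0⟩ 0 0)) (.pos 51 .mp ⟨493986842, 0, 0, 0, 0, 22844663, 0, 0, 0, ⟨0, 0⟩, 0⟩ 0 0)) (.pos 27 .mp ⟨270966613, 0, 0, 0, 0, 380528976, 0, 0, 0, ⟨0, 0⟩, 0⟩ 0 0)) (.pos 27 .mp ⟨0, 0, 0, 0, 0, 0, 0, 0, 0, ⟨0, 0⟩, 0⟩ 0 0)) (.pos 27 .mp ⟨265015421, 0, 0, 0, 0, 106743843, 0, 0, 0, ⟨0,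 0⟩, 0⟩ 0 0))) (.pos 28 .mp ⟨498241960, 0, 0, 0, 0, 22173278, 0, 0, 0, ⟨0, 0⟩, 0⟩ 0 0))) (.cut .v 17039360 (.pos 27 .mp ⟨0, 0, 0, 0, 0, 800965803, 0, 0, 0, ⟨0, 0⟩, 0⟩ 0 0) (.pos 28 .mp ⟨292527207, 0, 0, 0, 0, 311093003, 0, 0, 0, ⟨0, 0⟩, 0⟩ 0 0)))) (.cut .s 14057472 (.pos 26 .mp ⟨502812023, 0, 0, 0, 0, 0, 0, 0, 0, ⟨0, 0⟩, 0⟩ 0 0) (.pos 26 .mp ⟨535645302, 0, 0, 0, 0, 0, 0, 0, 0, ⟨0, 0⟩, 0⟩ 0 0)))) (.pos 24 .mp ⟨518215198, 0, 0, 0, 0, 0, 0, 0, 0, ⟨0, 0⟩, 0⟩ 0 0)) (.pos 22 .mp ⟨598584582, 0, 0, 0, 0, 0, 0, 0, 0, ⟨0, 0⟩, 0⟩ 0 0))))))) (.void 20 ⟨100000, 0, 0, 0, 0, 0, 0, 0, 0, ⟨0, 0⟩, 0⟩ 0 0))) (.void 18 ⟨100000, 0, 0, 0, 0, 0, 0, 0, 0, ⟨0, 0⟩, 0⟩ 0 0))) (.void 45 ⟨100000,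 0, 0, 0, 0, 0, 0, 0, 0, ⟨0, 0⟩, 0⟩ 0 0)) (.void 60 ⟨100000, 0, 0, 0, 0, 0, 0, 0, 0, ⟨0, 0⟩, 0⟩ 0 0)) (.void 83 ⟨92219, 0, 0, 7781, 0, 0, 0, 0, 0, ⟨0, 0⟩, 0⟩ 0 0))) (.cut .v 16777216 (.cut .v 8388608 (.cut .v 4194304 (.cut .v 2097152 (.cut .v 1048576 (.pos 98 .pm ⟨0, 0, 16224684, 0, 0, 0, 0, 0, 0, ⟨0, 0⟩, 0⟩ 0 0) (.pos 99 .pm ⟨0, 0, 6552729, 0, 0, 0, 0, 0, 0, ⟨0, 0⟩, 0⟩ 0 0)) (.pos 66 .pm ⟨0, 0, 3019586, 0, 0, 0, 0, 0, 0, ⟨0, 0⟩, 0⟩ 0 0)) (.pos 5 .pm ⟨0, 0, 2206906, 0, 0, 0, 0, 0, 0, ⟨0, 0⟩, 0⟩ 0 0)) (.pos 3 .pm ⟨0, 0, 0, 0, 0, 0, 0, 0, 0, ⟨0, 0⟩, 0⟩ 0 0)) (.cut .v 268435456 (.cut .v 67108864 (.cut .d 1837506 (.cut .v 33554432 (.cut .d 918753 (.cut .d 459376 (.cut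 .v 25165824 (.cut .v 20971520 (.cut .v 18874368 (.pos 21 .pp ⟨292684249, 0, 0, 0, 0, 0, 0, 0, 0, ⟨0, 0⟩, 0⟩ 0 0) (.pos 22 .pp ⟨456988666, 0, 0, 0, 0, 0, 0, 0, 0, ⟨0, 0⟩, 0⟩ 0 0)) (.pos 20 .pp ⟨604987494, 0, 0, 0, 0, 0, 0, 0, 0, ⟨0, 0⟩, 0⟩ 0 0)) (.cut .d 229688 (.pos 18 .pp ⟨1489124511, 0, 0, 0, 0, 0, 0, 0, 0, ⟨0, 0⟩, 0⟩ 0 0) (.pos 18 .pp ⟨884170579, 0, 0, 0, 0, 0, 0, 0, 0, ⟨0, 0⟩, 0⟩ 0 0))) (.pos 16 .pp ⟨299067135, 0, 0, 0, 0, 0, 0, 0, 0, ⟨0, 0⟩, 0⟩ 0 0)) (.pos 16 .pp ⟨0, 0, 0, 0, 0, 0, 0, 0, 0, ⟨0, 0⟩, 0⟩ 0 0)) (.cut .d 918753 (.cut .d 459376 (.pos 45 .pp ⟨4482721834, 0, 0, 0, 0, 0, 0, 0, 0, ⟨0, 0⟩, 0⟩ 0 0) (.cut .v 50331648 (.cut .v 41943040 (.pos 48 .pp ⟨1179733704,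 0, 0, 0, 0, 0, 0, 0, 0, ⟨0, 0⟩, 0⟩ 0 0) (.pos 49 .pp ⟨2002574426, 0, 0, 0, 0, 0, 0, 0, 0, ⟨0, 0⟩, 0⟩ 0 0)) (.cut .v 58720256 (.pos 100 .pp ⟨3029142664, 0, 0, 0, 0, 0, 0, 0, 0, ⟨0, 0⟩, 0⟩ 0 0) (.pos 101 .pp ⟨4384666168, 1995970300, 0, 0, 0, 0, 0, 0, 0, ⟨0, 0⟩, 0⟩ 0 0)))) (.cut .v 50331648 (.pos 46 .pp ⟨773491168, 0, 0, 0, 0, 0, 0, 0, 0, ⟨0, 0⟩, 0⟩ 0 0) (.pos 47 .pp ⟨2021478716, 557028809, 0, 0, 0, 0, 0, 0, 0, ⟨0, 0⟩, 0⟩ 0 0)))) (.pos 44 .pp ⟨0, 0, 0, 0, 0, 0, 0, 0, 0, ⟨0, 0⟩, 0⟩ 0 0)) (.void 60 ⟨34815, 65185, 0, 0, 0, 0, 0, 0, 0, ⟨0, 0⟩, 0⟩ 0 0)) (.void 83 ⟨0, 0, 0, 100000, 0, 0, 0, 0, 0, ⟨0, 0⟩, 0⟩ 0 0)))),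
    by decide +kernel⟩

def covers22 : cell.Covers table row22.1 :=
  ⟨(.cut .d 0 (.cut .v 16777216 (.cut .v 8388608 (.void 2 ⟨0, 0, 100000, 0, 0, 0, 0, 0, 0, ⟨0, 0⟩, 0⟩ 0 0) (.cut .d (-8388608) (.void 3 ⟨100000, 0, 0, 0, 0, 0, 0, 0, 0, ⟨0, 0⟩, 0⟩ 0 0) (.cut .d (-4194304) (.void 3 ⟨100000, 0, 0, 0, 0, 0, 0, 0, 0, ⟨0, 0⟩, 0⟩ 0 0) (.cut .d (-2097152) (.void 3 ⟨72492, 0, 27508, 0, 0, 0, 0, 0, 0, ⟨0, 0⟩, 0⟩ 0 0) (.cut .d (-1048576) (.void 3 ⟨0, 0, 0, 0, 0, 100000, 0, 0, 0, ⟨0, 0⟩, 0⟩ 0 0) (.cut .d (-524288) (.void 3 ⟨0, 0, 0, 0, 0, 100000, 0, 0, 0, ⟨0, 0⟩, 0⟩ 0 0) (.cut .d (-262144) (.void 3 ⟨0, 0, 0, 0, 0, 100000, 0, 0, 0, ⟨0, 0⟩, 0⟩ 0 0) (.cut .d (-131072) (.void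 3 ⟨0, 0, 0, 0, 0, 100000, 0, 0, 0, ⟨0, 0⟩, 0⟩ 0 0) (.cut .s 14319616 (.pos 3 .mm ⟨0, 0, 0, 0, 0, 1016153695, 0, 0, 0, ⟨0, 0⟩, 0⟩ 0 0) (.cut .s 14401536 (.pos 3 .mm ⟨0, 0, 0, 0, 0, 1087015847, 0, 0, 0, ⟨0, 0⟩, 0⟩ 0 0) (.pos 3 .mm ⟨0, 0, 0, 0, 0, 1155785395, 0, 0, 0, ⟨0, 0⟩, 0⟩ 0 0))))))))))) (.cut .v 268435456 (.cut .v 67108864 (.cut .v 33554432 (.cut .d (-8388608) (.void 16 ⟨100000, 0, 0, 0, 0, 0, 0, 0, 0, ⟨0, 0⟩, 0⟩ 0 0) (.cut .v 25165824 (.cut .d (-4194304) (.void 17 ⟨100000, 0, 0, 0, 0, 0, 0, 0, 0, ⟨0, 0⟩, 0⟩ 0 0) (.cut .v 20971520 (.cut .d (-2097152) (.void 19 ⟨100000, 0, 0, 0, 0, 0, 0, 0, 0, ⟨0, 0⟩, 0⟩ 0 0) (.cut .d (-1048576) (.void 19 ⟨100000, 0, 0, 0, 0,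 0, 0, 0, 0, ⟨0, 0⟩, 0⟩ 0 0) (.cut .v 18874368 (.cut .d (-524288) (.void 21 ⟨100000, 0, 0, 0, 0, 0, 0, 0, 0, ⟨0, 0⟩, 0⟩ 0 0) (.cut .d (-262144) (.void 21 ⟨100000, 0, 0, 0, 0, 0, 0, 0, 0, ⟨0, 0⟩, 0⟩ 0 0) (.cut .d (-131072) (.void 21 ⟨0, 0, 0, 0, 0, 100000, 0, 0, 0, ⟨0, 0⟩, 0⟩ 0 0) (.cut .v 17825792 (.cut .d (-65536) (.cut .l 1416742 (.void 23 ⟨0, 0, 0, 0, 0, 100000, 0, 0, 0, ⟨0, 0⟩, 0⟩ 0 0) (.cut .v 17301504 (.cut .d (-98304) (.cut .s 14319616 (.pos 25 .mp ⟨279497078, 0, 0, 0, 0, 691314881, 0, 0, 0, ⟨0, 0⟩, 0⟩ 0 0) (.void 25 ⟨0, 0, 0, 0, 0, 100000, 0, 0, 0, ⟨0, 0⟩, 0⟩ 0 0)) (.cut .s 14319616 (.cut .v 17039360 (.pos 27 .mp ⟨0, 0, 0, 0, 0, 1067266072, 0, 0, 0, ⟨0,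 0⟩, 0⟩ 0 0) (.cut .s 14237696 (.cut .s 14196736 (.pos 28 .mp ⟨330363976, 0, 0, 0, 0, 390293495, 0, 0, 0, ⟨0, 0⟩, 0⟩ 0 0) (.cut .d (-81920) (.pos 28 .mp ⟨279559333, 0, 0, 0, 0, 538836783, 0, 0, 0, ⟨0, 0⟩, 0⟩ 0 0) (.pos 28 .mp ⟨323148738, 0, 0, 0, 0, 423065745, 0, 0, 0, ⟨0, 0⟩, 0⟩ 0 0))) (.cut .l 1920059 (.cut .s 14278656 (.pos 28 .mp ⟨309811520, 0, 0, 0, 0, 506482847, 0, 0, 0, ⟨0, 0⟩, 0⟩ 0 0) (.cut .v 17170432 (.pos 56 .mp ⟨290241995, 0, 0, 0, 0, 569299501, 0, 0, 0, ⟨0, 0⟩, 0⟩ 0 0) (.pos 57 .mp ⟨625495943, 0, 0, 0, 0, 0, 0, 0, 0, ⟨0, 0⟩, 0⟩ 0 0))) (.cut .d (-81920) (.cut .l 2171717 (.pos 28 .mp ⟨295560942, 0, 0, 0, 0, 580743460, 0, 0, 0, ⟨0, 0⟩, 0⟩ 0 0) (.cut .v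 17170432 (.pos 56 .mp ⟨0, 0, 0, 0, 0, 1067391122, 0, 0, 0, ⟨0, 0⟩, 0⟩ 0 0) (.cut .s 14278656 (.pos 57 .mp ⟨319609769, 0, 0, 0, 0, 482264452, 0, 0, 0, ⟨0, 0⟩, 0⟩ 0 0) (.cut .s 14299136 (.pos 57 .mp ⟨319572157, 0, 0, 0, 0, 504673564, 0, 0, 0, ⟨0, 0⟩, 0⟩ 0 0) (.pos 57 .mp ⟨323596207, 0, 0, 0, 0, 512232970, 0, 0, 0, ⟨0, 0⟩, 0⟩ 0 0))))) (.cut .s 14278656 (.pos 28 .mp ⟨312170882, 0, 0, 0, 0, 465809777, 0, 0, 0, ⟨0, 0⟩, 0⟩ 0 0) (.pos 28 .mp ⟨319773985, 0, 0, 0, 0, 477798099, 0, 0, 0, ⟨0, 0⟩, 0⟩ 0 0)))))) (.cut .v 17039360 (.pos 27 .mp ⟨0, 0, 0, 0, 0, 1185515597, 0, 0, 0, ⟨0, 0⟩, 0⟩ 0 0) (.cut .s 14401536 (.cut .l 1920059 (.cut .s 14360576 (.pos 28 .mp ⟨301823467, 0, 0,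 0, 0, 592964381, 0, 0, 0, ⟨0, 0⟩, 0⟩ 0 0) (.pos 28 .mp ⟨308729723, 0, 0, 0, 0, 612509643, 0, 0, 0, ⟨0, 0⟩, 0⟩ 0 0)) (.cut .d (-81920) (.cut .v 17170432 (.pos 56 .mp ⟨102006206, 0, 0, 0, 0, 967715374, 0, 0, 0, ⟨0, 0⟩, 0⟩ 0 0) (.cut .s 14360576 (.cut .s 14340096 (.pos 57 .mp ⟨327654884, 0, 0, 0, 0, 519976000, 0, 0, 0, ⟨0, 0⟩, 0⟩ 0 0) (.pos 57 .mp ⟨331749135, 0, 0, 0, 0, 527899756, 0, 0, 0, ⟨0, 0⟩, 0⟩ 0 0)) (.pos 57 .mp ⟨359215172, 0, 0, 0, 0, 496576787, 0, 0, 0, ⟨0, 0⟩, 0⟩ 0 0))) (.cut .s 14360576 (.pos 28 .mp ⟨327504369, 0, 0, 0, 0, 490909402, 0, 0, 0, ⟨0, 0⟩, 0⟩ 0 0) (.pos 28 .mp ⟨327063908, 0, 0, 0, 0, 530773767, 0, 0, 0, ⟨0, 0⟩, 0⟩ 0 0)))) (.cut .s 14442496 (.cut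 .v 17170432 (.pos 56 .mp ⟨290674829, 0, 0, 0, 0, 658895185, 0, 0, 0, ⟨0, 0⟩, 0⟩ 0 0) (.pos 57 .mp ⟨387012232, 0, 0, 0, 0, 476909432, 0, 0, 0, ⟨0, 0⟩, 0⟩ 0 0)) (.pos 28 .mp ⟨302157095, 0, 0, 0, 0, 686561020, 0, 0, 0, ⟨0, 0⟩, 0⟩ 0 0)))))) (.cut .s 14319616 (.pos 26 .mp ⟨617546723, 0, 0, 0, 0, 0, 0, 0, 0, ⟨0, 0⟩, 0⟩ 0 0) (.pos 26 .mp ⟨680082917, 0, 0, 0, 0, 0, 0, 0, 0, ⟨0, 0⟩, 0⟩ 0 0)))) (.cut .v 17301504 (.cut .s 14319616 (.cut .l 1416742 (.cut .v 17039360 (.cut .d (-32768) (.cut .l 913425 (.pos 27 .mp ⟨262385008, 0, 0, 0, 0, 609079161, 0, 0, 0, ⟨0, 0⟩, 0⟩ 0 0) (.cut .d (-49152) (.pos 27 .mp ⟨259870466, 0, 0, 0, 0, 598249016, 0, 0, 0, ⟨0, 0⟩, 0⟩ 0 0) (.cut .s 14237696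 (.pos 27 .mp ⟨245262546, 0, 0, 0, 0, 551897208, 0, 0, 0, ⟨0, 0⟩, 0⟩ 0 0) (.cut .s 14278656 (.pos 27 .mp ⟨255824605, 0, 0, 0, 0, 571638043, 0, 0, 0, ⟨0, 0⟩, 0⟩ 0 0) (.pos 27 .mp ⟨261139620, 0, 0, 0, 0, 590268172, 0, 0, 0, ⟨0, 0⟩, 0⟩ 0 0))))) (.cut .l 913425 (.cut .d (-16384) (.cut .s 14237696 (.cut .v 16908288 (.cut .s 14196736 (.pos 50 .mp ⟨260490779, 0, 0, 0, 0, 493849035, 0, 0, 0, ⟨0, 0⟩, 0⟩ 0 0) (.pos 50 .mp ⟨259488137, 0, 0, 0, 0, 522966860, 0, 0, 0, ⟨0, 0⟩, 0⟩ 0 0)) (.cut .s 14196736 (.pos 51 .mp ⟨413831615, 0, 0, 0, 0, 209893270, 0, 0, 0, ⟨0, 0⟩, 0⟩ 0 0) (.pos 51 .mp ⟨414629634, 0, 0, 0, 0, 233369208, 0, 0, 0, ⟨0, 0⟩, 0⟩ 0 0))) (.cut .l 661767 (.cut .d (-24576)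 (.pos 27 .mp ⟨277757510, 0, 0, 0, 0, 583514368, 0, 0, 0, ⟨0, 0⟩, 0⟩ 0 0) (.cut .v 16908288 (.cut .v 16842752 (.pos 86 .mp ⟨0, 0, 0, 0, 0, 1082778640, 0, 0, 0, ⟨0, 0⟩, 0⟩ 0 0) (.cut .s 14278656 (.cut .s 14258176 (.pos 87 .mp ⟨276301437, 0, 0, 0, 0, 514376904, 0, 0, 0, ⟨0, 0⟩, 0⟩ 0 0) (.pos 87 .mp ⟨279024271, 0, 0, 0, 0, 522509601, 0, 0, 0, ⟨0, 0⟩, 0⟩ 0 0)) (.cut .s 14299136 (.pos 87 .mp ⟨281759232, 0, 0, 0, 0, 531142125, 0, 0, 0, ⟨0, 0⟩, 0⟩ 0 0) (.pos 87 .mp ⟨284506686, 0, 0, 0, 0, 540287184, 0, 0, 0, ⟨0, 0⟩, 0⟩ 0 0)))) (.pos 51 .mp ⟨499600038, 0, 0, 0, 0, 117382352, 0, 0, 0, ⟨0, 0⟩, 0⟩ 0 0))) (.cut .v 16908288 (.pos 50 .mp ⟨0, 0, 0, 0, 0, 994437997, 0, 0, 0, ⟨0,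 0⟩, 0⟩ 0 0) (.cut .s 14278656 (.pos 51 .mp ⟨293481009, 0, 0, 0, 0, 480409061, 0, 0, 0, ⟨0, 0⟩, 0⟩ 0 0) (.pos 51 .mp ⟨299642240, 0, 0, 0, 0, 497546695, 0, 0, 0, ⟨0, 0⟩, 0⟩ 0 0))))) (.cut .d (-8192) (.cut .v 16908288 (.cut .s 14237696 (.pos 50 .mp ⟨271351345, 0, 0, 0, 0, 443867392, 0, 0, 0, ⟨0, 0⟩, 0⟩ 0 0) (.cut .v 16842752 (.pos 86 .mp ⟨0, 0, 0, 0, 0, 966989618, 0, 0, 0, ⟨0, 0⟩, 0⟩ 0 0) (.cut .d (-12288) (.cut .d (-14336) (.cut .s 14278656 (.pos 87 .mp ⟨279024271, 0, 0, 0, 0, 501567790, 0, 0, 0, ⟨0, 0⟩, 0⟩ 0 0) (.cut .s 14299136 (.pos 87 .mp ⟨281759232, 0, 0, 0, 0, 512982740, 0, 0, 0, ⟨0, 0⟩, 0⟩ 0 0) (.cut .d (-15360) (.pos 87 .mp ⟨282962700, 0, 0, 0, 0, 542214383,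 0, 0, 0, ⟨0, 0⟩, 0⟩ 0 0) (.pos 87 .mp ⟨283413923, 0, 0, 0, 0, 516948106, 0, 0, 0, ⟨0, 0⟩, 0⟩ 0 0)))) (.pos 87 .mp ⟨282321491, 0, 0, 0, 0, 0, 0, 0, 0, ⟨0, 0⟩, 0⟩ 0 0)) (.pos 87 .mp ⟨0, 0, 0, 0, 0, 0, 0, 0, 0, ⟨0, 0⟩, 0⟩ 0 0)))) (.pos 51 .mp ⟨515512645, 0, 0, 0, 0, 0, 0, 0, 0, ⟨0, 0⟩, 0⟩ 0 0)) (.pos 27 .mp ⟨267210001, 0, 0, 0, 0, 0, 0, 0, 0, ⟨0, 0⟩, 0⟩ 0 0))) (.pos 27 .mp ⟨285318247, 0, 0, 0, 0, 0, 0, 0, 0, ⟨0, 0⟩, 0⟩ 0 0))) (.cut .s 14237696 (.pos 28 .mp ⟨442562950, 0, 0, 0, 0, 186984434, 0, 0, 0, ⟨0, 0⟩, 0⟩ 0 0) (.cut .s 14278656 (.pos 28 .mp ⟨392609863, 0, 0, 0, 0, 317280724, 0, 0, 0, ⟨0, 0⟩, 0⟩ 0 0) (.pos 28 .mp ⟨400362776, 0, 0, 0, 0, 331897093, 0, 0, 0, ⟨0,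 0⟩, 0⟩ 0 0)))) (.cut .d (-32768) (.cut .d (-49152) (.cut .v 17039360 (.pos 27 .mp ⟨0, 0, 0, 0, 0, 1020172297, 0, 0, 0, ⟨0, 0⟩, 0⟩ 0 0) (.cut .s 14237696 (.pos 28 .mp ⟨306598467, 0, 0, 0, 0, 427805764, 0, 0, 0, ⟨0, 0⟩, 0⟩ 0 0) (.cut .s 14278656 (.pos 28 .mp ⟨313797932, 0, 0, 0, 0, 458132745, 0, 0, 0, ⟨0, 0⟩, 0⟩ 0 0) (.pos 28 .mp ⟨321110147, 0, 0, 0, 0, 472278208, 0, 0, 0, ⟨0, 0⟩, 0⟩ 0 0)))) (.pos 25 .mp ⟨293408400, 0, 0, 0, 0, 0, 0, 0, 0, ⟨0, 0⟩, 0⟩ 0 0)) (.pos 25 .mp ⟨0, 0, 0, 0, 0, 0, 0, 0, 0, ⟨0, 0⟩, 0⟩ 0 0))) (.cut .l 1416742 (.cut .d (-32768) (.cut .v 17039360 (.cut .l 913425 (.pos 27 .mp ⟨285318247, 0, 0, 0, 0, 688387450, 0, 0, 0, ⟨0, 0⟩, 0⟩ 0 0) (.cut .v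 16908288 (.pos 50 .mp ⟨0, 0, 0, 0, 0, 1147552224, 0, 0, 0, ⟨0, 0⟩, 0⟩ 0 0) (.cut .s 14401536 (.cut .s 14360576 (.pos 51 .mp ⟨271101208, 0, 0, 0, 0, 606902021, 0, 0, 0, ⟨0, 0⟩, 0⟩ 0 0) (.pos 51 .mp ⟨276571640, 0, 0, 0, 0, 629040434, 0, 0, 0, ⟨0, 0⟩, 0⟩ 0 0)) (.cut .s 14442496 (.pos 51 .mp ⟨282073009, 0, 0, 0, 0, 652630783, 0, 0, 0, ⟨0, 0⟩, 0⟩ 0 0) (.pos 51 .mp ⟨287607574, 0, 0, 0, 0, 677689961, 0, 0, 0, ⟨0, 0⟩, 0⟩ 0 0))))) (.cut .d (-49152) (.pos 28 .mp ⟨547132946, 0, 0, 0, 0, 175235228, 0, 0, 0, ⟨0, 0⟩, 0⟩ 0 0) (.pos 28 .mp ⟨617642988, 0, 0, 0, 0, 0, 0, 0, 0, ⟨0, 0⟩, 0⟩ 0 0))) (.cut .l 913425 (.cut .v 17039360 (.cut .d (-16384) (.cut .s 14401536 (.cut .l 661767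 (.cut .d (-24576) (.pos 27 .mp ⟨286071570, 0, 0, 0, 0, 633334722, 0, 0, 0, ⟨0, 0⟩, 0⟩ 0 0) (.cut .v 16908288 (.cut .s 14360576 (.cut .s 14340096 (.pos 50 .mp ⟨283228779, 0, 0, 0, 0, 553640502, 0, 0, 0, ⟨0, 0⟩, 0⟩ 0 0) (.pos 50 .mp ⟨285693789, 0, 0, 0, 0, 564710659, 0, 0, 0, ⟨0, 0⟩, 0⟩ 0 0)) (.pos 50 .mp ⟨278127085, 0, 0, 0, 0, 608997458, 0, 0, 0, ⟨0, 0⟩, 0⟩ 0 0)) (.pos 51 .mp ⟨524430951, 0, 0, 0, 0, 127371485, 0, 0, 0, ⟨0, 0⟩, 0⟩ 0 0))) (.cut .v 16908288 (.pos 50 .mp ⟨0, 0, 0, 0, 0, 1052415820, 0, 0, 0, ⟨0, 0⟩, 0⟩ 0 0) (.cut .s 14360576 (.pos 51 .mp ⟨305882480, 0, 0, 0, 0, 515490511, 0, 0, 0, ⟨0, 0⟩, 0⟩ 0 0) (.pos 51 .mp ⟨312206336, 0, 0, 0, 0, 534223289, 0, 0,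 0, ⟨0, 0⟩, 0⟩ 0 0)))) (.cut .s 14442496 (.cut .v 16908288 (.pos 50 .mp ⟨274294545, 0, 0, 0, 0, 650009608, 0, 0, 0, ⟨0, 0⟩, 0⟩ 0 0) (.pos 51 .mp ⟨329113181, 0, 0, 0, 0, 545997996, 0, 0, 0, ⟨0, 0⟩, 0⟩ 0 0)) (.cut .v 16908288 (.pos 50 .mp ⟨282200498, 0, 0, 0, 0, 669821858, 0, 0, 0, ⟨0, 0⟩, 0⟩ 0 0) (.pos 51 .mp ⟨335936167, 0, 0, 0, 0, 568521688, 0, 0, 0, ⟨0, 0⟩, 0⟩ 0 0)))) (.cut .v 16908288 (.cut .v 16842752 (.pos 86 .mp ⟨0, 0, 0, 0, 0, 1020206897, 0, 0, 0, ⟨0, 0⟩, 0⟩ 0 0) (.cut .s 14401536 (.cut .d (-8192) (.cut .d (-12288) (.cut .d (-14336) (.cut .s 14360576 (.cut .s 14340096 (.cut .s 14329856 (.pos 87 .mp ⟨282321491, 0, 0, 0, 0, 544296722, 0, 0, 0, ⟨0, 0⟩, 0⟩ 0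 0) (.pos 87 .mp ⟨283675521, 0, 0, 0, 0, 549107483, 0, 0, 0, ⟨0, 0⟩, 0⟩ 0 0)) (.pos 87 .mp ⟨285032496, 0, 0, 0, 0, 559259239, 0, 0, 0, ⟨0, 0⟩, 0⟩ 0 0)) (.pos 87 .mp ⟨287755462, 0, 0, 0, 0, 576703119, 0, 0, 0, ⟨0, 0⟩, 0⟩ 0 0)) (.pos 87 .mp ⟨293238793, 0, 0, 0, 0, 0, 0, 0, 0, ⟨0, 0⟩, 0⟩ 0 0)) (.pos 87 .mp ⟨0, 0, 0, 0, 0, 0, 0, 0, 0, ⟨0, 0⟩, 0⟩ 0 0)) (.pos 87 .mp ⟨0, 0, 0, 0, 0, 0, 0, 0, 0, ⟨0, 0⟩, 0⟩ 0 0)) (.pos 87 .mp ⟨306984639, 0, 0, 0, 0, 548123229, 0, 0, 0, ⟨0, 0⟩, 0⟩ 0 0))) (.pos 51 .mp ⟨564069763, 0, 0, 0, 0, 0, 0, 0, 0, ⟨0, 0⟩, 0⟩ 0 0))) (.pos 28 .mp ⟨614126040, 0, 0, 0, 0, 0, 0, 0, 0, ⟨0, 0⟩, 0⟩ 0 0)) (.pos 25 .mp ⟨319600374, 0, 0, 0, 0, 223341801, 0, 0,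 0, ⟨0, 0⟩, 0⟩ 0 0))) (.cut .d (-32768) (.cut .l 1920059 (.cut .d (-49152) (.cut .v 17039360 (.pos 27 .mp ⟨0, 0, 0, 0, 0, 1119718747, 0, 0, 0, ⟨0, 0⟩, 0⟩ 0 0) (.cut .s 14401536 (.pos 28 .mp ⟨336098229, 0, 0, 0, 0, 486824197, 0, 0, 0, ⟨0, 0⟩, 0⟩ 0 0) (.pos 28 .mp ⟨351618027, 0, 0, 0, 0, 520641102, 0, 0, 0, ⟨0, 0⟩, 0⟩ 0 0))) (.pos 25 .mp ⟨319420677, 0, 0, 0, 0, 0, 0, 0, 0, ⟨0, 0⟩, 0⟩ 0 0)) (.pos 25 .mp ⟨319350781, 0, 0, 0, 0, 0, 0, 0, 0, ⟨0, 0⟩, 0⟩ 0 0)) (.pos 25 .mp ⟨0, 0, 0, 0, 0, 0, 0, 0, 0, ⟨0, 0⟩, 0⟩ 0 0)))) (.cut .s 14319616 (.pos 26 .mp ⟨559638325, 0, 0, 0, 0, 0, 0, 0, 0, ⟨0, 0⟩, 0⟩ 0 0) (.pos 26 .mp ⟨620715882, 0, 0, 0, 0, 0, 0, 0, 0, ⟨0, 0⟩, 0⟩ 0 0)))) (.pos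 24 .mp ⟨659100178, 0, 0, 0, 0, 0, 0, 0, 0, ⟨0, 0⟩, 0⟩ 0 0))))) (.pos 22 .mp ⟨1068986581, 0, 0, 0, 0, 0, 0, 0, 0, ⟨0, 0⟩, 0⟩ 0 0)))) (.void 20 ⟨100000, 0, 0, 0, 0, 0, 0, 0, 0, ⟨0, 0⟩, 0⟩ 0 0))) (.void 18 ⟨100000, 0, 0, 0, 0, 0, 0, 0, 0, ⟨0, 0⟩, 0⟩ 0 0))) (.void 45 ⟨100000, 0, 0, 0, 0, 0, 0, 0, 0, ⟨0, 0⟩, 0⟩ 0 0)) (.void 60 ⟨100000, 0, 0, 0, 0, 0, 0, 0, 0, ⟨0, 0⟩, 0⟩ 0 0)) (.void 83 ⟨92053, 0, 0, 7947, 0, 0, 0, 0, 0, ⟨0, 0⟩, 0⟩ 0 0))) (.cut .v 16777216 (.cut .v 8388608 (.cut .v 4194304 (.cut .v 2097152 (.cut .v 1048576 (.pos 98 .pm ⟨0, 0, 18794441, 0, 0, 0, 0, 0, 0, ⟨0, 0⟩, 0⟩ 0 0) (.pos 99 .pm ⟨0, 0, 15779673, 0, 0, 0, 0, 0, 0, ⟨0, 0⟩, 0⟩ 0 0)) (.pos 66 .pm ⟨0,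 0, 15747656, 0, 0, 0, 0, 0, 0, ⟨0, 0⟩, 0⟩ 0 0)) (.pos 5 .pm ⟨0, 0, 23480832, 0, 0, 0, 0, 0, 0, ⟨0, 0⟩, 0⟩ 0 0)) (.pos 3 .pm ⟨0, 0, 0, 0, 0, 0, 0, 0, 0, ⟨0, 0⟩, 0⟩ 0 0)) (.cut .v 268435456 (.cut .v 67108864 (.cut .d 1553447 (.cut .v 33554432 (.cut .d 776723 (.cut .d 388361 (.cut .v 25165824 (.cut .v 20971520 (.pos 19 .pp ⟨444398701, 0, 0, 0, 0, 0, 0, 0, 0, ⟨0, 0⟩, 0⟩ 0 0) (.pos 20 .pp ⟨753509653, 0, 0, 0, 0, 0, 0, 0, 0, ⟨0, 0⟩, 0⟩ 0 0)) (.pos 18 .pp ⟨1298646239, 0, 0, 0, 0, 0, 0, 0, 0, ⟨0, 0⟩, 0⟩ 0 0)) (.pos 16 .pp ⟨368518552, 0, 0, 0, 0, 0, 0, 0, 0, ⟨0, 0⟩, 0⟩ 0 0)) (.pos 16 .pp ⟨0, 0, 0, 0, 0, 0, 0, 0, 0, ⟨0, 0⟩, 0⟩ 0 0)) (.cut .d 776723 (.cut .d 388361 (.pos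 45 .pp ⟨5364664824, 0, 0, 0, 0, 0, 0, 0, 0, ⟨0, 0⟩, 0⟩ 0 0) (.cut .v 50331648 (.cut .v 41943040 (.pos 48 .pp ⟨1467538450, 0, 0, 0, 0, 0, 0, 0, 0, ⟨0, 0⟩, 0⟩ 0 0) (.pos 49 .pp ⟨2442087494, 0, 0, 0, 0, 0, 0, 0, 0, ⟨0, 0⟩, 0⟩ 0 0)) (.cut .v 58720256 (.pos 100 .pp ⟨3651800218, 0, 0, 0, 0, 0, 0, 0, 0, ⟨0, 0⟩, 0⟩ 0 0) (.pos 101 .pp ⟨5267826917, 2544456250, 0, 0, 0, 0, 0, 0, 0, ⟨0, 0⟩, 0⟩ 0 0)))) (.cut .v 50331648 (.pos 46 .pp ⟨999158645, 0, 0, 0, 0, 0, 0, 0, 0, ⟨0, 0⟩, 0⟩ 0 0) (.cut .v 58720256 (.pos 100 .pp ⟨2344148614, 443277690, 0, 0, 0, 0, 0, 0, 0, ⟨0, 0⟩, 0⟩ 0 0) (.pos 101 .pp ⟨3219645895, 935973658, 0, 0, 0, 0, 0, 0, 0, ⟨0, 0⟩, 0⟩ 0 0))))) (.pos 44 .pp ⟨0, 0, 0,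 0, 0, 0, 0, 0, 0, ⟨0, 0⟩, 0⟩ 0 0)) (.void 60 ⟨34645, 65355, 0, 0, 0, 0, 0, 0, 0, ⟨0, 0⟩, 0⟩ 0 0)) (.void 83 ⟨0, 0, 0, 100000, 0, 0, 0, 0, 0, ⟨0, 0⟩, 0⟩ 0 0)))),
    by decide +kernel⟩

def covers23 : cell.Covers table row23.1 :=
  ⟨(.cut .d 0 (.cut .v 16777216 (.cut .v 8388608 (.void 2 ⟨0, 0, 100000, 0, 0, 0, 0, 0, 0, ⟨0, 0⟩, 0⟩ 0 0) (.cut .d (-8388608) (.void 3 ⟨100000, 0, 0, 0, 0, 0, 0, 0, 0, ⟨0, 0⟩, 0⟩ 0 0) (.cut .d (-4194304) (.void 3 ⟨100000, 0, 0, 0, 0, 0, 0, 0, 0, ⟨0, 0⟩, 0⟩ 0 0) (.cut .d (-2097152) (.void 3 ⟨100000, 0, 0, 0, 0, 0, 0, 0, 0, ⟨0, 0⟩, 0⟩ 0 0) (.cut .d (-1048576) (.void 3 ⟨0, 0, 0, 0, 0, 100000, 0, 0, 0, ⟨0, 0⟩, 0⟩ 0 0) (.cut .d (-524288) (.void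 3 ⟨0, 0, 0, 0, 0, 100000, 0, 0, 0, ⟨0, 0⟩, 0⟩ 0 0) (.cut .d (-262144) (.void 3 ⟨0, 0, 0, 0, 0, 100000, 0, 0, 0, ⟨0, 0⟩, 0⟩ 0 0) (.cut .d (-131072) (.void 3 ⟨0, 0, 0, 0, 0, 100000, 0, 0, 0, ⟨0, 0⟩, 0⟩ 0 0) (.cut .d (-65536) (.pos 3 .mm ⟨0, 0, 0, 0, 0, 1519717673, 0, 0, 0, ⟨0, 0⟩, 0⟩ 0 0) (.cut .s 14647296 (.pos 3 .mm ⟨0, 0, 0, 0, 0, 1272336753, 0, 0, 0, ⟨0, 0⟩, 0⟩ 0 0) (.cut .d (-32768) (.pos 3 .mm ⟨0, 0, 0, 0, 0, 1484101198, 0, 0, 0, ⟨0, 0⟩, 0⟩ 0 0) (.pos 3 .mm ⟨0, 0, 0, 0, 0, 1392151638, 0, 0, 0, ⟨0, 0⟩, 0⟩ 0 0)))))))))))) (.cut .v 268435456 (.cut .v 67108864 (.cut .v 33554432 (.cut .d (-8388608) (.void 16 ⟨100000, 0, 0, 0, 0, 0, 0, 0, 0, ⟨0, 0⟩, 0⟩ 0 0) (.cut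 .v 25165824 (.cut .d (-4194304) (.void 17 ⟨100000, 0, 0, 0, 0, 0, 0, 0, 0, ⟨0, 0⟩, 0⟩ 0 0) (.cut .d (-2097152) (.void 17 ⟨100000, 0, 0, 0, 0, 0, 0, 0, 0, ⟨0, 0⟩, 0⟩ 0 0) (.cut .v 20971520 (.cut .d (-1048576) (.void 19 ⟨100000, 0, 0, 0, 0, 0, 0, 0, 0, ⟨0, 0⟩, 0⟩ 0 0) (.cut .v 18874368 (.cut .d (-524288) (.void 21 ⟨100000, 0, 0, 0, 0, 0, 0, 0, 0, ⟨0, 0⟩, 0⟩ 0 0) (.cut .d (-262144) (.void 21 ⟨100000, 0, 0, 0, 0, 0, 0, 0, 0, ⟨0, 0⟩, 0⟩ 0 0) (.cut .d (-131072) (.void 21 ⟨0, 0, 0, 0, 0, 100000, 0, 0, 0, ⟨0, 0⟩, 0⟩ 0 0) (.cut .v 17825792 (.cut .d (-65536) (.cut .d (-98304) (.void 23 ⟨0, 0, 0, 0, 0, 100000, 0, 0, 0, ⟨0, 0⟩, 0⟩ 0 0) (.cut .v 17301504 (.cut .l 1416742 (.void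 25 ⟨0, 0, 0, 0, 0, 100000, 0, 0, 0, ⟨0, 0⟩, 0⟩ 0 0) (.cut .l 1920059 (.pos 25 .mp ⟨319380476, 0, 0, 0, 0, 993567808, 0, 0, 0, ⟨0, 0⟩, 0⟩ 0 0) (.cut .v 17039360 (.pos 27 .mp ⟨0, 0, 0, 0, 0, 1449137239, 0, 0, 0, ⟨0, 0⟩, 0⟩ 0 0) (.cut .d (-81920) (.cut .s 14647296 (.pos 28 .mp ⟨344443148, 0, 0, 0, 0, 820000690, 0, 0, 0, ⟨0, 0⟩, 0⟩ 0 0) (.void 28 ⟨0, 0, 0, 0, 0, 100000, 0, 0, 0, ⟨0, 0⟩, 0⟩ 0 0)) (.cut .s 14647296 (.cut .s 14565376 (.cut .d (-73728) (.pos 28 .mp ⟨330701616, 0, 0, 0, 0, 711494086, 0, 0, 0, ⟨0, 0⟩, 0⟩ 0 0) (.pos 28 .mp ⟨357984533, 0, 0, 0, 0, 611814071, 0, 0, 0, ⟨0, 0⟩, 0⟩ 0 0)) (.cut .s 14606336 (.cut .v 17170432 (.pos 56 .mp ⟨318432079, 0, 0, 0, 0,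 753477270, 0, 0, 0, ⟨0, 0⟩, 0⟩ 0 0) (.pos 57 .mp ⟨379291368, 0, 0, 0, 0, 639151634, 0, 0, 0, ⟨0, 0⟩, 0⟩ 0 0)) (.cut .v 17170432 (.cut .s 14626816 (.pos 56 .mp ⟨325926565, 0, 0, 0, 0, 764892687, 0, 0, 0, ⟨0, 0⟩, 0⟩ 0 0) (.pos 56 .mp ⟨329687247, 0, 0, 0, 0, 777559035, 0, 0, 0, ⟨0, 0⟩, 0⟩ 0 0)) (.cut .s 14626816 (.pos 57 .mp ⟨370030233, 0, 0, 0, 0, 685949818, 0, 0, 0, ⟨0, 0⟩, 0⟩ 0 0) (.pos 57 .mp ⟨375735672, 0, 0, 0, 0, 694589049, 0, 0, 0, ⟨0, 0⟩, 0⟩ 0 0))))) (.cut .s 14729216 (.cut .s 14688256 (.cut .l 2171717 (.pos 28 .mp ⟨350885141, 0, 0, 0, 0, 794384399, 0, 0, 0, ⟨0, 0⟩, 0⟩ 0 0) (.cut .v 17170432 (.pos 56 .mp ⟨230679151, 0, 0, 0, 0, 987002119, 0, 0, 0, ⟨0, 0⟩,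 0⟩ 0 0) (.cut .s 14667776 (.pos 57 .mp ⟨379518018, 0, 0, 0, 0, 706975482, 0, 0, 0, ⟨0, 0⟩, 0⟩ 0 0) (.pos 57 .mp ⟨382620367, 0, 0, 0, 0, 722251403, 0, 0, 0, ⟨0, 0⟩, 0⟩ 0 0)))) (.cut .v 17170432 (.pos 56 .mp ⟨187494035, 0, 0, 0, 0, 1122825506, 0, 0, 0, ⟨0, 0⟩, 0⟩ 0 0) (.pos 57 .mp ⟨414587880, 0, 0, 0, 0, 688603077, 0, 0, 0, ⟨0, 0⟩, 0⟩ 0 0))) (.pos 28 .mp ⟨354645620, 0, 0, 0, 0, 882294501, 0, 0, 0, ⟨0, 0⟩, 0⟩ 0 0))))))) (.pos 26 .mp ⟨810395055, 0, 0, 0, 0, 0, 0, 0, 0, ⟨0, 0⟩, 0⟩ 0 0))) (.cut .s 14647296 (.cut .v 17301504 (.cut .s 14565376 (.cut .v 17039360 (.cut .d (-32768) (.cut .l 1416742 (.cut .s 14524416 (.pos 27 .mp ⟨288150277, 0, 0, 0, 0, 733346019, 0, 0, 0,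 ⟨0, 0⟩, 0⟩ 0 0) (.pos 27 .mp ⟨294175065, 0, 0, 0, 0, 752471355, 0, 0, 0, ⟨0, 0⟩, 0⟩ 0 0)) (.pos 27 .mp ⟨214040760, 0, 0, 0, 0, 864846215, 0, 0, 0, ⟨0, 0⟩, 0⟩ 0 0)) (.cut .l 1416742 (.cut .l 913425 (.cut .d (-16384) (.cut .d (-24576) (.pos 27 .mp ⟨298759256, 0, 0, 0, 0, 745609714, 0, 0, 0, ⟨0, 0⟩, 0⟩ 0 0) (.cut .v 16908288 (.cut .s 14524416 (.pos 50 .mp ⟨306499346, 0, 0, 0, 0, 660245547, 0, 0, 0, ⟨0, 0⟩, 0⟩ 0 0) (.pos 50 .mp ⟨303046035, 0, 0, 0, 0, 702048454, 0, 0, 0, ⟨0, 0⟩, 0⟩ 0 0)) (.pos 51 .mp ⟨561690226, 0, 0, 0, 0, 185877121, 0, 0, 0, ⟨0, 0⟩, 0⟩ 0 0))) (.cut .d (-8192) (.cut .d (-12288) (.cut .s 14524416 (.pos 27 .mp ⟨314596813, 0, 0, 0, 0, 634074180, 0, 0,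 0, ⟨0, 0⟩, 0⟩ 0 0) (.cut .v 16908288 (.cut .s 14544896 (.pos 50 .mp ⟨307000901, 0, 0, 0, 0, 673630124, 0, 0, 0, ⟨0, 0⟩, 0⟩ 0 0) (.pos 50 .mp ⟨309291779, 0, 0, 0, 0, 687677373, 0, 0, 0, ⟨0, 0⟩, 0⟩ 0 0)) (.pos 51 .mp ⟨645440179, 0, 0, 0, 0, 0, 0, 0, 0, ⟨0, 0⟩, 0⟩ 0 0))) (.pos 27 .mp ⟨315756331, 0, 0, 0, 0, 0, 0, 0, 0, ⟨0, 0⟩, 0⟩ 0 0)) (.pos 27 .mp ⟨310000257, 0, 0, 0, 0, 0, 0, 0, 0, ⟨0, 0⟩, 0⟩ 0 0))) (.pos 27 .mp ⟨322253492, 0, 0, 0, 0, 594525638, 0, 0, 0, ⟨0, 0⟩, 0⟩ 0 0)) (.pos 27 .mp ⟨0, 0, 0, 0, 0, 0, 0, 0, 0, ⟨0, 0⟩, 0⟩ 0 0))) (.cut .s 14524416 (.pos 28 .mp ⟨466100536, 0, 0, 0, 0, 369899470, 0, 0, 0, ⟨0, 0⟩, 0⟩ 0 0) (.cut .s 14544896 (.pos 28 .mp ⟨416971316,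 0, 0, 0, 0, 488926792, 0, 0, 0, ⟨0, 0⟩, 0⟩ 0 0) (.pos 28 .mp ⟨414374598, 0, 0, 0, 0, 511183044, 0, 0, 0, ⟨0, 0⟩, 0⟩ 0 0)))) (.cut .v 17039360 (.cut .d (-32768) (.cut .v 16908288 (.pos 50 .mp ⟨0, 0, 0, 0, 0, 1386989189, 0, 0, 0, ⟨0, 0⟩, 0⟩ 0 0) (.cut .l 1416742 (.cut .s 14606336 (.pos 51 .mp ⟨305472148, 0, 0, 0, 0, 764852086, 0, 0, 0, ⟨0, 0⟩, 0⟩ 0 0) (.cut .s 14626816 (.pos 51 .mp ⟨311598693, 0, 0, 0, 0, 777005292, 0, 0, 0, ⟨0, 0⟩, 0⟩ 0 0) (.pos 51 .mp ⟨314659751, 0, 0, 0, 0, 790840570, 0, 0, 0, ⟨0, 0⟩, 0⟩ 0 0))) (.cut .d (-49152) (.pos 51 .mp ⟨0, 0, 0, 0, 0, 1379724899, 0, 0, 0, ⟨0, 0⟩, 0⟩ 0 0) (.pos 51 .mp ⟨281188843, 0, 0, 0, 0, 785506781, 0, 0, 0, ⟨0, 0⟩, 0⟩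 0 0)))) (.cut .l 1416742 (.cut .l 913425 (.cut .d (-16384) (.cut .s 14606336 (.cut .d (-24576) (.pos 27 .mp ⟨310759654, 0, 0, 0, 0, 758683393, 0, 0, 0, ⟨0, 0⟩, 0⟩ 0 0) (.cut .v 16908288 (.cut .s 14585856 (.pos 50 .mp ⟨317718498, 0, 0, 0, 0, 695045662, 0, 0, 0, ⟨0, 0⟩, 0⟩ 0 0) (.pos 50 .mp ⟨296765555, 0, 0, 0, 0, 769197385, 0, 0, 0, ⟨0, 0⟩, 0⟩ 0 0)) (.pos 51 .mp ⟨471021783, 0, 0, 0, 0, 410743472, 0, 0, 0, ⟨0, 0⟩, 0⟩ 0 0))) (.cut .d (-24576) (.pos 27 .mp ⟨316768943, 0, 0, 0, 0, 784023833, 0, 0, 0, ⟨0, 0⟩, 0⟩ 0 0) (.cut .v 16908288 (.cut .s 14626816 (.pos 50 .mp ⟨299432511, 0, 0, 0, 0, 782471334, 0, 0, 0, ⟨0, 0⟩, 0⟩ 0 0) (.pos 50 .mp ⟨302092474, 0, 0, 0, 0, 796634679,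 0, 0, 0, ⟨0, 0⟩, 0⟩ 0 0)) (.pos 51 .mp ⟨471794554, 0, 0, 0, 0, 445909521, 0, 0, 0, ⟨0, 0⟩, 0⟩ 0 0)))) (.cut .d (-8192) (.cut .v 16908288 (.cut .v 16842752 (.pos 86 .mp ⟨0, 0, 0, 0, 0, 1255060852, 0, 0, 0, ⟨0, 0⟩, 0⟩ 0 0) (.cut .d (-12288) (.cut .l 661767 (.cut .l 535938 (.cut .s 14606336 (.cut .s 14585856 (.pos 87 .mp ⟨315352072, 0, 0, 0, 0, 695537353, 0, 0, 0, ⟨0, 0⟩, 0⟩ 0 0) (.pos 87 .mp ⟨317093922, 0, 0, 0, 0, 711251545, 0, 0, 0, ⟨0, 0⟩, 0⟩ 0 0)) (.cut .v 16875520 (.cut .d (-14336) (.pos 88 .mp ⟨314734814, 0, 0, 0, 0, 756541832, 0, 0, 0, ⟨0, 0⟩, 0⟩ 0 0) (.cut .s 14626816 (.pos 88 .mp ⟨317426591, 0, 0, 0, 0, 723167261, 0, 0, 0, ⟨0, 0⟩, 0⟩ 0 0) (.cut .s 14637056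 (.pos 88 .mp ⟨320252525, 0, 0, 0, 0, 728418496, 0, 0, 0, ⟨0, 0⟩, 0⟩ 0 0) (.pos 88 .mp ⟨321666039, 0, 0, 0, 0, 735099384, 0, 0, 0, ⟨0, 0⟩, 0⟩ 0 0)))) (.pos 89 .mp ⟨501396348, 0, 0, 0, 0, 387270511, 0, 0, 0, ⟨0, 0⟩, 0⟩ 0 0))) (.pos 87 .mp ⟨324914971, 0, 0, 0, 0, 0, 0, 0, 0, ⟨0, 0⟩, 0⟩ 0 0)) (.pos 87 .mp ⟨0, 0, 0, 0, 0, 0, 0, 0, 0, ⟨0, 0⟩, 0⟩ 0 0)) (.pos 87 .mp ⟨324462482, 0, 0, 0, 0, 0, 0, 0, 0, ⟨0, 0⟩, 0⟩ 0 0))) (.pos 51 .mp ⟨666106488, 0, 0, 0, 0, 0, 0, 0, 0, ⟨0, 0⟩, 0⟩ 0 0)) (.pos 27 .mp ⟨320086112, 0, 0, 0, 0, 0, 0, 0, 0, ⟨0, 0⟩, 0⟩ 0 0))) (.pos 27 .mp ⟨335425644, 0, 0, 0, 0, 636751477, 0, 0, 0, ⟨0, 0⟩, 0⟩ 0 0)) (.pos 27 .mp ⟨0, 0, 0, 0, 0, 0, 0, 0, 0, ⟨0, 0⟩,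 0⟩ 0 0))) (.cut .d (-32768) (.cut .v 17170432 (.cut .l 1416742 (.cut .d (-49152) (.void 56 ⟨100000, 0, 0, 0, 0, 0, 0, 0, 0, ⟨0, 0⟩, 0⟩ 0 0) (.pos 56 .mp ⟨733014214, 0, 0, 0, 0, 0, 0, 0, 0, ⟨0, 0⟩, 0⟩ 0 0)) (.cut .l 1920059 (.cut .s 14606336 (.pos 56 .mp ⟨371712431, 0, 0, 0, 0, 625268124, 0, 0, 0, ⟨0, 0⟩, 0⟩ 0 0) (.cut .s 14626816 (.pos 56 .mp ⟨376082970, 0, 0, 0, 0, 646702301, 0, 0, 0, ⟨0, 0⟩, 0⟩ 0 0) (.pos 56 .mp ⟨380488761, 0, 0, 0, 0, 658093684, 0, 0, 0, ⟨0, 0⟩, 0⟩ 0 0))) (.pos 56 .mp ⟨356798038, 0, 0, 0, 0, 643393604, 0, 0, 0, ⟨0, 0⟩, 0⟩ 0 0))) (.pos 57 .mp ⟨698957146, 0, 0, 0, 0, 0, 0, 0, 0, ⟨0, 0⟩, 0⟩ 0 0)) (.pos 28 .mp ⟨673919524, 0, 0, 0, 0, 0, 0, 0, 0,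 ⟨0, 0⟩, 0⟩ 0 0)))) (.pos 26 .mp ⟨701359245, 0, 0, 0, 0, 0, 0, 0, 0, ⟨0, 0⟩, 0⟩ 0 0)) (.cut .v 17301504 (.cut .s 14729216 (.cut .d (-32768) (.cut .l 1416742 (.cut .v 17039360 (.cut .s 14688256 (.cut .s 14667776 (.pos 27 .mp ⟨312197152, 0, 0, 0, 0, 817117087, 0, 0, 0, ⟨0, 0⟩, 0⟩ 0 0) (.pos 27 .mp ⟨315193789, 0, 0, 0, 0, 832961038, 0, 0, 0, ⟨0, 0⟩, 0⟩ 0 0)) (.pos 27 .mp ⟨318188572, 0, 0, 0, 0, 865407986, 0, 0, 0, ⟨0, 0⟩, 0⟩ 0 0)) (.pos 28 .mp ⟨791059589, 0, 0, 0, 0, 0, 0, 0, 0, ⟨0, 0⟩, 0⟩ 0 0)) (.cut .d (-49152) (.cut .v 17039360 (.pos 27 .mp ⟨0, 0, 0, 0, 0, 1456914918, 0, 0, 0, ⟨0, 0⟩, 0⟩ 0 0) (.cut .l 1920059 (.cut .s 14688256 (.pos 28 .mp ⟨395570756, 0, 0, 0, 0,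 664178252, 0, 0, 0, ⟨0, 0⟩, 0⟩ 0 0) (.pos 28 .mp ⟨404795186, 0, 0, 0, 0, 688523196, 0, 0, 0, ⟨0, 0⟩, 0⟩ 0 0)) (.pos 28 .mp ⟨379068040, 0, 0, 0, 0, 667360039, 0, 0, 0, ⟨0, 0⟩, 0⟩ 0 0))) (.pos 25 .mp ⟨361604455, 0, 0, 0, 0, 675159785, 0, 0, 0, ⟨0, 0⟩, 0⟩ 0 0))) (.cut .v 17039360 (.cut .l 1416742 (.cut .l 913425 (.cut .d (-16384) (.cut .s 14688256 (.cut .d (-24576) (.pos 27 .mp ⟨322785930, 0, 0, 0, 0, 812865309, 0, 0, 0, ⟨0, 0⟩, 0⟩ 0 0) (.cut .v 16908288 (.cut .s 14667776 (.pos 50 .mp ⟨304745357, 0, 0, 0, 0, 811713729, 0, 0, 0, ⟨0, 0⟩, 0⟩ 0 0) (.pos 50 .mp ⟨307391067, 0, 0, 0, 0, 827735802, 0, 0, 0, ⟨0, 0⟩, 0⟩ 0 0)) (.pos 51 .mp ⟨478550216, 0, 0, 0, 0, 472119697,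 0, 0, 0, ⟨0, 0⟩, 0⟩ 0 0))) (.cut .v 16908288 (.pos 50 .mp ⟨302660964, 0, 0, 0, 0, 863696860, 0, 0, 0, ⟨0, 0⟩, 0⟩ 0 0) (.cut .s 14708736 (.pos 51 .mp ⟨376039097, 0, 0, 0, 0, 710281124, 0, 0, 0, ⟨0, 0⟩, 0⟩ 0 0) (.pos 51 .mp ⟨379833528, 0, 0, 0, 0, 725144089, 0, 0, 0, ⟨0, 0⟩, 0⟩ 0 0)))) (.cut .d (-8192) (.cut .v 16908288 (.cut .d (-12288) (.cut .v 16842752 (.pos 86 .mp ⟨0, 0, 0, 0, 0, 1356583298, 0, 0, 0, ⟨0, 0⟩, 0⟩ 0 0) (.cut .s 14688256 (.cut .s 14667776 (.cut .s 14657536 (.pos 87 .mp ⟨324462482, 0, 0, 0, 0, 745862638, 0, 0, 0, ⟨0, 0⟩, 0⟩ 0 0) (.pos 87 .mp ⟨325884269, 0, 0, 0, 0, 753023952, 0, 0, 0, ⟨0, 0⟩, 0⟩ 0 0)) (.pos 87 .mp ⟨327306522, 0, 0, 0, 0, 768363150,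 0, 0, 0, ⟨0, 0⟩, 0⟩ 0 0)) (.pos 87 .mp ⟨337536645, 0, 0, 0, 0, 776871184, 0, 0, 0, ⟨0, 0⟩, 0⟩ 0 0))) (.pos 50 .mp ⟨323881202, 0, 0, 0, 0, 627599238, 0, 0, 0, ⟨0, 0⟩, 0⟩ 0 0)) (.pos 51 .mp ⟨700665132, 0, 0, 0, 0, 0, 0, 0, 0, ⟨0, 0⟩, 0⟩ 0 0)) (.pos 27 .mp ⟨327784531, 0, 0, 0, 0, 0, 0, 0, 0, ⟨0, 0⟩, 0⟩ 0 0))) (.pos 27 .mp ⟨348776638, 0, 0, 0, 0, 684142495, 0, 0, 0, ⟨0, 0⟩, 0⟩ 0 0)) (.pos 27 .mp ⟨0, 0, 0, 0, 0, 0, 0, 0, 0, ⟨0, 0⟩, 0⟩ 0 0)) (.pos 28 .mp ⟨710674615, 0, 0, 0, 0, 0, 0, 0, 0, ⟨0, 0⟩, 0⟩ 0 0))) (.cut .d (-32768) (.cut .l 1416742 (.cut .v 17039360 (.cut .s 14770176 (.pos 27 .mp ⟨324172838, 0, 0, 0, 0, 900910398, 0, 0, 0, ⟨0, 0⟩, 0⟩ 0 0) (.pos 27 .mp ⟨330150493,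 0, 0, 0, 0, 941269759, 0, 0, 0, ⟨0, 0⟩, 0⟩ 0 0)) (.pos 28 .mp ⟨833788884, 0, 0, 0, 0, 0, 0, 0, 0, ⟨0, 0⟩, 0⟩ 0 0)) (.cut .v 17039360 (.pos 27 .mp ⟨254758380, 0, 0, 0, 0, 1018793607, 0, 0, 0, ⟨0, 0⟩, 0⟩ 0 0) (.cut .s 14770176 (.pos 28 .mp ⟨414188892, 0, 0, 0, 0, 702408999, 0, 0, 0, ⟨0, 0⟩, 0⟩ 0 0) (.pos 28 .mp ⟨423763277, 0, 0, 0, 0, 731722054, 0, 0, 0, ⟨0, 0⟩, 0⟩ 0 0)))) (.cut .v 17039360 (.cut .l 1416742 (.cut .l 913425 (.cut .d (-16384) (.cut .s 14770176 (.cut .s 14749696 (.pos 27 .mp ⟨332773469, 0, 0, 0, 0, 847125062, 0, 0, 0, ⟨0, 0⟩, 0⟩ 0 0) (.pos 27 .mp ⟨337486391, 0, 0, 0, 0, 860812853, 0, 0, 0, ⟨0, 0⟩, 0⟩ 0 0)) (.pos 27 .mp ⟨329421987, 0, 0, 0, 0, 920044485,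 0, 0, 0, ⟨0, 0⟩, 0⟩ 0 0)) (.cut .s 14770176 (.cut .d (-8192) (.cut .d (-12288) (.pos 27 .mp ⟨347087830, 0, 0, 0, 0, 798261452, 0, 0, 0, ⟨0, 0⟩, 0⟩ 0 0) (.pos 27 .mp ⟨338744289, 0, 0, 0, 0, 776122822, 0, 0, 0, ⟨0, 0⟩, 0⟩ 0 0)) (.pos 27 .mp ⟨333607938, 0, 0, 0, 0, 0, 0, 0, 0, ⟨0, 0⟩, 0⟩ 0 0)) (.pos 27 .mp ⟨358007018, 0, 0, 0, 0, 786411111, 0, 0, 0, ⟨0, 0⟩, 0⟩ 0 0))) (.pos 27 .mp ⟨357601772, 0, 0, 0, 0, 747224810, 0, 0, 0, ⟨0, 0⟩, 0⟩ 0 0)) (.pos 27 .mp ⟨0, 0, 0, 0, 0, 0, 0, 0, 0, ⟨0, 0⟩, 0⟩ 0 0)) (.pos 28 .mp ⟨754443755, 0, 0, 0, 0, 0, 0, 0, 0, ⟨0, 0⟩, 0⟩ 0 0)))) (.pos 26 .mp ⟨781800740, 0, 0, 0, 0, 0, 0, 0, 0, ⟨0, 0⟩, 0⟩ 0 0)))) (.pos 24 .mp ⟨833083954, 0, 0, 0,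 0, 0, 0, 0, 0, ⟨0, 0⟩, 0⟩ 0 0))))) (.pos 22 .mp ⟨1362572095, 0, 0, 0, 0, 0, 0, 0, 0, ⟨0, 0⟩, 0⟩ 0 0))) (.void 20 ⟨100000, 0, 0, 0, 0, 0, 0, 0, 0, ⟨0, 0⟩, 0⟩ 0 0)))) (.void 18 ⟨100000, 0, 0, 0, 0, 0, 0, 0, 0, ⟨0, 0⟩, 0⟩ 0 0))) (.void 45 ⟨100000, 0, 0, 0, 0, 0, 0, 0, 0, ⟨0, 0⟩, 0⟩ 0 0)) (.void 60 ⟨100000, 0, 0, 0, 0, 0, 0, 0, 0, ⟨0, 0⟩, 0⟩ 0 0)) (.void 83 ⟨91888, 0, 0, 8112, 0, 0, 0, 0, 0, ⟨0, 0⟩, 0⟩ 0 0))) (.cut .v 16777216 (.cut .v 8388608 (.cut .v 4194304 (.cut .v 2097152 (.cut .v 1048576 (.pos 98 .pm ⟨0, 0, 22483613, 0, 0, 0, 0, 0, 0, ⟨0, 0⟩, 0⟩ 0 0) (.pos 99 .pm ⟨0, 0, 26476214, 0, 0, 0, 0, 0, 0, ⟨0, 0⟩, 0⟩ 0 0)) (.pos 66 .pm ⟨0, 0, 31138169, 0, 0, 0, 0, 0,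 0, ⟨0, 0⟩, 0⟩ 0 0)) (.pos 5 .pm ⟨0, 0, 56787538, 0, 0, 0, 0, 0, 0, ⟨0, 0⟩, 0⟩ 0 0)) (.pos 3 .pm ⟨0, 0, 0, 0, 0, 0, 0, 0, 0, ⟨0, 0⟩, 0⟩ 0 0)) (.cut .v 268435456 (.cut .v 67108864 (.cut .d 1328514 (.cut .v 33554432 (.cut .d 664257 (.cut .d 332128 (.cut .v 25165824 (.cut .v 20971520 (.pos 19 .pp ⟨511540252, 0, 0, 0, 0, 0, 0, 0, 0, ⟨0, 0⟩, 0⟩ 0 0) (.pos 20 .pp ⟨918991399, 0, 0, 0, 0, 0, 0, 0, 0, ⟨0, 0⟩, 0⟩ 0 0)) (.pos 18 .pp ⟨1565230105, 0, 0, 0, 0, 0, 0, 0, 0, ⟨0, 0⟩, 0⟩ 0 0)) (.pos 16 .pp ⟨426083327, 0, 0, 0, 0, 0, 0, 0, 0, ⟨0, 0⟩, 0⟩ 0 0)) (.pos 16 .pp ⟨0, 0, 0, 0, 0, 0, 0, 0, 0, ⟨0, 0⟩, 0⟩ 0 0)) (.cut .d 664257 (.cut .d 332128 (.pos 45 .pp ⟨6387984357, 0, 0, 0,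 0, 0, 0, 0, 0, ⟨0, 0⟩, 0⟩ 0 0) (.cut .v 50331648 (.cut .v 41943040 (.pos 48 .pp ⟨1774431304, 0, 0, 0, 0, 0, 0, 0, 0, ⟨0, 0⟩, 0⟩ 0 0) (.pos 49 .pp ⟨2925520370, 0, 0, 0, 0, 0, 0, 0, 0, ⟨0, 0⟩, 0⟩ 0 0)) (.cut .d 498192 (.pos 47 .pp ⟨7746970850, 0, 0, 0, 0, 0, 0, 0, 0, ⟨0, 0⟩, 0⟩ 0 0) (.cut .v 58720256 (.pos 100 .pp ⟨4031015036, 0, 0, 0, 0, 0, 0, 0, 0, ⟨0, 0⟩, 0⟩ 0 0) (.pos 101 .pp ⟨5309317439, 2040764626, 0, 0, 0, 0, 0, 0, 0, ⟨0, 0⟩, 0⟩ 0 0))))) (.cut .v 50331648 (.pos 46 .pp ⟨0, 0, 0, 0, 0, 0, 0, 0, 0, ⟨0, 0⟩, 0⟩ 0 0) (.cut .v 58720256 (.pos 100 .pp ⟨2692826288, 0, 0, 0, 0, 0, 0, 0, 0, ⟨0, 0⟩, 0⟩ 0 0) (.pos 101 .pp ⟨3992834429, 1234773297, 0, 0, 0, 0, 0, 0, 0, ⟨0,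 0⟩, 0⟩ 0 0))))) (.pos 44 .pp ⟨0, 0, 0, 0, 0, 0, 0, 0, 0, ⟨0, 0⟩, 0⟩ 0 0)) (.void 60 ⟨34418, 65582, 0, 0, 0, 0, 0, 0, 0, ⟨0, 0⟩, 0⟩ 0 0)) (.void 83 ⟨0, 0, 0, 100000, 0, 0, 0, 0, 0, ⟨0, 0⟩, 0⟩ 0 0)))),
    by decide +kernel⟩

def covers24 : cell.Covers table row24.1 :=
  ⟨(.cut .d 0 (.cut .v 16777216 (.cut .v 8388608 (.void 2 ⟨0, 0, 100000, 0, 0, 0, 0, 0, 0, ⟨0, 0⟩, 0⟩ 0 0) (.cut .d (-8388608) (.void 3 ⟨100000, 0, 0, 0, 0, 0, 0, 0, 0, ⟨0, 0⟩, 0⟩ 0 0) (.cut .d (-4194304) (.void 3 ⟨100000, 0, 0, 0, 0, 0, 0, 0, 0, ⟨0, 0⟩, 0⟩ 0 0) (.cut .d (-2097152) (.void 3 ⟨100000, 0, 0, 0, 0, 0, 0, 0, 0, ⟨0, 0⟩, 0⟩ 0 0) (.cut .d (-1048576) (.void 3 ⟨0, 0, 0, 0, 0, 100000, 0, 0, 0,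 ⟨0, 0⟩, 0⟩ 0 0) (.cut .d (-524288) (.void 3 ⟨0, 0, 0, 0, 0, 100000, 0, 0, 0, ⟨0, 0⟩, 0⟩ 0 0) (.cut .d (-262144) (.void 3 ⟨0, 0, 0, 0, 0, 100000, 0, 0, 0, ⟨0, 0⟩, 0⟩ 0 0) (.cut .d (-131072) (.void 3 ⟨0, 0, 0, 0, 0, 100000, 0, 0, 0, ⟨0, 0⟩, 0⟩ 0 0) (.cut .l 1416742 (.cut .d (-65536) (.void 3 ⟨0, 0, 0, 0, 0, 100000, 0, 0, 0, ⟨0, 0⟩, 0⟩ 0 0) (.cut .s 14942208 (.pos 3 .mm ⟨0, 0, 0, 0, 0, 1614891571, 0, 0, 0, ⟨0, 0⟩, 0⟩ 0 0) (.cut .s 15007744 (.pos 3 .mm ⟨0, 0, 0, 0, 0, 1712322026, 0, 0, 0, ⟨0, 0⟩, 0⟩ 0 0) (.pos 3 .mm ⟨0, 0, 0, 0, 0, 1805114996, 0, 0, 0, ⟨0, 0⟩, 0⟩ 0 0)))) (.pos 3 .mm ⟨0, 0, 0, 0, 0, 1465957782, 0, 0, 0, ⟨0, 0⟩, 0⟩ 0 0)))))))))) (.cut .v 268435456 (.cut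 .v 67108864 (.cut .v 33554432 (.cut .d (-8388608) (.void 16 ⟨100000, 0, 0, 0, 0, 0, 0, 0, 0, ⟨0, 0⟩, 0⟩ 0 0) (.cut .d (-4194304) (.void 16 ⟨100000, 0, 0, 0, 0, 0, 0, 0, 0, ⟨0, 0⟩, 0⟩ 0 0) (.cut .v 25165824 (.cut .d (-2097152) (.void 17 ⟨100000, 0, 0, 0, 0, 0, 0, 0, 0, ⟨0, 0⟩, 0⟩ 0 0) (.cut .v 20971520 (.cut .d (-1048576) (.void 19 ⟨100000, 0, 0, 0, 0, 0, 0, 0, 0, ⟨0, 0⟩, 0⟩ 0 0) (.cut .v 18874368 (.cut .d (-524288) (.void 21 ⟨100000, 0, 0, 0, 0, 0, 0, 0, 0, ⟨0, 0⟩, 0⟩ 0 0) (.cut .d (-262144) (.void 21 ⟨100000, 0, 0, 0, 0, 0, 0, 0, 0, ⟨0, 0⟩, 0⟩ 0 0) (.cut .d (-131072) (.void 21 ⟨100000, 0, 0, 0, 0, 0, 0, 0, 0, ⟨0, 0⟩, 0⟩ 0 0) (.cut .v 17825792 (.cut .d (-65536)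 (.cut .l 1416742 (.void 23 ⟨100000, 0, 0, 0, 0, 0, 0, 0, 0, ⟨0, 0⟩, 0⟩ 0 0) (.pos 23 .mp ⟨382962046, 0, 0, 0, 0, 977828660, 0, 0, 0, ⟨0, 0⟩, 0⟩ 0 0)) (.cut .s 14942208 (.cut .v 17301504 (.cut .l 1416742 (.cut .d (-32768) (.cut .l 913425 (.void 25 ⟨0, 0, 0, 0, 0, 100000, 0, 0, 0, ⟨0, 0⟩, 0⟩ 0 0) (.pos 25 .mp ⟨358255135, 0, 0, 0, 0, 919052484, 0, 0, 0, ⟨0, 0⟩, 0⟩ 0 0)) (.cut .l 913425 (.cut .l 661767 (.cut .l 535938 (.cut .d (-16384) (.void 25 ⟨0, 0, 0, 0, 0, 100000, 0, 0, 0, ⟨0, 0⟩, 0⟩ 0 0) (.cut .d (-8192) (.cut .v 17039360 (.cut .v 16908288 (.cut .s 14876672 (.pos 50 .mp ⟨330041029, 0, 0, 0, 0, 964160009, 0, 0, 0, ⟨0, 0⟩, 0⟩ 0 0) (.cut .d (-12288) (.pos 50 .mp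 ⟨329176815, 0, 0, 0, 0, 5985079766, 0, 0, 0, ⟨0, 0⟩, 0⟩ 0 0) (.cut .d (-10240) (.pos 50 .mp ⟨356261334, 0, 0, 0, 0, 1002036722, 0, 0, 0, ⟨0, 0⟩, 0⟩ 0 0) (.pos 50 .mp ⟨358492944, 0, 0, 0, 0, 0, 0, 0, 0, ⟨0, 0⟩, 0⟩ 0 0)))) (.pos 51 .mp ⟨872207005, 0, 0, 0, 0, 0, 0, 0, 0, ⟨0, 0⟩, 0⟩ 0 0)) (.pos 28 .mp ⟨897975379, 0, 0, 0, 0, 0, 0, 0, 0, ⟨0, 0⟩, 0⟩ 0 0)) (.pos 25 .mp ⟨373384174, 0, 0, 0, 0, 0, 0, 0, 0, ⟨0, 0⟩, 0⟩ 0 0))) (.pos 25 .mp ⟨394904844, 0, 0, 0, 0, 767616697, 0, 0, 0, ⟨0, 0⟩, 0⟩ 0 0)) (.pos 25 .mp ⟨388157656, 0, 0, 0, 0, 779518067, 0, 0, 0, ⟨0, 0⟩, 0⟩ 0 0)) (.pos 25 .mp ⟨374739754, 0, 0, 0, 0, 803185914, 0, 0, 0, ⟨0, 0⟩, 0⟩ 0 0))) (.pos 25 .mp ⟨410539436, 0,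 0, 0, 0, 752304401, 0, 0, 0, ⟨0, 0⟩, 0⟩ 0 0)) (.pos 26 .mp ⟨879437695, 0, 0, 0, 0, 0, 0, 0, 0, ⟨0, 0⟩, 0⟩ 0 0)) (.cut .d (-32768) (.pos 23 .mp ⟨456825633, 0, 0, 0, 0, 11026962495, 0, 0, 0, ⟨0, 0⟩, 0⟩ 0 0) (.cut .d (-16384) (.pos 23 .mp ⟨418889604, 0, 0, 0, 0, 11107828219, 0, 0, 0, ⟨0, 0⟩, 0⟩ 0 0) (.cut .d (-8192) (.cut .d (-12288) (.pos 23 .mp ⟨409442103, 0, 0, 0, 0, 11127966833, 0, 0, 0, ⟨0, 0⟩, 0⟩ 0 0) (.cut .v 17301504 (.cut .v 17039360 (.cut .v 16908288 (.cut .v 16842752 (.pos 86 .mp ⟨0, 0, 0, 0, 0, 1695278517, 0, 0, 0, ⟨0, 0⟩, 0⟩ 0 0) (.cut .d (-10240) (.cut .s 15007744 (.cut .s 14974976 (.cut .s 14958592 (.pos 87 .mp ⟨362929096, 0, 0, 0, 0, 1011089634, 0,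 0, 0, ⟨0, 0⟩, 0⟩ 0 0) (.pos 87 .mp ⟨364072522, 0, 0, 0, 0, 1029866819, 0, 0, 0, ⟨0, 0⟩, 0⟩ 0 0)) (.pos 87 .mp ⟨366170500, 0, 0, 0, 0, 1061821195, 0, 0, 0, ⟨0, 0⟩, 0⟩ 0 0)) (.pos 87 .mp ⟨370587137, 0, 0, 0, 0, 17070591659, 0, 0, 0, ⟨0, 0⟩, 0⟩ 0 0)) (.pos 87 .mp ⟨370991467, 0, 0, 0, 0, 966959155, 0, 0, 0, ⟨0, 0⟩, 0⟩ 0 0))) (.pos 51 .mp ⟨964417030, 0, 0, 0, 0, 0, 0, 0, 0, ⟨0, 0⟩, 0⟩ 0 0)) (.pos 28 .mp ⟨5740006576, 0, 0, 0, 0, 0, 0, 0, 0, ⟨0, 0⟩, 0⟩ 0 0)) (.pos 26 .mp ⟨5864847710, 0, 0, 0, 0, 0, 0, 0, 0, ⟨0, 0⟩, 0⟩ 0 0))) (.pos 23 .mp ⟨419818718, 0, 0, 0, 0, 0, 0, 0, 0, ⟨0, 0⟩, 0⟩ 0 0)))))) (.pos 24 .mp ⟨1030315133, 0, 0, 0, 0, 0, 0, 0, 0, ⟨0, 0⟩, 0⟩ 0 0))))) (.pos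 22 .mp ⟨1654920369, 0, 0, 0, 0, 0, 0, 0, 0, ⟨0, 0⟩, 0⟩ 0 0))) (.void 20 ⟨100000, 0, 0, 0, 0, 0, 0, 0, 0, ⟨0, 0⟩, 0⟩ 0 0))) (.void 18 ⟨100000, 0, 0, 0, 0, 0, 0, 0, 0, ⟨0, 0⟩, 0⟩ 0 0)))) (.void 45 ⟨100000, 0, 0, 0, 0, 0, 0, 0, 0, ⟨0, 0⟩, 0⟩ 0 0)) (.void 60 ⟨100000, 0, 0, 0, 0, 0, 0, 0, 0, ⟨0, 0⟩, 0⟩ 0 0)) (.void 83 ⟨91756, 0, 0, 8244, 0, 0, 0, 0, 0, ⟨0, 0⟩, 0⟩ 0 0))) (.cut .v 16777216 (.cut .v 8388608 (.cut .v 4194304 (.cut .v 2097152 (.cut .v 1048576 (.cut .v 524288 (.pos 108 .pm ⟨0, 0, 25454118, 0, 0, 0, 0, 0, 0, ⟨0, 0⟩, 0⟩ 0 0) (.pos 109 .pm ⟨0, 0, 33133757, 0, 0, 0, 0, 0, 0, ⟨0, 0⟩, 0⟩ 0 0)) (.pos 99 .pm ⟨0, 0, 41402336, 0, 0, 0, 0, 0, 0, ⟨0, 0⟩, 0⟩ 0 0)) (.pos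 66 .pm ⟨0, 0, 55095280, 0, 0, 0, 0, 0, 0, ⟨0, 0⟩, 0⟩ 0 0)) (.pos 5 .pm ⟨0, 0, 122782331, 0, 0, 0, 0, 0, 0, ⟨0, 0⟩, 0⟩ 0 0)) (.pos 3 .pm ⟨0, 0, 0, 0, 0, 0, 0, 0, 0, ⟨0, 0⟩, 0⟩ 0 0)) (.cut .v 268435456 (.cut .v 67108864 (.cut .d 1113533 (.cut .v 33554432 (.cut .d 556766 (.cut .d 278383 (.cut .v 25165824 (.cut .v 20971520 (.pos 19 .pp ⟨572163802, 0, 0, 0, 0, 0, 0, 0, 0, ⟨0, 0⟩, 0⟩ 0 0) (.pos 20 .pp ⟨1115601508, 0, 0, 0, 0, 0, 0, 0, 0, ⟨0, 0⟩, 0⟩ 0 0)) (.pos 18 .pp ⟨1858061703, 0, 0, 0, 0, 0, 0, 0, 0, ⟨0, 0⟩, 0⟩ 0 0)) (.pos 16 .pp ⟨482558858, 0, 0, 0, 0, 0, 0, 0, 0, ⟨0, 0⟩, 0⟩ 0 0)) (.pos 16 .pp ⟨0, 0, 0, 0, 0, 0, 0, 0, 0, ⟨0, 0⟩, 0⟩ 0 0)) (.cut .d 556766 (.cut .d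 278383 (.pos 45 .pp ⟨29422182354, 0, 0, 0, 0, 0, 0, 0, 0, ⟨0, 0⟩, 0⟩ 0 0) (.cut .v 50331648 (.cut .v 41943040 (.pos 48 .pp ⟨2154193596, 0, 0, 0, 0, 0, 0, 0, 0, ⟨0, 0⟩, 0⟩ 0 0) (.pos 49 .pp ⟨3500704574, 0, 0, 0, 0, 0, 0, 0, 0, ⟨0, 0⟩, 0⟩ 0 0)) (.cut .v 58720256 (.pos 100 .pp ⟨5217922237, 0, 0, 0, 0, 0, 0, 0, 0, ⟨0, 0⟩, 0⟩ 0 0) (.pos 101 .pp ⟨7259194715, 1708575970, 0, 0, 0, 0, 0, 0, 0, ⟨0, 0⟩, 0⟩ 0 0)))) (.cut .v 50331648 (.pos 46 .pp ⟨0, 0, 0, 0, 0, 0, 0, 0, 0, ⟨0, 0⟩, 0⟩ 0 0) (.cut .v 58720256 (.pos 100 .pp ⟨3288227266, 0, 0, 0, 0, 0, 0, 0, 0, ⟨0, 0⟩, 0⟩ 0 0) (.pos 101 .pp ⟨4916995157, 1662676514, 0, 0, 0, 0, 0, 0, 0, ⟨0, 0⟩, 0⟩ 0 0))))) (.pos 44 .pp ⟨0, 0, 0,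 0, 0, 0, 0, 0, 0, ⟨0, 0⟩, 0⟩ 0 0)) (.void 60 ⟨34292, 65708, 0, 0, 0, 0, 0, 0, 0, ⟨0, 0⟩, 0⟩ 0 0)) (.void 83 ⟨0, 0, 0, 100000, 0, 0, 0, 0, 0, ⟨0, 0⟩, 0⟩ 0 0)))),
    by decide +kernel⟩

def covers25 : cell.Covers table row25.1 :=
  ⟨(.cut .d 0 (.cut .v 16777216 (.cut .v 8388608 (.void 2 ⟨0, 0, 100000, 0, 0, 0, 0, 0, 0, ⟨0, 0⟩, 0⟩ 0 0) (.cut .d (-8388608) (.void 3 ⟨100000, 0, 0, 0, 0, 0, 0, 0, 0, ⟨0, 0⟩, 0⟩ 0 0) (.cut .d (-4194304) (.void 3 ⟨100000, 0, 0, 0, 0, 0, 0, 0, 0, ⟨0, 0⟩, 0⟩ 0 0) (.cut .d (-2097152) (.void 3 ⟨100000, 0, 0, 0, 0, 0, 0, 0, 0, ⟨0, 0⟩, 0⟩ 0 0) (.cut .d (-1048576) (.void 3 ⟨71479, 0, 28521, 0, 0, 0, 0, 0, 0, ⟨0, 0⟩, 0⟩ 0 0) (.cut .d (-524288)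 (.void 3 ⟨0, 0, 0, 0, 0, 100000, 0, 0, 0, ⟨0, 0⟩, 0⟩ 0 0) (.cut .s 15171584 (.cut .d (-262144) (.void 3 ⟨0, 0, 0, 0, 0, 100000, 0, 0, 0, ⟨0, 0⟩, 0⟩ 0 0) (.cut .d (-131072) (.void 3 ⟨0, 0, 0, 0, 0, 100000, 0, 0, 0, ⟨0, 0⟩, 0⟩ 0 0) (.pos 3 .mm ⟨0, 0, 0, 0, 0, 1965274819, 0, 0, 0, ⟨0, 0⟩, 0⟩ 0 0))) (.pos 3 .mm ⟨0, 0, 0, 0, 0, 2415880213, 0, 0, 0, ⟨0, 0⟩, 0⟩ 0 0)))))))) (.cut .v 268435456 (.cut .v 67108864 (.cut .v 33554432 (.cut .d (-8388608) (.void 16 ⟨100000, 0, 0, 0, 0, 0, 0, 0, 0, ⟨0, 0⟩, 0⟩ 0 0) (.cut .d (-4194304) (.void 16 ⟨100000, 0, 0, 0, 0, 0, 0, 0, 0, ⟨0, 0⟩, 0⟩ 0 0) (.cut .v 25165824 (.cut .d (-2097152) (.void 17 ⟨100000, 0, 0, 0, 0, 0, 0, 0, 0, ⟨0, 0⟩,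 0⟩ 0 0) (.cut .v 20971520 (.cut .d (-1048576) (.void 19 ⟨100000, 0, 0, 0, 0, 0, 0, 0, 0, ⟨0, 0⟩, 0⟩ 0 0) (.cut .v 18874368 (.cut .d (-524288) (.void 21 ⟨100000, 0, 0, 0, 0, 0, 0, 0, 0, ⟨0, 0⟩, 0⟩ 0 0) (.cut .v 17825792 (.cut .d (-262144) (.void 23 ⟨100000, 0, 0, 0, 0, 0, 0, 0, 0, ⟨0, 0⟩, 0⟩ 0 0) (.cut .s 15171584 (.cut .d (-131072) (.void 23 ⟨100000, 0, 0, 0, 0, 0, 0, 0, 0, ⟨0, 0⟩, 0⟩ 0 0) (.cut .d (-65536) (.void 23 ⟨0, 0, 0, 0, 0, 100000, 0, 0, 0, ⟨0, 0⟩, 0⟩ 0 0) (.cut .d (-32768) (.pos 23 .mp ⟨487200075, 0, 0, 0, 0, 23011079874, 0, 0, 0, ⟨0, 0⟩, 0⟩ 0 0) (.cut .d (-16384) (.pos 23 .mp ⟨442190709, 0, 0, 0, 0, 23107701419, 0, 0, 0, ⟨0, 0⟩, 0⟩ 0 0) (.cut .v 17301504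 (.cut .v 17039360 (.pos 27 .mp ⟨398860899, 0, 0, 0, 0, 1081209934, 0, 0, 0, ⟨0, 0⟩, 0⟩ 0 0) (.pos 28 .mp ⟨1021342304, 0, 0, 0, 0, 0, 0, 0, 0, ⟨0, 0⟩, 0⟩ 0 0)) (.pos 26 .mp ⟨11645936994, 0, 0, 0, 0, 0, 0, 0, 0, ⟨0, 0⟩, 0⟩ 0 0)))))) (.pos 23 .mp ⟨403138401, 0, 0, 0, 0, 1698414722, 0, 0, 0, ⟨0, 0⟩, 0⟩ 0 0))) (.pos 24 .mp ⟨12381066835, 0, 0, 0, 0, 0, 0, 0, 0, ⟨0, 0⟩, 0⟩ 0 0))) (.pos 22 .mp ⟨14047838173, 0, 0, 0, 0, 0, 0, 0, 0, ⟨0, 0⟩, 0⟩ 0 0))) (.void 20 ⟨100000, 0, 0, 0, 0, 0, 0, 0, 0, ⟨0, 0⟩, 0⟩ 0 0))) (.void 18 ⟨100000, 0, 0, 0, 0, 0, 0, 0, 0, ⟨0, 0⟩, 0⟩ 0 0)))) (.void 45 ⟨100000, 0, 0, 0, 0, 0, 0, 0, 0, ⟨0, 0⟩, 0⟩ 0 0)) (.void 60 ⟨100000, 0, 0, 0, 0, 0, 0, 0, 0,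 ⟨0, 0⟩, 0⟩ 0 0)) (.void 83 ⟨91658, 0, 0, 8342, 0, 0, 0, 0, 0, ⟨0, 0⟩, 0⟩ 0 0))) (.cut .v 16777216 (.cut .v 8388608 (.cut .v 4194304 (.cut .v 2097152 (.cut .v 1048576 (.cut .v 524288 (.pos 108 .pm ⟨0, 0, 29242200, 0, 0, 0, 0, 0, 0, ⟨0, 0⟩, 0⟩ 0 0) (.pos 109 .pm ⟨0, 0, 42350466, 0, 0, 0, 0, 0, 0, ⟨0, 0⟩, 0⟩ 0 0)) (.pos 99 .pm ⟨0, 0, 56461035, 0, 0, 0, 0, 0, 0, ⟨0, 0⟩, 0⟩ 0 0)) (.pos 66 .pm ⟨0, 0, 85447228, 0, 0, 0, 0, 0, 0, ⟨0, 0⟩, 0⟩ 0 0)) (.pos 5 .pm ⟨0, 0, 201547152, 0, 0, 0, 0, 0, 0, ⟨0, 0⟩, 0⟩ 0 0)) (.pos 3 .pm ⟨0, 0, 0, 0, 0, 0, 0, 0, 0, ⟨0, 0⟩, 0⟩ 0 0)) (.cut .v 268435456 (.cut .v 67108864 (.cut .d 948278 (.cut .v 33554432 (.cut .d 474139 (.cut .v 25165824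 (.cut .v 20971520 (.pos 19 .pp ⟨585249120, 0, 0, 0, 0, 0, 0, 0, 0, ⟨0, 0⟩, 0⟩ 0 0) (.pos 20 .pp ⟨1201622993, 0, 0, 0, 0, 0, 0, 0, 0, ⟨0, 0⟩, 0⟩ 0 0)) (.pos 18 .pp ⟨1869023350, 0, 0, 0, 0, 0, 0, 0, 0, ⟨0, 0⟩, 0⟩ 0 0)) (.pos 16 .pp ⟨0, 0, 0, 0, 0, 0, 0, 0, 0, ⟨0, 0⟩, 0⟩ 0 0)) (.cut .d 474139 (.cut .d 237069 (.pos 45 .pp ⟨60245811564, 0, 0, 0, 0, 0, 0, 0, 0, ⟨0, 0⟩, 0⟩ 0 0) (.cut .v 50331648 (.pos 46 .pp ⟨3427828065, 0, 0, 0, 0, 0, 0, 0, 0, ⟨0, 0⟩, 0⟩ 0 0) (.cut .v 58720256 (.pos 100 .pp ⟨6167953754, 0, 0, 0, 0, 0, 0, 0, 0, ⟨0, 0⟩, 0⟩ 0 0) (.pos 101 .pp ⟨8709272304, 5035791213, 0, 0, 0, 0, 0, 0, 0, ⟨0, 0⟩, 0⟩ 0 0)))) (.cut .v 50331648 (.pos 46 .pp ⟨0, 0, 0, 0, 0,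 0, 0, 0, 0, ⟨0, 0⟩, 0⟩ 0 0) (.cut .v 58720256 (.pos 100 .pp ⟨3918243095, 0, 0, 0, 0, 0, 0, 0, 0, ⟨0, 0⟩, 0⟩ 0 0) (.pos 101 .pp ⟨5985222860, 2426061161, 0, 0, 0, 0, 0, 0, 0, ⟨0, 0⟩, 0⟩ 0 0))))) (.pos 44 .pp ⟨0, 0, 0, 0, 0, 0, 0, 0, 0, ⟨0, 0⟩, 0⟩ 0 0)) (.void 60 ⟨34209, 65791, 0, 0, 0, 0, 0, 0, 0, ⟨0, 0⟩, 0⟩ 0 0)) (.void 83 ⟨0, 0, 0, 100000, 0, 0, 0, 0, 0, ⟨0, 0⟩, 0⟩ 0 0)))),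
    by decide +kernel⟩

def covers26 : cell.Covers table row26.1 :=
  ⟨(.cut .d 0 (.cut .v 16777216 (.cut .v 8388608 (.void 2 ⟨0, 0, 100000, 0, 0, 0, 0, 0, 0, ⟨0, 0⟩, 0⟩ 0 0) (.cut .d (-8388608) (.void 3 ⟨100000, 0, 0, 0, 0, 0, 0, 0, 0, ⟨0, 0⟩, 0⟩ 0 0) (.cut .d (-4194304) (.void 3 ⟨100000, 0, 0, 0, 0, 0, 0, 0, 0, ⟨0, 0⟩, 0⟩ 0 0) (.cut .d (-2097152) (.void 3 ⟨100000, 0, 0, 0, 0, 0, 0, 0, 0, ⟨0, 0⟩, 0⟩ 0 0) (.cut .d (-1048576) (.void 3 ⟨71265, 0, 28735, 0, 0, 0, 0, 0, 0, ⟨0, 0⟩, 0⟩ 0 0) (.cut .d (-524288) (.void 3 ⟨0, 0, 0, 0, 0, 100000, 0, 0, 0, ⟨0, 0⟩, 0⟩ 0 0) (.pos 3 .mm ⟨0, 0, 0, 0, 0, 3124157494, 0, 0, 0, ⟨0, 0⟩, 0⟩ 0 0))))))) (.cut .v 268435456 (.cut .v 67108864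 (.cut .v 33554432 (.cut .d (-8388608) (.void 16 ⟨100000, 0, 0, 0, 0, 0, 0, 0, 0, ⟨0, 0⟩, 0⟩ 0 0) (.cut .d (-4194304) (.void 16 ⟨100000, 0, 0, 0, 0, 0, 0, 0, 0, ⟨0, 0⟩, 0⟩ 0 0) (.cut .v 25165824 (.cut .d (-2097152) (.void 17 ⟨100000, 0, 0, 0, 0, 0, 0, 0, 0, ⟨0, 0⟩, 0⟩ 0 0) (.cut .v 20971520 (.cut .d (-1048576) (.void 19 ⟨100000, 0, 0, 0, 0, 0, 0, 0, 0, ⟨0, 0⟩, 0⟩ 0 0) (.cut .v 18874368 (.cut .d (-524288) (.void 21 ⟨100000, 0, 0, 0, 0, 0, 0, 0, 0, ⟨0, 0⟩, 0⟩ 0 0) (.cut .s 15400960 (.pos 21 .mp ⟨471367734, 0, 0, 0, 0, 2325862371, 0, 0, 0, ⟨0, 0⟩, 0⟩ 0 0) (.cut .v 17825792 (.pos 23 .mp ⟨416343311, 0, 0, 0, 0, 2609231536, 0, 0, 0, ⟨0, 0⟩, 0⟩ 0 0) (.pos 24 .mp ⟨30912471987,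 0, 0, 0, 0, 0, 0, 0, 0, ⟨0, 0⟩, 0⟩ 0 0)))) (.pos 22 .mp ⟨33631978134, 0, 0, 0, 0, 0, 0, 0, 0, ⟨0, 0⟩, 0⟩ 0 0))) (.void 20 ⟨100000, 0, 0, 0, 0, 0, 0, 0, 0, ⟨0, 0⟩, 0⟩ 0 0))) (.void 18 ⟨100000, 0, 0, 0, 0, 0, 0, 0, 0, ⟨0, 0⟩, 0⟩ 0 0)))) (.void 45 ⟨100000, 0, 0, 0, 0, 0, 0, 0, 0, ⟨0, 0⟩, 0⟩ 0 0)) (.void 60 ⟨100000, 0, 0, 0, 0, 0, 0, 0, 0, ⟨0, 0⟩, 0⟩ 0 0)) (.void 83 ⟨91527, 0, 0, 8473, 0, 0, 0, 0, 0, ⟨0, 0⟩, 0⟩ 0 0))) (.cut .v 16777216 (.cut .v 8388608 (.cut .v 4194304 (.cut .v 2097152 (.cut .v 1048576 (.cut .v 524288 (.pos 108 .pm ⟨0, 0, 34448268, 0, 0, 0, 0, 0, 0, ⟨0, 0⟩, 0⟩ 0 0) (.pos 109 .pm ⟨0, 0, 53678854, 0, 0, 0, 0, 0, 0, ⟨0, 0⟩, 0⟩ 0 0)) (.pos 99 .pm ⟨0, 0,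 76499520, 0, 0, 0, 0, 0, 0, ⟨0, 0⟩, 0⟩ 0 0)) (.pos 66 .pm ⟨0, 0, 124621693, 0, 0, 0, 0, 0, 0, ⟨0, 0⟩, 0⟩ 0 0)) (.pos 5 .pm ⟨0, 0, 290569024, 0, 0, 0, 0, 0, 0, ⟨0, 0⟩, 0⟩ 0 0)) (.pos 3 .pm ⟨0, 0, 1695476, 0, 0, 0, 0, 0, 0, ⟨0, 0⟩, 0⟩ 0 0)) (.cut .v 268435456 (.cut .v 67108864 (.cut .d 828061 (.cut .v 33554432 (.cut .d 414030 (.cut .v 25165824 (.pos 17 .pp ⟨1017129357, 0, 0, 0, 0, 0, 0, 0, 0, ⟨0, 0⟩, 0⟩ 0 0) (.pos 18 .pp ⟨2192648249, 0, 0, 0, 0, 0, 0, 0, 0, ⟨0, 0⟩, 0⟩ 0 0)) (.pos 16 .pp ⟨0, 0, 0, 0, 0, 0, 0, 0, 0, ⟨0, 0⟩, 0⟩ 0 0)) (.cut .l 1416742 (.cut .d 414030 (.cut .d 207015 (.pos 45 .pp ⟨73886708590, 0, 0, 0, 0, 0, 0, 0, 0, ⟨0, 0⟩, 0⟩ 0 0) (.cut .v 50331648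 (.pos 46 .pp ⟨3948863107, 0, 0, 0, 0, 0, 0, 0, 0, ⟨0, 0⟩, 0⟩ 0 0) (.cut .v 58720256 (.pos 100 .pp ⟨6977737228, 0, 0, 0, 0, 0, 0, 0, 0, ⟨0, 0⟩, 0⟩ 0 0) (.pos 101 .pp ⟨10263421917, 5644326285, 0, 0, 0, 0, 0, 0, 0, ⟨0, 0⟩, 0⟩ 0 0)))) (.cut .v 50331648 (.pos 46 .pp ⟨0, 0, 0, 0, 0, 0, 0, 0, 0, ⟨0, 0⟩, 0⟩ 0 0) (.cut .v 58720256 (.pos 100 .pp ⟨4487306077, 0, 0, 0, 0, 0, 0, 0, 0, ⟨0, 0⟩, 0⟩ 0 0) (.pos 101 .pp ⟨6789487227, 3042683412, 0, 0, 0, 0, 0, 0, 0, ⟨0, 0⟩, 0⟩ 0 0)))) (.pos 45 .pp ⟨4096761209, 0, 0, 0, 0, 0, 0, 0, 0, ⟨0, 0⟩, 0⟩ 0 0))) (.pos 44 .pp ⟨0, 0, 0, 0, 0, 0, 0, 0, 0, ⟨0, 0⟩, 0⟩ 0 0)) (.void 60 ⟨71347, 16434, 0, 12219, 0, 0, 0, 0, 0, ⟨0, 0⟩, 0⟩ 0 0)) (.void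 83 ⟨0, 0, 0, 100000, 0, 0, 0, 0, 0, ⟨0, 0⟩, 0⟩ 0 0)))),
    by decide +kernel⟩

def covers27 : cell.Covers table row27.1 :=
  ⟨(.cut .d 0 (.cut .v 16777216 (.cut .v 8388608 (.void 2 ⟨0, 0, 100000, 0, 0, 0, 0, 0, 0, ⟨0, 0⟩, 0⟩ 0 0) (.cut .d (-8388608) (.void 3 ⟨100000, 0, 0, 0, 0, 0, 0, 0, 0, ⟨0, 0⟩, 0⟩ 0 0) (.cut .d (-4194304) (.void 3 ⟨100000, 0, 0, 0, 0, 0, 0, 0, 0, ⟨0, 0⟩, 0⟩ 0 0) (.cut .d (-2097152) (.void 3 ⟨100000, 0, 0, 0, 0, 0, 0, 0, 0, ⟨0, 0⟩, 0⟩ 0 0) (.cut .d (-1048576) (.void 3 ⟨100000, 0, 0, 0, 0, 0, 0, 0, 0, ⟨0, 0⟩, 0⟩ 0 0) (.cut .d (-524288) (.void 3 ⟨0, 0, 0, 0, 0, 100000, 0, 0, 0, ⟨0, 0⟩, 0⟩ 0 0) (.cut .v 12582912 (.cut .v 10485760 (.pos 8 .mm ⟨0,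 0, 96982321, 0, 0, 2325021168, 0, 0, 0, ⟨0, 0⟩, 0⟩ 0 0) (.pos 9 .mm ⟨0, 0, 0, 0, 0, 2943539398, 0, 0, 0, ⟨0, 0⟩, 0⟩ 0 0)) (.pos 7 .mm ⟨0, 0, 0, 0, 0, 4122282254, 0, 0, 0, ⟨0, 0⟩, 0⟩ 0 0)))))))) (.cut .v 268435456 (.cut .v 67108864 (.cut .v 33554432 (.cut .d (-8388608) (.void 16 ⟨100000, 0, 0, 0, 0, 0, 0, 0, 0, ⟨0, 0⟩, 0⟩ 0 0) (.cut .d (-4194304) (.void 16 ⟨100000, 0, 0, 0, 0, 0, 0, 0, 0, ⟨0, 0⟩, 0⟩ 0 0) (.cut .v 25165824 (.cut .d (-2097152) (.void 17 ⟨100000, 0, 0, 0, 0, 0, 0, 0, 0, ⟨0, 0⟩, 0⟩ 0 0) (.cut .v 20971520 (.cut .d (-1048576) (.void 19 ⟨100000, 0, 0, 0, 0, 0, 0, 0, 0, ⟨0, 0⟩, 0⟩ 0 0) (.cut .d (-524288) (.void 19 ⟨100000, 0, 0, 0, 0, 0, 0, 0, 0, ⟨0, 0⟩,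 0⟩ 0 0) (.cut .v 18874368 (.cut .s 15654912 (.pos 21 .mp ⟨495115775, 0, 0, 0, 0, 3208818091, 0, 0, 0, ⟨0, 0⟩, 0⟩ 0 0) (.pos 21 .mp ⟨497833699, 0, 0, 0, 0, 3823095961, 0, 0, 0, ⟨0, 0⟩, 0⟩ 0 0)) (.pos 22 .mp ⟨42099127178, 0, 0, 0, 0, 0, 0, 0, 0, ⟨0, 0⟩, 0⟩ 0 0)))) (.void 20 ⟨100000, 0, 0, 0, 0, 0, 0, 0, 0, ⟨0, 0⟩, 0⟩ 0 0))) (.void 18 ⟨100000, 0, 0, 0, 0, 0, 0, 0, 0, ⟨0, 0⟩, 0⟩ 0 0)))) (.void 45 ⟨100000, 0, 0, 0, 0, 0, 0, 0, 0, ⟨0, 0⟩, 0⟩ 0 0)) (.void 60 ⟨100000, 0, 0, 0, 0, 0, 0, 0, 0, ⟨0, 0⟩, 0⟩ 0 0)) (.void 83 ⟨91404, 0, 0, 8596, 0, 0, 0, 0, 0, ⟨0, 0⟩, 0⟩ 0 0))) (.cut .v 16777216 (.cut .v 8388608 (.cut .v 4194304 (.cut .v 2097152 (.cut .v 1048576 (.cut .v 524288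 (.pos 108 .pm ⟨0, 0, 44419528, 0, 0, 0, 0, 0, 0, ⟨0, 0⟩, 0⟩ 0 0) (.pos 109 .pm ⟨0, 0, 75391700, 0, 0, 0, 0, 0, 0, ⟨0, 0⟩, 0⟩ 0 0)) (.pos 99 .pm ⟨0, 0, 117325234, 0, 0, 0, 0, 0, 0, ⟨0, 0⟩, 0⟩ 0 0)) (.pos 66 .pm ⟨0, 0, 205501897, 0, 0, 0, 0, 0, 0, ⟨0, 0⟩, 0⟩ 0 0)) (.pos 5 .pm ⟨0, 0, 470882410, 0, 0, 0, 0, 0, 0, ⟨0, 0⟩, 0⟩ 0 0)) (.pos 3 .pm ⟨0, 0, 20477735, 0, 0, 0, 0, 0, 0, ⟨0, 0⟩, 0⟩ 0 0)) (.cut .v 268435456 (.cut .v 67108864 (.cut .d 672505 (.cut .v 33554432 (.cut .v 25165824 (.pos 17 .pp ⟨1120310025, 0, 0, 0, 0, 0, 0, 0, 0, ⟨0, 0⟩, 0⟩ 0 0) (.cut .d 336252 (.pos 18 .pp ⟨2676649177, 0, 0, 0, 0, 0, 0, 0, 0, ⟨0, 0⟩, 0⟩ 0 0) (.pos 18 .pp ⟨0, 0, 0, 0, 0, 0, 0, 0, 0,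 ⟨0, 0⟩, 0⟩ 0 0))) (.cut .l 1416742 (.cut .d 336252 (.cut .d 168126 (.pos 45 .pp ⟨13884685574, 0, 0, 0, 0, 0, 0, 0, 0, ⟨0, 0⟩, 0⟩ 0 0) (.cut .v 50331648 (.pos 46 .pp ⟨4792029963, 0, 0, 0, 0, 0, 0, 0, 0, ⟨0, 0⟩, 0⟩ 0 0) (.cut .v 58720256 (.pos 100 .pp ⟨8359405168, 0, 0, 0, 0, 0, 0, 0, 0, ⟨0, 0⟩, 0⟩ 0 0) (.pos 101 .pp ⟨12436419658, 5966569406, 0, 0, 0, 0, 0, 0, 0, ⟨0, 0⟩, 0⟩ 0 0)))) (.cut .v 50331648 (.pos 46 .pp ⟨0, 0, 0, 0, 0, 0, 0, 0, 0, ⟨0, 0⟩, 0⟩ 0 0) (.cut .v 58720256 (.pos 100 .pp ⟨5505580070, 0, 0, 0, 0, 0, 0, 0, 0, ⟨0, 0⟩, 0⟩ 0 0) (.pos 101 .pp ⟨8490342276, 4077978446, 0, 0, 0, 0, 0, 0, 0, ⟨0, 0⟩, 0⟩ 0 0)))) (.pos 45 .pp ⟨4940722491, 0, 0, 0, 0, 0, 0, 0,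 0, ⟨0, 0⟩, 0⟩ 0 0))) (.pos 44 .pp ⟨0, 0, 0, 0, 0, 0, 0, 0, 0, ⟨0, 0⟩, 0⟩ 0 0)) (.void 60 ⟨83638, 0, 0, 16362, 0, 0, 0, 0, 0, ⟨0, 0⟩, 0⟩ 0 0)) (.void 83 ⟨0, 0, 0, 100000, 0, 0, 0, 0, 0, ⟨0, 0⟩, 0⟩ 0 0)))),
    by decide +kernel⟩

def covers28 : cell.Covers table row28.1 :=
  ⟨(.cut .d 0 (.cut .v 16777216 (.cut .v 8388608 (.void 2 ⟨0, 0, 100000, 0, 0, 0, 0, 0, 0, ⟨0, 0⟩, 0⟩ 0 0) (.cut .d (-8388608) (.void 3 ⟨100000, 0, 0, 0, 0, 0, 0, 0, 0, ⟨0, 0⟩, 0⟩ 0 0) (.cut .d (-4194304) (.void 3 ⟨100000, 0, 0, 0, 0, 0, 0, 0, 0, ⟨0, 0⟩, 0⟩ 0 0) (.cut .d (-2097152) (.void 3 ⟨100000, 0, 0, 0, 0, 0, 0, 0, 0, ⟨0, 0⟩, 0⟩ 0 0) (.cut .d (-1048576) (.void 3 ⟨100000, 0, 0, 0, 0, 0, 0,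 0, 0, ⟨0, 0⟩, 0⟩ 0 0) (.cut .d (-524288) (.void 3 ⟨70717, 0, 29283, 0, 0, 0, 0, 0, 0, ⟨0, 0⟩, 0⟩ 0 0) (.cut .v 12582912 (.cut .v 10485760 (.cut .v 9437184 (.cut .s 15876096 (.pos 69 .mm ⟨0, 0, 110547905, 0, 0, 2350012928, 0, 0, 0, ⟨0, 0⟩, 0⟩ 0 0) (.pos 69 .mm ⟨0, 0, 151571958, 0, 0, 2702657155, 0, 0, 0, ⟨0, 0⟩, 0⟩ 0 0)) (.pos 70 .mm ⟨0, 0, 0, 0, 0, 3166762372, 0, 0, 0, ⟨0, 0⟩, 0⟩ 0 0)) (.pos 9 .mm ⟨0, 0, 0, 0, 0, 3849372552, 0, 0, 0, ⟨0, 0⟩, 0⟩ 0 0)) (.pos 7 .mm ⟨0, 0, 0, 0, 0, 5324320792, 0, 0, 0, ⟨0, 0⟩, 0⟩ 0 0)))))))) (.cut .v 268435456 (.cut .v 67108864 (.cut .v 33554432 (.cut .d (-8388608) (.void 16 ⟨100000, 0, 0, 0, 0, 0, 0, 0, 0, ⟨0, 0⟩, 0⟩ 0 0) (.cut .d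 (-4194304) (.void 16 ⟨100000, 0, 0, 0, 0, 0, 0, 0, 0, ⟨0, 0⟩, 0⟩ 0 0) (.cut .v 25165824 (.cut .d (-2097152) (.void 17 ⟨100000, 0, 0, 0, 0, 0, 0, 0, 0, ⟨0, 0⟩, 0⟩ 0 0) (.cut .d (-1048576) (.void 17 ⟨100000, 0, 0, 0, 0, 0, 0, 0, 0, ⟨0, 0⟩, 0⟩ 0 0) (.cut .v 20971520 (.cut .d (-524288) (.void 19 ⟨100000, 0, 0, 0, 0, 0, 0, 0, 0, ⟨0, 0⟩, 0⟩ 0 0) (.cut .v 18874368 (.cut .s 15876096 (.pos 21 .mp ⟨489231500, 0, 0, 0, 0, 4432098057, 0, 0, 0, ⟨0, 0⟩, 0⟩ 0 0) (.pos 21 .mp ⟨431477768, 0, 0, 0, 0, 5333324206, 0, 0, 0, ⟨0, 0⟩, 0⟩ 0 0)) (.pos 22 .mp ⟨52701165276, 0, 0, 0, 0, 0, 0, 0, 0, ⟨0, 0⟩, 0⟩ 0 0))) (.void 20 ⟨100000, 0, 0, 0, 0, 0, 0, 0, 0, ⟨0, 0⟩, 0⟩ 0 0)))) (.void 18 ⟨100000,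 0, 0, 0, 0, 0, 0, 0, 0, ⟨0, 0⟩, 0⟩ 0 0)))) (.void 45 ⟨100000, 0, 0, 0, 0, 0, 0, 0, 0, ⟨0, 0⟩, 0⟩ 0 0)) (.void 60 ⟨100000, 0, 0, 0, 0, 0, 0, 0, 0, ⟨0, 0⟩, 0⟩ 0 0)) (.void 83 ⟨91306, 0, 0, 8694, 0, 0, 0, 0, 0, ⟨0, 0⟩, 0⟩ 0 0))) (.cut .v 16777216 (.cut .v 8388608 (.cut .v 4194304 (.cut .v 2097152 (.cut .v 1048576 (.cut .v 524288 (.cut .v 262144 (.pos 110 .pm ⟨0, 0, 40994167, 0, 0, 0, 0, 0, 0, ⟨0, 0⟩, 0⟩ 0 0) (.pos 111 .pm ⟨0, 0, 69973621, 0, 0, 0, 0, 0, 0, ⟨0, 0⟩, 0⟩ 0 0)) (.pos 109 .pm ⟨0, 0, 108466107, 0, 0, 0, 0, 0, 0, ⟨0, 0⟩, 0⟩ 0 0)) (.pos 99 .pm ⟨0, 0, 179443942, 0, 0, 0, 0, 0, 0, ⟨0, 0⟩, 0⟩ 0 0)) (.pos 66 .pm ⟨0, 0, 323246716, 0, 0, 0, 0, 0, 0, ⟨0, 0⟩, 0⟩ 0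 0)) (.pos 5 .pm ⟨0, 0, 725195919, 0, 0, 0, 0, 0, 0, ⟨0, 0⟩, 0⟩ 0 0)) (.pos 3 .pm ⟨0, 0, 32140428, 0, 0, 0, 0, 0, 0, ⟨0, 0⟩, 0⟩ 0 0)) (.cut .v 268435456 (.cut .v 67108864 (.cut .d 531367 (.cut .v 33554432 (.cut .v 25165824 (.pos 17 .pp ⟨1154684339, 0, 0, 0, 0, 0, 0, 0, 0, ⟨0, 0⟩, 0⟩ 0 0) (.pos 18 .pp ⟨2748309724, 0, 0, 0, 0, 0, 0, 0, 0, ⟨0, 0⟩, 0⟩ 0 0)) (.cut .l 1416742 (.cut .d 265683 (.cut .d 132841 (.pos 45 .pp ⟨17199020301, 0, 0, 0, 0, 0, 0, 0, 0, ⟨0, 0⟩, 0⟩ 0 0) (.cut .v 50331648 (.pos 46 .pp ⟨5787419486, 0, 0, 0, 0, 0, 0, 0, 0, ⟨0, 0⟩, 0⟩ 0 0) (.cut .v 58720256 (.pos 100 .pp ⟨9876070228, 0, 0, 0, 0, 0, 0, 0, 0, ⟨0, 0⟩, 0⟩ 0 0) (.pos 101 .pp ⟨14851041911, 4144528880,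 0, 0, 0, 0, 0, 0, 0, ⟨0, 0⟩, 0⟩ 0 0)))) (.cut .v 50331648 (.pos 46 .pp ⟨0, 0, 0, 0, 0, 0, 0, 0, 0, ⟨0, 0⟩, 0⟩ 0 0) (.cut .v 58720256 (.pos 100 .pp ⟨6929669037, 0, 0, 0, 0, 0, 0, 0, 0, ⟨0, 0⟩, 0⟩ 0 0) (.pos 101 .pp ⟨10686476829, 5399785872, 0, 0, 0, 0, 0, 0, 0, ⟨0, 0⟩, 0⟩ 0 0)))) (.pos 45 .pp ⟨5954472869, 0, 0, 0, 0, 0, 0, 0, 0, ⟨0, 0⟩, 0⟩ 0 0))) (.pos 44 .pp ⟨0, 0, 0, 0, 0, 0, 0, 0, 0, ⟨0, 0⟩, 0⟩ 0 0)) (.void 60 ⟨83580, 0, 0, 16420, 0, 0, 0, 0, 0, ⟨0, 0⟩, 0⟩ 0 0)) (.void 83 ⟨0, 0, 0, 100000, 0, 0, 0, 0, 0, ⟨0, 0⟩, 0⟩ 0 0)))),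
    by decide +kernel⟩

def covers29 : cell.Covers table row29.1 :=
  ⟨(.cut .d 0 (.cut .v 16777216 (.cut .v 8388608 (.void 2 ⟨0, 0, 100000, 0, 0, 0, 0, 0, 0, ⟨0, 0⟩, 0⟩ 0 0) (.cut .d (-8388608) (.void 3 ⟨100000, 0, 0, 0, 0, 0, 0, 0, 0, ⟨0, 0⟩, 0⟩ 0 0) (.cut .d (-4194304) (.void 3 ⟨100000, 0, 0, 0, 0, 0, 0, 0, 0, ⟨0, 0⟩, 0⟩ 0 0) (.cut .d (-2097152) (.void 3 ⟨100000, 0, 0, 0, 0, 0, 0, 0, 0, ⟨0, 0⟩, 0⟩ 0 0) (.cut .v 12582912 (.cut .d (-1048576) (.void 6 ⟨100000, 0, 0, 0, 0, 0, 0, 0, 0, ⟨0, 0⟩, 0⟩ 0 0) (.cut .v 10485760 (.cut .d (-524288) (.void 8 ⟨100000, 0, 0, 0, 0, 0, 0, 0, 0, ⟨0, 0⟩, 0⟩ 0 0) (.cut .v 9437184 (.cut .s 16056320 (.pos 69 .mm ⟨0, 0, 192609385, 0,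 0, 3082959702, 0, 0, 0, ⟨0, 0⟩, 0⟩ 0 0) (.pos 69 .mm ⟨0, 0, 251037592, 0, 0, 3569891637, 0, 0, 0, ⟨0, 0⟩, 0⟩ 0 0)) (.pos 70 .mm ⟨0, 0, 0, 0, 0, 4233710960, 0, 0, 0, ⟨0, 0⟩, 0⟩ 0 0))) (.pos 9 .mm ⟨0, 0, 0, 0, 0, 6078893927, 0, 0, 0, ⟨0, 0⟩, 0⟩ 0 0))) (.pos 7 .mm ⟨0, 0, 0, 0, 0, 10768256357, 0, 0, 0, ⟨0, 0⟩, 0⟩ 0 0)))))) (.cut .v 268435456 (.cut .v 67108864 (.cut .v 33554432 (.cut .d (-8388608) (.void 16 ⟨100000, 0, 0, 0, 0, 0, 0, 0, 0, ⟨0, 0⟩, 0⟩ 0 0) (.cut .d (-4194304) (.void 16 ⟨100000, 0, 0, 0, 0, 0, 0, 0, 0, ⟨0, 0⟩, 0⟩ 0 0) (.cut .d (-2097152) (.void 16 ⟨100000, 0, 0, 0, 0, 0, 0, 0, 0, ⟨0, 0⟩, 0⟩ 0 0) (.cut .v 25165824 (.cut .d (-1048576) (.void 17 ⟨100000,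 0, 0, 0, 0, 0, 0, 0, 0, ⟨0, 0⟩, 0⟩ 0 0) (.pos 17 .mp ⟨1113631971, 0, 0, 0, 0, 11024530810, 0, 0, 0, ⟨0, 0⟩, 0⟩ 0 0)) (.void 18 ⟨100000, 0, 0, 0, 0, 0, 0, 0, 0, ⟨0, 0⟩, 0⟩ 0 0))))) (.void 45 ⟨100000, 0, 0, 0, 0, 0, 0, 0, 0, ⟨0, 0⟩, 0⟩ 0 0)) (.void 60 ⟨100000, 0, 0, 0, 0, 0, 0, 0, 0, ⟨0, 0⟩, 0⟩ 0 0)) (.void 83 ⟨91225, 0, 0, 8775, 0, 0, 0, 0, 0, ⟨0, 0⟩, 0⟩ 0 0))) (.cut .v 16777216 (.cut .v 8388608 (.cut .v 4194304 (.cut .v 2097152 (.cut .v 1048576 (.cut .v 524288 (.cut .v 262144 (.pos 110 .pm ⟨0, 0, 50916273, 0, 0, 0, 0, 0, 0, ⟨0, 0⟩, 0⟩ 0 0) (.pos 111 .pm ⟨0, 0, 96108927, 0, 0, 0, 0, 0, 0, ⟨0, 0⟩, 0⟩ 0 0)) (.pos 109 .pm ⟨0, 0, 157010606, 0, 0, 0, 0, 0, 0, ⟨0, 0⟩,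 0⟩ 0 0)) (.pos 99 .pm ⟨0, 0, 270614882, 0, 0, 0, 0, 0, 0, ⟨0, 0⟩, 0⟩ 0 0)) (.pos 66 .pm ⟨0, 0, 487947566, 0, 0, 0, 0, 0, 0, ⟨0, 0⟩, 0⟩ 0 0)) (.pos 5 .pm ⟨0, 0, 1082049892, 0, 0, 0, 0, 0, 0, ⟨0, 0⟩, 0⟩ 0 0)) (.pos 3 .pm ⟨0, 0, 98079621, 0, 0, 0, 0, 0, 0, ⟨0, 0⟩, 0⟩ 0 0)) (.cut .v 268435456 (.cut .v 67108864 (.cut .d 421582 (.cut .l 1416742 (.cut .v 33554432 (.cut .v 25165824 (.pos 17 .pp ⟨1113631971, 0, 0, 0, 0, 0, 0, 0, 0, ⟨0, 0⟩, 0⟩ 0 0) (.pos 18 .pp ⟨3488534152, 0, 0, 0, 0, 0, 0, 0, 0, ⟨0, 0⟩, 0⟩ 0 0)) (.cut .d 210791 (.cut .v 50331648 (.pos 46 .pp ⟨8787556835, 0, 0, 0, 0, 0, 0, 0, 0, ⟨0, 0⟩, 0⟩ 0 0) (.cut .v 58720256 (.pos 100 .pp ⟨13233189233, 0, 0, 0, 0, 0,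 0, 0, 0, ⟨0, 0⟩, 0⟩ 0 0) (.pos 101 .pp ⟨19178507709, 5481813523, 0, 0, 0, 0, 0, 0, 0, ⟨0, 0⟩, 0⟩ 0 0))) (.cut .v 50331648 (.pos 46 .pp ⟨0, 0, 0, 0, 0, 0, 0, 0, 0, ⟨0, 0⟩, 0⟩ 0 0) (.cut .v 58720256 (.pos 100 .pp ⟨8696519918, 0, 0, 0, 0, 0, 0, 0, 0, ⟨0, 0⟩, 0⟩ 0 0) (.pos 101 .pp ⟨13449088540, 7215811476, 0, 0, 0, 0, 0, 0, 0, ⟨0, 0⟩, 0⟩ 0 0))))) (.pos 44 .pp ⟨3426436703, 0, 0, 0, 0, 0, 0, 0, 0, ⟨0, 0⟩, 0⟩ 0 0)) (.pos 44 .pp ⟨0, 0, 0, 0, 0, 0, 0, 0, 0, ⟨0, 0⟩, 0⟩ 0 0)) (.void 60 ⟨83527, 0, 0, 16473, 0, 0, 0, 0, 0, ⟨0, 0⟩, 0⟩ 0 0)) (.void 83 ⟨0, 0, 0, 100000, 0, 0, 0, 0, 0, ⟨0, 0⟩, 0⟩ 0 0)))),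
    by decide +kernel⟩

def covers30 : cell.Covers table row30.1 :=
  ⟨(.cut .d 0 (.cut .v 16777216 (.cut .v 8388608 (.void 2 ⟨0, 0, 100000, 0, 0, 0, 0, 0, 0, ⟨0, 0⟩, 0⟩ 0 0) (.cut .d (-8388608) (.void 3 ⟨100000, 0, 0, 0, 0, 0, 0, 0, 0, ⟨0, 0⟩, 0⟩ 0 0) (.cut .d (-4194304) (.void 3 ⟨100000, 0, 0, 0, 0, 0, 0, 0, 0, ⟨0, 0⟩, 0⟩ 0 0) (.cut .v 12582912 (.cut .d (-2097152) (.void 6 ⟨100000, 0, 0, 0, 0, 0, 0, 0, 0, ⟨0, 0⟩, 0⟩ 0 0) (.cut .d (-1048576) (.void 6 ⟨100000, 0, 0, 0, 0, 0, 0, 0, 0, ⟨0, 0⟩, 0⟩ 0 0) (.cut .v 10485760 (.cut .d (-524288) (.void 8 ⟨100000, 0, 0, 0, 0, 0, 0, 0, 0, ⟨0, 0⟩, 0⟩ 0 0) (.cut .v 9437184 (.cut .d (-262144) (.void 69 ⟨0, 0, 100000, 0, 0, 0,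 0, 0, 0, ⟨0, 0⟩, 0⟩ 0 0) (.cut .s 16203776 (.pos 69 .mm ⟨0, 0, 314915353, 0, 0, 3676796277, 0, 0, 0, ⟨0, 0⟩, 0⟩ 0 0) (.pos 69 .mm ⟨0, 0, 396016605, 0, 0, 4272820091, 0, 0, 0, ⟨0, 0⟩, 0⟩ 0 0))) (.pos 70 .mm ⟨0, 0, 0, 0, 0, 5686284893, 0, 0, 0, ⟨0, 0⟩, 0⟩ 0 0))) (.pos 9 .mm ⟨0, 0, 0, 0, 0, 8146890260, 0, 0, 0, ⟨0, 0⟩, 0⟩ 0 0)))) (.pos 7 .mm ⟨0, 0, 0, 0, 0, 20980404478, 0, 0, 0, ⟨0, 0⟩, 0⟩ 0 0))))) (.cut .v 268435456 (.cut .v 67108864 (.cut .v 33554432 (.cut .d (-8388608) (.void 16 ⟨100000, 0, 0, 0, 0, 0, 0, 0, 0, ⟨0, 0⟩, 0⟩ 0 0) (.cut .d (-4194304) (.void 16 ⟨100000, 0, 0, 0, 0, 0, 0, 0, 0, ⟨0, 0⟩, 0⟩ 0 0) (.cut .d (-2097152) (.void 16 ⟨100000, 0, 0, 0, 0, 0, 0,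 0, 0, ⟨0, 0⟩, 0⟩ 0 0) (.pos 16 .mp ⟨2804015654, 0, 0, 0, 0, 25480871736, 0, 0, 0, ⟨0, 0⟩, 0⟩ 0 0)))) (.void 45 ⟨100000, 0, 0, 0, 0, 0, 0, 0, 0, ⟨0, 0⟩, 0⟩ 0 0)) (.void 60 ⟨100000, 0, 0, 0, 0, 0, 0, 0, 0, ⟨0, 0⟩, 0⟩ 0 0)) (.void 83 ⟨91160, 0, 0, 8840, 0, 0, 0, 0, 0, ⟨0, 0⟩, 0⟩ 0 0))) (.cut .v 16777216 (.cut .v 8388608 (.cut .v 4194304 (.cut .v 2097152 (.cut .v 1048576 (.cut .v 524288 (.cut .v 262144 (.cut .v 131072 (.pos 112 .pm ⟨0, 0, 44911233, 0, 0, 0, 0, 0, 0, ⟨0, 0⟩, 0⟩ 0 0) (.pos 113 .pm ⟨0, 0, 82998770, 0, 0, 0, 0, 0, 0, ⟨0, 0⟩, 0⟩ 0 0)) (.pos 111 .pm ⟨0, 0, 134583008, 0, 0, 0, 0, 0, 0, ⟨0, 0⟩, 0⟩ 0 0)) (.pos 109 .pm ⟨0, 0, 228474152, 0, 0, 0, 0, 0, 0, ⟨0,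 0⟩, 0⟩ 0 0)) (.pos 99 .pm ⟨0, 0, 397986698, 0, 0, 0, 0, 0, 0, ⟨0, 0⟩, 0⟩ 0 0)) (.pos 66 .pm ⟨0, 0, 729969710, 0, 0, 0, 0, 0, 0, ⟨0, 0⟩, 0⟩ 0 0)) (.pos 5 .pm ⟨0, 0, 1601526421, 0, 0, 0, 0, 0, 0, ⟨0, 0⟩, 0⟩ 0 0)) (.pos 3 .pm ⟨0, 0, 199706645, 0, 0, 0, 0, 0, 0, ⟨0, 0⟩, 0⟩ 0 0)) (.cut .v 268435456 (.cut .v 67108864 (.cut .d 332139 (.cut .v 33554432 (.pos 16 .pp ⟨2687700344, 0, 0, 0, 0, 0, 0, 0, 0, ⟨0, 0⟩, 0⟩ 0 0) (.cut .l 1416742 (.cut .d 166069 (.cut .v 50331648 (.pos 46 .pp ⟨11092126257, 0, 0, 0, 0, 0, 0, 0, 0, ⟨0, 0⟩, 0⟩ 0 0) (.pos 47 .pp ⟨22636823502, 4433695002, 0, 0, 0, 0, 0, 0, 0, ⟨0, 0⟩, 0⟩ 0 0)) (.cut .v 50331648 (.pos 46 .pp ⟨0, 0, 0, 0, 0, 0, 0, 0, 0, ⟨0,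 0⟩, 0⟩ 0 0) (.pos 47 .pp ⟨13949882547, 7999283146, 0, 0, 0, 0, 0, 0, 0, ⟨0, 0⟩, 0⟩ 0 0))) (.pos 45 .pp ⟨9274635944, 0, 0, 0, 0, 0, 0, 0, 0, ⟨0, 0⟩, 0⟩ 0 0))) (.pos 44 .pp ⟨0, 0, 0, 0, 0, 0, 0, 0, 0, ⟨0, 0⟩, 0⟩ 0 0)) (.void 60 ⟨83487, 0, 0, 16513, 0, 0, 0, 0, 0, ⟨0, 0⟩, 0⟩ 0 0)) (.void 83 ⟨0, 0, 0, 100000, 0, 0, 0, 0, 0, ⟨0, 0⟩, 0⟩ 0 0)))),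
    by decide +kernel⟩

def covers31 : cell.Covers table row31.1 :=
  ⟨(.cut .d 0 (.cut .v 16777216 (.cut .v 8388608 (.void 2 ⟨0, 0, 100000, 0, 0, 0, 0, 0, 0, ⟨0, 0⟩, 0⟩ 0 0) (.cut .d (-8388608) (.void 3 ⟨100000, 0, 0, 0, 0, 0, 0, 0, 0, ⟨0, 0⟩, 0⟩ 0 0) (.cut .d (-4194304) (.void 3 ⟨100000, 0, 0, 0, 0, 0, 0, 0, 0, ⟨0, 0⟩, 0⟩ 0 0) (.cut .d (-2097152) (.void 3 ⟨100000, 0, 0, 0, 0, 0, 0, 0, 0, ⟨0, 0⟩, 0⟩ 0 0) (.cut .v 12582912 (.cut .d (-1048576) (.void 6 ⟨100000, 0, 0, 0, 0, 0, 0, 0, 0, ⟨0, 0⟩, 0⟩ 0 0) (.cut .d (-524288) (.void 6 ⟨100000, 0, 0, 0, 0, 0, 0, 0, 0, ⟨0, 0⟩, 0⟩ 0 0) (.cut .v 10485760 (.cut .d (-262144) (.void 8 ⟨63321, 0, 36679, 0, 0, 0, 0, 0, 0, ⟨0, 0⟩,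 0⟩ 0 0) (.pos 8 .mm ⟨0, 0, 439047974, 0, 0, 4792588565, 0, 0, 0, ⟨0, 0⟩, 0⟩ 0 0)) (.pos 9 .mm ⟨0, 0, 0, 0, 0, 7256509735, 0, 0, 0, ⟨0, 0⟩, 0⟩ 0 0)))) (.pos 7 .mm ⟨0, 0, 0, 0, 0, 18274348013, 0, 0, 0, ⟨0, 0⟩, 0⟩ 0 0)))))) (.cut .v 268435456 (.cut .v 67108864 (.cut .v 33554432 (.cut .d (-8388608) (.void 16 ⟨100000, 0, 0, 0, 0, 0, 0, 0, 0, ⟨0, 0⟩, 0⟩ 0 0) (.cut .d (-4194304) (.void 16 ⟨100000, 0, 0, 0, 0, 0, 0, 0, 0, ⟨0, 0⟩, 0⟩ 0 0) (.cut .d (-2097152) (.void 16 ⟨100000, 0, 0, 0, 0, 0, 0, 0, 0, ⟨0, 0⟩, 0⟩ 0 0) (.pos 16 .mp ⟨3026602449, 0, 0, 0, 0, 32891649237, 0, 0, 0, ⟨0, 0⟩, 0⟩ 0 0)))) (.void 45 ⟨100000, 0, 0, 0, 0, 0, 0, 0, 0, ⟨0, 0⟩, 0⟩ 0 0)) (.void 60 ⟨100000,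 0, 0, 0, 0, 0, 0, 0, 0, ⟨0, 0⟩, 0⟩ 0 0)) (.void 83 ⟨91111, 0, 0, 8889, 0, 0, 0, 0, 0, ⟨0, 0⟩, 0⟩ 0 0))) (.cut .v 16777216 (.cut .v 8388608 (.cut .v 4194304 (.cut .v 2097152 (.cut .v 1048576 (.cut .v 524288 (.cut .v 262144 (.cut .v 131072 (.pos 112 .pm ⟨0, 0, 49190168, 0, 0, 0, 0, 0, 0, ⟨0, 0⟩, 0⟩ 0 0) (.pos 113 .pm ⟨0, 0, 92698106, 0, 0, 0, 0, 0, 0, ⟨0, 0⟩, 0⟩ 0 0)) (.pos 111 .pm ⟨0, 0, 151645591, 0, 0, 0, 0, 0, 0, ⟨0, 0⟩, 0⟩ 0 0)) (.pos 109 .pm ⟨0, 0, 258199809, 0, 0, 0, 0, 0, 0, ⟨0, 0⟩, 0⟩ 0 0)) (.pos 99 .pm ⟨0, 0, 458645643, 0, 0, 0, 0, 0, 0, ⟨0, 0⟩, 0⟩ 0 0)) (.pos 66 .pm ⟨0, 0, 890403491, 0, 0, 0, 0, 0, 0, ⟨0, 0⟩, 0⟩ 0 0)) (.pos 5 .pm ⟨0, 0, 2259900906, 0,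 0, 0, 0, 0, 0, ⟨0, 0⟩, 0⟩ 0 0)) (.pos 3 .pm ⟨0, 0, 332434381, 0, 0, 0, 0, 0, 0, ⟨0, 0⟩, 0⟩ 0 0)) (.cut .v 268435456 (.cut .v 67108864 (.cut .v 33554432 (.pos 16 .pp ⟨3026602449, 0, 0, 0, 0, 0, 0, 0, 0, ⟨0, 0⟩, 0⟩ 0 0) (.cut .d 261881 (.cut .v 50331648 (.pos 46 .pp ⟨10362758978, 0, 0, 0, 0, 0, 0, 0, 0, ⟨0, 0⟩, 0⟩ 0 0) (.cut .d 130940 (.pos 47 .pp ⟨39527374891, 0, 0, 0, 0, 0, 0, 0, 0, ⟨0, 0⟩, 0⟩ 0 0) (.pos 47 .pp ⟨18341333648, 10966522009, 0, 0, 0, 0, 0, 0, 0, ⟨0, 0⟩, 0⟩ 0 0))) (.pos 45 .pp ⟨0, 0, 0, 0, 0, 0, 0, 0, 0, ⟨0, 0⟩, 0⟩ 0 0))) (.void 60 ⟨83461, 0, 0, 16539, 0, 0, 0, 0, 0, ⟨0, 0⟩, 0⟩ 0 0)) (.void 83 ⟨0, 0, 0, 100000, 0, 0, 0, 0, 0, ⟨0, 0⟩, 0⟩ 0 0)))),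
    by decide +kernel⟩

def covers32 : cell.Covers table row32.1 :=
  ⟨(.cut .d 0 (.cut .v 16777216 (.cut .v 8388608 (.void 2 ⟨0, 0, 100000, 0, 0, 0, 0, 0, 0, ⟨0, 0⟩, 0⟩ 0 0) (.cut .d (-8388608) (.void 3 ⟨100149, 0, 0, 0, 0, 0, 0, 0, 0, ⟨0, 0⟩, 0⟩ 0 0) (.pos 3 .mm ⟨0, 0, 2910836057, 0, 0, 55824791402, 0, 0, 0, ⟨0, 0⟩, 0⟩ 0 0))) (.cut .v 4294967296 (.cut .v 268435456 (.cut .v 67108864 (.cut .d (-8388608) (.void 44 ⟨100000, 0, 0, 0, 0, 0, 0, 0, 0, ⟨0, 0⟩, 0⟩ 0 0) (.cut .v 33554432 (.pos 16 .mp ⟨0, 0, 0, 0, 0, 119197688020, 0, 0, 0, ⟨0, 0⟩, 0⟩ 0 0) (.void 45 ⟨100000, 0, 0, 0, 0, 0, 0, 0, 0, ⟨0, 0⟩, 0⟩ 0 0))) (.void 60 ⟨100000, 0, 0, 0, 0, 0, 0, 0, 0, ⟨0, 0⟩, 0⟩ 0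 0)) (.void 83 ⟨91071, 0, 0, 8929, 0, 0, 0, 0, 0, ⟨0, 0⟩, 0⟩ 0 0)) (.void 116 ⟨91071, 0, 0, 8929, 0, 0, 0, 0, 0, ⟨0, 0⟩, 0⟩ 0 0))) (.cut .v 16777216 (.cut .v 8388608 (.cut .v 4194304 (.cut .v 2097152 (.cut .v 1048576 (.cut .v 524288 (.cut .v 262144 (.cut .v 131072 (.pos 112 .pm ⟨0, 0, 61843779, 0, 0, 0, 0, 0, 0, ⟨0, 0⟩, 0⟩ 0 0) (.pos 113 .pm ⟨0, 0, 124942694, 0, 0, 0, 0, 0, 0, ⟨0, 0⟩, 0⟩ 0 0)) (.pos 111 .pm ⟨0, 0, 204972585, 0, 0, 0, 0, 0, 0, ⟨0, 0⟩, 0⟩ 0 0)) (.pos 109 .pm ⟨0, 0, 347537787, 0, 0, 0, 0, 0, 0, ⟨0, 0⟩, 0⟩ 0 0)) (.pos 99 .pm ⟨0, 0, 631121040, 0, 0, 0, 0, 0, 0, ⟨0, 0⟩, 0⟩ 0 0)) (.pos 66 .pm ⟨0, 0, 1182040575, 0, 0, 0, 0, 0, 0, ⟨0, 0⟩, 0⟩ 0 0)) (.pos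 5 .pm ⟨0, 0, 2200232527, 0, 0, 0, 0, 0, 0, ⟨0, 0⟩, 0⟩ 0 0)) (.pos 3 .pm ⟨0, 0, 2168442432, 0, 0, 0, 0, 0, 0, ⟨0, 0⟩, 0⟩ 0 0)) (.cut .v 4294967296 (.cut .v 268435456 (.cut .v 67108864 (.pos 44 .pp ⟨5790385578, 0, 0, 0, 0, 0, 0, 0, 0, ⟨0, 0⟩, 0⟩ 0 0) (.void 60 ⟨83434, 0, 0, 16566, 0, 0, 0, 0, 0, ⟨0, 0⟩, 0⟩ 0 0)) (.void 83 ⟨0, 0, 0, 100000, 0, 0, 0, 0, 0, ⟨0, 0⟩, 0⟩ 0 0)) (.void 116 ⟨0, 0, 0, 100000, 0, 0, 0, 0, 0, ⟨0, 0⟩, 0⟩ 0 0)))),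
    by decide +kernel⟩

def covers33 : cell.Covers table row33.1 :=
  ⟨(.cut .d 0 (.cut .v 16777216 (.cut .v 8388608 (.pos 2 .mm ⟨0, 0, 167772160000, 0, 0, 0, 0, 0, 0, ⟨0, 0⟩, 0⟩ 0 0) (.cut .d (-8388608) (.pos 3 .mm ⟨0, 0, 0, 0, 0, 167772160000, 0, 0, 0, ⟨0, 0⟩, 0⟩ 0 0) (.pos 3 .mm ⟨0, 0, 3892365240, 0, 0, 73058630672, 0, 0, 0, ⟨0, 0⟩, 0⟩ 0 0))) (.cut .v 4294967296 (.cut .v 268435456 (.cut .v 67108864 (.cut .d (-8388608) (.void 44 ⟨100000, 0, 0, 0, 0, 0, 0, 0, 0, ⟨0, 0⟩, 0⟩ 0 0) (.cut .v 33554432 (.pos 16 .mp ⟨0, 0, 0, 0, 0, 155665031101, 0, 0, 0, ⟨0, 0⟩, 0⟩ 0 0) (.void 45 ⟨100000, 0, 0, 0, 0, 0, 0, 0, 0, ⟨0, 0⟩, 0⟩ 0 0))) (.void 60 ⟨100000, 0, 0, 0, 0, 0, 0, 0,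 0, ⟨0, 0⟩, 0⟩ 0 0)) (.void 83 ⟨91038, 0, 0, 8962, 0, 0, 0, 0, 0, ⟨0, 0⟩, 0⟩ 0 0)) (.void 116 ⟨91038, 0, 0, 8962, 0, 0, 0, 0, 0, ⟨0, 0⟩, 0⟩ 0 0))) (.cut .v 16777216 (.cut .v 8388608 (.cut .v 4194304 (.cut .v 2097152 (.cut .v 1048576 (.cut .v 524288 (.cut .v 262144 (.cut .v 131072 (.cut .v 65536 (.pos 117 .pm ⟨0, 0, 52365261, 0, 0, 0, 0, 0, 0, ⟨0, 0⟩, 0⟩ 0 0) (.pos 118 .pm ⟨0, 0, 103231205, 0, 0, 0, 0, 0, 0, ⟨0, 0⟩, 0⟩ 0 0)) (.pos 113 .pm ⟨0, 0, 171679421, 0, 0, 0, 0, 0, 0, ⟨0, 0⟩, 0⟩ 0 0)) (.pos 111 .pm ⟨0, 0, 284861284, 0, 0, 0, 0, 0, 0, ⟨0, 0⟩, 0⟩ 0 0)) (.pos 109 .pm ⟨0, 0, 491939640, 0, 0, 0, 0, 0, 0, ⟨0, 0⟩, 0⟩ 0 0)) (.pos 99 .pm ⟨0, 0, 895175699, 0, 0, 0, 0,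 0, 0, ⟨0, 0⟩, 0⟩ 0 0)) (.pos 66 .pm ⟨0, 0, 1687113503, 0, 0, 0, 0, 0, 0, ⟨0, 0⟩, 0⟩ 0 0)) (.pos 5 .pm ⟨0, 0, 3143075525, 0, 0, 0, 0, 0, 0, ⟨0, 0⟩, 0⟩ 0 0)) (.pos 3 .pm ⟨0, 0, 3036222199, 0, 0, 0, 0, 0, 0, ⟨0, 0⟩, 0⟩ 0 0)) (.cut .v 4294967296 (.cut .v 268435456 (.cut .v 67108864 (.pos 44 .pp ⟨7634804945, 0, 0, 0, 0, 0, 0, 0, 0, ⟨0, 0⟩, 0⟩ 0 0) (.void 60 ⟨83414, 0, 0, 16586, 0, 0, 0, 0, 0, ⟨0, 0⟩, 0⟩ 0 0)) (.void 83 ⟨0, 0, 0, 100000, 0, 0, 0, 0, 0, ⟨0, 0⟩, 0⟩ 0 0)) (.void 116 ⟨0, 0, 0, 100000, 0, 0, 0, 0, 0, ⟨0, 0⟩, 0⟩ 0 0)))),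
    by decide +kernel⟩

def covers34 : cell.Covers table row34.1 :=
  ⟨(.cut .d 0 (.cut .v 16777216 (.cut .d (-8388608) (.void 1 ⟨0, 0, 0, 0, 0, 100000, 0, 0, 0, ⟨0, 0⟩, 0⟩ 0 0) (.cut .v 8388608 (.pos 2 .mm ⟨0, 0, 167772160000, 0, 0, 0, 0, 0, 0, ⟨0, 0⟩, 0⟩ 0 0) (.pos 3 .mm ⟨0, 0, 5157516209, 0, 0, 93557284594, 0, 0, 0, ⟨0, 0⟩, 0⟩ 0 0))) (.cut .v 4294967296 (.cut .v 268435456 (.cut .v 67108864 (.cut .d (-8388608) (.void 44 ⟨100000, 0, 0, 0, 0, 0, 0, 0, 0, ⟨0, 0⟩, 0⟩ 0 0) (.cut .v 33554432 (.pos 16 .mp ⟨64196424212, 0, 0, 0, 0, 103575735788, 0, 0, 0, ⟨0, 0⟩, 0⟩ 0 0) (.void 45 ⟨100000, 0, 0, 0, 0, 0, 0, 0, 0, ⟨0, 0⟩, 0⟩ 0 0))) (.void 60 ⟨100000, 0, 0, 0, 0, 0, 0,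 0, 0, ⟨0, 0⟩, 0⟩ 0 0)) (.void 83 ⟨91014, 0, 0, 8986, 0, 0, 0, 0, 0, ⟨0, 0⟩, 0⟩ 0 0)) (.void 116 ⟨91014, 0, 0, 8986, 0, 0, 0, 0, 0, ⟨0, 0⟩, 0⟩ 0 0))) (.cut .v 16777216 (.cut .v 8388608 (.cut .v 4194304 (.cut .v 2097152 (.cut .v 1048576 (.cut .v 524288 (.cut .v 262144 (.cut .v 131072 (.cut .v 65536 (.pos 117 .pm ⟨0, 0, 65104973, 0, 0, 0, 0, 0, 0, ⟨0, 0⟩, 0⟩ 0 0) (.pos 118 .pm ⟨0, 0, 136753944, 0, 0, 0, 0, 0, 0, ⟨0, 0⟩, 0⟩ 0 0)) (.pos 113 .pm ⟨0, 0, 232478824, 0, 0, 0, 0, 0, 0, ⟨0, 0⟩, 0⟩ 0 0)) (.pos 111 .pm ⟨0, 0, 392002851, 0, 0, 0, 0, 0, 0, ⟨0, 0⟩, 0⟩ 0 0)) (.pos 109 .pm ⟨0, 0, 687031457, 0, 0, 0, 0, 0, 0, ⟨0, 0⟩, 0⟩ 0 0)) (.pos 99 .pm ⟨0, 0, 1254136595, 0, 0,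 0, 0, 0, 0, ⟨0, 0⟩, 0⟩ 0 0)) (.pos 66 .pm ⟨0, 0, 2381993857, 0, 0, 0, 0, 0, 0, ⟨0, 0⟩, 0⟩ 0 0)) (.pos 5 .pm ⟨0, 0, 4463594901, 0, 0, 0, 0, 0, 0, ⟨0, 0⟩, 0⟩ 0 0)) (.pos 3 .pm ⟨0, 0, 4267333708, 0, 0, 0, 0, 0, 0, ⟨0, 0⟩, 0⟩ 0 0)) (.cut .v 4294967296 (.cut .v 268435456 (.cut .v 67108864 (.pos 44 .pp ⟨10338411390, 0, 0, 0, 0, 0, 0, 0, 0, ⟨0, 0⟩, 0⟩ 0 0) (.void 60 ⟨83401, 0, 0, 16599, 0, 0, 0, 0, 0, ⟨0, 0⟩, 0⟩ 0 0)) (.void 83 ⟨0, 0, 0, 100000, 0, 0, 0, 0, 0, ⟨0, 0⟩, 0⟩ 0 0)) (.void 116 ⟨0, 0, 0, 100000, 0, 0, 0, 0, 0, ⟨0, 0⟩, 0⟩ 0 0)))),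
    by decide +kernel⟩

def covers35 : cell.Covers table row35.1 :=
  ⟨(.cut .d 0 (.cut .v 16777216 (.cut .d (-8388608) (.void 1 ⟨0, 0, 0, 0, 0, 99989, 0, 0, 0, ⟨0, 0⟩, 0⟩ 0 0) (.cut .v 8388608 (.void 2 ⟨0, 0, 100000, 0, 0, 0, 0, 0, 0, ⟨0, 0⟩, 0⟩ 0 0) (.pos 3 .mm ⟨0, 0, 7001936925, 0, 0, 128107914628, 0, 0, 0, ⟨0, 0⟩, 0⟩ 0 0))) (.cut .v 4294967296 (.cut .v 268435456 (.cut .v 67108864 (.cut .d (-8388608) (.void 44 ⟨100000, 0, 0, 0, 0, 0, 0, 0, 0, ⟨0, 0⟩, 0⟩ 0 0) (.cut .v 33554432 (.cut .d (-4194304) (.void 16 ⟨100000, 0, 0, 0, 0, 0, 0, 0, 0, ⟨0, 0⟩, 0⟩ 0 0) (.pos 16 .mp ⟨8266200247, 0, 0, 0, 0, 159505959753, 0, 0, 0, ⟨0, 0⟩, 0⟩ 0 0)) (.void 45 ⟨100000, 0, 0, 0,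 0, 0, 0, 0, 0, ⟨0, 0⟩, 0⟩ 0 0))) (.void 60 ⟨100000, 0, 0, 0, 0, 0, 0, 0, 0, ⟨0, 0⟩, 0⟩ 0 0)) (.void 83 ⟨90990, 0, 0, 9010, 0, 0, 0, 0, 0, ⟨0, 0⟩, 0⟩ 0 0)) (.void 116 ⟨90990, 0, 0, 9010, 0, 0, 0, 0, 0, ⟨0, 0⟩, 0⟩ 0 0))) (.cut .v 16777216 (.cut .v 8388608 (.cut .v 4194304 (.cut .v 2097152 (.cut .v 1048576 (.cut .v 524288 (.cut .v 262144 (.cut .v 131072 (.cut .v 65536 (.cut .v 32768 (.pos 119 .pm ⟨0, 0, 55374946, 0, 0, 0, 0, 0, 0, ⟨0, 0⟩, 0⟩ 0 0) (.pos 120 .pm ⟨0, 0, 113680959, 0, 0, 0, 0, 0, 0, ⟨0, 0⟩, 0⟩ 0 0)) (.pos 118 .pm ⟨0, 0, 193783995, 0, 0, 0, 0, 0, 0, ⟨0, 0⟩, 0⟩ 0 0)) (.pos 113 .pm ⟨0, 0, 330577192, 0, 0, 0, 0, 0, 0, ⟨0, 0⟩, 0⟩ 0 0)) (.pos 111 .pm ⟨0, 0,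 564888752, 0, 0, 0, 0, 0, 0, ⟨0, 0⟩, 0⟩ 0 0)) (.pos 109 .pm ⟨0, 0, 998035047, 0, 0, 0, 0, 0, 0, ⟨0, 0⟩, 0⟩ 0 0)) (.pos 99 .pm ⟨0, 0, 1824381469, 0, 0, 0, 0, 0, 0, ⟨0, 0⟩, 0⟩ 0 0)) (.pos 66 .pm ⟨0, 0, 3433246237, 0, 0, 0, 0, 0, 0, ⟨0, 0⟩, 0⟩ 0 0)) (.pos 5 .pm ⟨0, 0, 6319051601, 0, 0, 0, 0, 0, 0, ⟨0, 0⟩, 0⟩ 0 0)) (.pos 3 .pm ⟨0, 0, 5852774535, 0, 0, 0, 0, 0, 0, ⟨0, 0⟩, 0⟩ 0 0)) (.cut .v 4294967296 (.cut .v 268435456 (.cut .v 67108864 (.pos 44 .pp ⟨14035807309, 0, 0, 0, 0, 0, 0, 0, 0, ⟨0, 0⟩, 0⟩ 0 0) (.void 60 ⟨83381, 0, 0, 16619, 0, 0, 0, 0, 0, ⟨0, 0⟩, 0⟩ 0 0)) (.void 83 ⟨0, 0, 0, 100000, 0, 0, 0, 0, 0, ⟨0, 0⟩, 0⟩ 0 0)) (.void 116 ⟨0, 0, 0, 100000, 0, 0, 0, 0, 0,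 ⟨0, 0⟩, 0⟩ 0 0)))),
    by decide +kernel⟩

def covers36 : cell.Covers table row36.1 :=
  ⟨(.cut .d 0 (.cut .v 16777216 (.cut .d (-8388608) (.void 1 ⟨0, 0, 0, 0, 0, 37979, 0, 60731, 0, ⟨(-1), 12355067⟩, 0⟩ 0 127) (.cut .v 8388608 (.void 2 ⟨0, 0, 100000, 0, 0, 0, 0, 0, 0, ⟨0, 0⟩, 0⟩ 0 0) (.cut .v 12582912 (.pos 6 .mm ⟨0, 0, 9067478152, 0, 0, 122947016739, 0, 0, 0, ⟨0, 0⟩, 0⟩ 0 0) (.pos 7 .mm ⟨17171289988, 0, 0, 0, 0, 150600870012, 0, 0, 0, ⟨0, 0⟩, 0⟩ 0 0)))) (.cut .v 4294967296 (.cut .v 268435456 (.cut .v 67108864 (.cut .d (-8388608) (.void 44 ⟨100000, 0, 0, 0, 0, 0, 0, 0, 0, ⟨0, 0⟩, 0⟩ 0 0) (.cut .d (-4194304) (.void 44 ⟨100000, 0, 0, 0, 0, 0, 0, 0, 0, ⟨0, 0⟩,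 0⟩ 0 0) (.cut .v 33554432 (.pos 16 .mp ⟨82863085373, 0, 0, 0, 0, 84909074627, 0, 0, 0, ⟨0, 0⟩, 0⟩ 0 0) (.void 45 ⟨100000, 0, 0, 0, 0, 0, 0, 0, 0, ⟨0, 0⟩, 0⟩ 0 0)))) (.void 60 ⟨100000, 0, 0, 0, 0, 0, 0, 0, 0, ⟨0, 0⟩, 0⟩ 0 0)) (.void 83 ⟨90974, 0, 0, 9026, 0, 0, 0, 0, 0, ⟨0, 0⟩, 0⟩ 0 0)) (.void 116 ⟨90974, 0, 0, 9026, 0, 0, 0, 0, 0, ⟨0, 0⟩, 0⟩ 0 0))) (.cut .v 16777216 (.cut .v 8388608 (.cut .v 4194304 (.cut .v 2097152 (.cut .v 1048576 (.cut .v 524288 (.cut .v 262144 (.cut .v 131072 (.cut .v 65536 (.cut .v 32768 (.pos 119 .pm ⟨0, 0, 70685182, 0, 0, 0, 0, 0, 0, ⟨0, 0⟩, 0⟩ 0 0) (.pos 120 .pm ⟨0, 0, 154590706, 0, 0, 0, 0, 0, 0, ⟨0, 0⟩, 0⟩ 0 0)) (.pos 118 .pm ⟨0, 0, 269765621,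 0, 0, 0, 0, 0, 0, ⟨0, 0⟩, 0⟩ 0 0)) (.pos 113 .pm ⟨0, 0, 467574320, 0, 0, 0, 0, 0, 0, ⟨0, 0⟩, 0⟩ 0 0)) (.pos 111 .pm ⟨0, 0, 811568838, 0, 0, 0, 0, 0, 0, ⟨0, 0⟩, 0⟩ 0 0)) (.pos 109 .pm ⟨0, 0, 1440848368, 0, 0, 0, 0, 0, 0, ⟨0, 0⟩, 0⟩ 0 0)) (.pos 99 .pm ⟨0, 0, 2658820343, 0, 0, 0, 0, 0, 0, ⟨0, 0⟩, 0⟩ 0 0)) (.pos 66 .pm ⟨0, 0, 5060214168, 0, 0, 0, 0, 0, 0, ⟨0, 0⟩, 0⟩ 0 0)) (.pos 5 .pm ⟨0, 0, 9441023415, 0, 0, 0, 0, 0, 0, ⟨0, 0⟩, 0⟩ 0 0)) (.pos 3 .pm ⟨0, 0, 8716911876, 0, 0, 0, 0, 0, 0, ⟨0, 0⟩, 0⟩ 0 0)) (.cut .v 4294967296 (.cut .v 268435456 (.cut .v 67108864 (.pos 44 .pp ⟨20705109054, 0, 0, 0, 0, 0, 0, 0, 0, ⟨0, 0⟩, 0⟩ 0 0) (.void 60 ⟨83374, 0, 0, 16626, 0, 0, 0, 0,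 0, ⟨0, 0⟩, 0⟩ 0 0)) (.void 83 ⟨0, 0, 0, 100000, 0, 0, 0, 0, 0, ⟨0, 0⟩, 0⟩ 0 0)) (.void 116 ⟨0, 0, 0, 100000, 0, 0, 0, 0, 0, ⟨0, 0⟩, 0⟩ 0 0)))),
    by decide +kernel⟩

def covers37 : cell.Covers table row37.1 :=
  ⟨(.cut .d 0 (.cut .v 16777216 (.cut .d (-8388608) (.void 1 ⟨0, 0, 0, 0, 0, 100000, 0, 0, 0, ⟨0, 0⟩, 0⟩ 0 0) (.cut .v 8388608 (.pos 2 .mm ⟨0, 0, 167772160000, 0, 0, 0, 0, 0, 0, ⟨0, 0⟩, 0⟩ 0 0) (.cut .d (-4194304) (.void 3 ⟨100000, 0, 0, 0, 0, 0, 0, 0, 0, ⟨0, 0⟩, 0⟩ 0 0) (.pos 3 .mm ⟨0, 0, 12224234045, 0, 0, 122627207630, 0, 0, 0, ⟨0, 0⟩, 0⟩ 0 0)))) (.cut .v 4294967296 (.cut .v 268435456 (.cut .v 67108864 (.cut .d (-8388608) (.void 44 ⟨100000, 0, 0, 0,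 0, 0, 0, 0, 0, ⟨0, 0⟩, 0⟩ 0 0) (.cut .d (-4194304) (.void 44 ⟨100000, 0, 0, 0, 0, 0, 0, 0, 0, ⟨0, 0⟩, 0⟩ 0 0) (.cut .v 33554432 (.pos 16 .mp ⟨138742785732, 0, 0, 0, 0, 29029374268, 0, 0, 0, ⟨0, 0⟩, 0⟩ 0 0) (.void 45 ⟨100000, 0, 0, 0, 0, 0, 0, 0, 0, ⟨0, 0⟩, 0⟩ 0 0)))) (.void 60 ⟨100000, 0, 0, 0, 0, 0, 0, 0, 0, ⟨0, 0⟩, 0⟩ 0 0)) (.void 83 ⟨90966, 0, 0, 9034, 0, 0, 0, 0, 0, ⟨0, 0⟩, 0⟩ 0 0)) (.void 116 ⟨90966, 0, 0, 9034, 0, 0, 0, 0, 0, ⟨0, 0⟩, 0⟩ 0 0))) (.cut .v 16777216 (.cut .v 8388608 (.cut .v 4194304 (.cut .v 2097152 (.cut .v 1048576 (.cut .v 524288 (.cut .v 262144 (.cut .v 131072 (.cut .v 65536 (.cut .v 32768 (.pos 119 .pm ⟨0, 0, 84548901, 0, 0, 0, 0, 0, 0, ⟨0,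 0⟩, 0⟩ 0 0) (.pos 120 .pm ⟨0, 0, 190731385, 0, 0, 0, 0, 0, 0, ⟨0, 0⟩, 0⟩ 0 0)) (.pos 118 .pm ⟨0, 0, 335739929, 0, 0, 0, 0, 0, 0, ⟨0, 0⟩, 0⟩ 0 0)) (.pos 113 .pm ⟨0, 0, 592555619, 0, 0, 0, 0, 0, 0, ⟨0, 0⟩, 0⟩ 0 0)) (.pos 111 .pm ⟨0, 0, 1040103683, 0, 0, 0, 0, 0, 0, ⟨0, 0⟩, 0⟩ 0 0)) (.pos 109 .pm ⟨0, 0, 1850946585, 0, 0, 0, 0, 0, 0, ⟨0, 0⟩, 0⟩ 0 0)) (.pos 99 .pm ⟨0, 0, 3484766175, 0, 0, 0, 0, 0, 0, ⟨0, 0⟩, 0⟩ 0 0)) (.pos 66 .pm ⟨0, 0, 6756118874, 0, 0, 0, 0, 0, 0, ⟨0, 0⟩, 0⟩ 0 0)) (.pos 5 .pm ⟨0, 0, 13046600003, 0, 0, 0, 0, 0, 0, ⟨0, 0⟩, 0⟩ 0 0)) (.pos 3 .pm ⟨0, 0, 12224234045, 0, 0, 0, 0, 0, 0, ⟨0, 0⟩, 0⟩ 0 0)) (.cut .v 4294967296 (.cut .v 268435456 (.cut .v 67108864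 (.pos 44 .pp ⟨28647051822, 0, 0, 0, 0, 0, 0, 0, 0, ⟨0, 0⟩, 0⟩ 0 0) (.void 60 ⟨83374, 0, 0, 16626, 0, 0, 0, 0, 0, ⟨0, 0⟩, 0⟩ 0 0)) (.void 83 ⟨0, 0, 0, 100000, 0, 0, 0, 0, 0, ⟨0, 0⟩, 0⟩ 0 0)) (.void 116 ⟨0, 0, 0, 100000, 0, 0, 0, 0, 0, ⟨0, 0⟩, 0⟩ 0 0)))),
    by decide +kernel⟩

def covers38 : cell.Covers table row38.1 :=
  ⟨(.cut .d 0 (.cut .v 16777216 (.cut .d (-8388608) (.void 1 ⟨0, 0, 0, 0, 0, 100000, 0, 0, 0, ⟨0, 0⟩, 0⟩ 0 0) (.cut .d (-4194304) (.void 1 ⟨0, 0, 94112, 0, 0, 0, 0, 0, 0, ⟨0, 0⟩, 0⟩ 0 0) (.cut .v 8388608 (.void 2 ⟨0, 0, 100000, 0, 0, 0, 0, 0, 0, ⟨0, 0⟩, 0⟩ 0 0) (.cut .v 12582912 (.pos 6 .mm ⟨0, 0, 15560968330, 0, 0, 139978395920, 0, 0, 0, ⟨0, 0⟩,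 0⟩ 0 0) (.pos 7 .mm ⟨53294871576, 0, 0, 0, 0, 114477288424, 0, 0, 0, ⟨0, 0⟩, 0⟩ 0 0))))) (.cut .v 4294967296 (.cut .v 268435456 (.cut .v 67108864 (.cut .d (-8388608) (.void 44 ⟨100000, 0, 0, 0, 0, 0, 0, 0, 0, ⟨0, 0⟩, 0⟩ 0 0) (.cut .d (-4194304) (.void 44 ⟨100000, 0, 0, 0, 0, 0, 0, 0, 0, ⟨0, 0⟩, 0⟩ 0 0) (.cut .v 33554432 (.cut .d (-2097152) (.void 16 ⟨100000, 0, 0, 0, 0, 0, 0, 0, 0, ⟨0, 0⟩, 0⟩ 0 0) (.pos 16 .mp ⟨166454633711, 0, 0, 0, 0, 1317526289, 0, 0, 0, ⟨0, 0⟩, 0⟩ 0 0)) (.void 45 ⟨100000, 0, 0, 0, 0, 0, 0, 0, 0, ⟨0, 0⟩, 0⟩ 0 0)))) (.void 60 ⟨100000, 0, 0, 0, 0, 0, 0, 0, 0, ⟨0, 0⟩, 0⟩ 0 0)) (.void 83 ⟨90949, 0, 0, 9051, 0, 0, 0, 0, 0, ⟨0, 0⟩, 0⟩ 0 0)) (.void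 116 ⟨90949, 0, 0, 9051, 0, 0, 0, 0, 0, ⟨0, 0⟩, 0⟩ 0 0))) (.cut .v 16777216 (.cut .v 8388608 (.cut .v 4194304 (.cut .v 2097152 (.cut .v 1048576 (.cut .v 524288 (.cut .v 262144 (.cut .v 131072 (.cut .v 65536 (.cut .v 32768 (.cut .v 16384 (.pos 121 .pm ⟨0, 0, 72408014, 0, 0, 0, 0, 0, 0, ⟨0, 0⟩, 0⟩ 0 0) (.pos 122 .pm ⟨0, 0, 162549995, 0, 0, 0, 0, 0, 0, ⟨0, 0⟩, 0⟩ 0 0)) (.pos 120 .pm ⟨0, 0, 286698740, 0, 0, 0, 0, 0, 0, ⟨0, 0⟩, 0⟩ 0 0)) (.pos 118 .pm ⟨0, 0, 501394980, 0, 0, 0, 0, 0, 0, ⟨0, 0⟩, 0⟩ 0 0)) (.pos 113 .pm ⟨0, 0, 881676267, 0, 0, 0, 0, 0, 0, ⟨0, 0⟩, 0⟩ 0 0)) (.pos 111 .pm ⟨0, 0, 1541664445, 0, 0, 0, 0, 0, 0, ⟨0, 0⟩, 0⟩ 0 0)) (.pos 109 .pm ⟨0, 0, 2770298566,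 0, 0, 0, 0, 0, 0, ⟨0, 0⟩, 0⟩ 0 0)) (.pos 99 .pm ⟨0, 0, 5109436646, 0, 0, 0, 0, 0, 0, ⟨0, 0⟩, 0⟩ 0 0)) (.pos 66 .pm ⟨0, 0, 9506205248, 0, 0, 0, 0, 0, 0, ⟨0, 0⟩, 0⟩ 0 0)) (.pos 5 .pm ⟨0, 0, 17088832750, 0, 0, 0, 0, 0, 0, ⟨0, 0⟩, 0⟩ 0 0)) (.pos 3 .pm ⟨0, 0, 14962015024, 0, 0, 0, 0, 0, 0, ⟨0, 0⟩, 0⟩ 0 0)) (.cut .v 4294967296 (.cut .v 268435456 (.cut .v 67108864 (.pos 44 .pp ⟨36903596879, 0, 0, 0, 0, 0, 0, 0, 0, ⟨0, 0⟩, 0⟩ 0 0) (.void 60 ⟨83354, 0, 0, 16646, 0, 0, 0, 0, 0, ⟨0, 0⟩, 0⟩ 0 0)) (.void 83 ⟨0, 0, 0, 100000, 0, 0, 0, 0, 0, ⟨0, 0⟩, 0⟩ 0 0)) (.void 116 ⟨0, 0, 0, 100000, 0, 0, 0, 0, 0, ⟨0, 0⟩, 0⟩ 0 0)))),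
    by decide +kernel⟩

def covers39 : cell.Covers table row39.1 :=
  ⟨(.cut .d 0 (.cut .v 16777216 (.cut .d (-8388608) (.void 1 ⟨0, 0, 0, 0, 0, 99996, 0, 0, 0, ⟨0, 0⟩, 0⟩ 0 0) (.cut .d (-4194304) (.void 1 ⟨0, 0, 0, 0, 0, 45047, 0, 0, 0, ⟨0, 0⟩, 0⟩ 0 0) (.cut .v 8388608 (.void 2 ⟨0, 0, 99533, 0, 0, 0, 0, 0, 0, ⟨0, 0⟩, 0⟩ 0 0) (.cut .d (-2097152) (.void 3 ⟨100000, 0, 0, 0, 0, 0, 0, 0, 0, ⟨0, 0⟩, 0⟩ 0 0) (.pos 3 .mm ⟨50527390716, 0, 46846572058, 0, 0, 70398197226, 0, 0, 0, ⟨0, 0⟩, 0⟩ 0 0))))) (.cut .v 4294967296 (.cut .v 268435456 (.cut .v 67108864 (.cut .d (-8388608) (.void 44 ⟨100000, 0, 0, 0, 0, 0, 0, 0, 0, ⟨0, 0⟩, 0⟩ 0 0) (.cut .d (-4194304) (.void 44 ⟨100000,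 0, 0, 0, 0, 0, 0, 0, 0, ⟨0, 0⟩, 0⟩ 0 0) (.cut .v 33554432 (.cut .d (-2097152) (.void 16 ⟨100000, 0, 0, 0, 0, 0, 0, 0, 0, ⟨0, 0⟩, 0⟩ 0 0) (.cut .v 25165824 (.cut .d (-1048576) (.void 17 ⟨100000, 0, 0, 0, 0, 0, 0, 0, 0, ⟨0, 0⟩, 0⟩ 0 0) (.pos 17 .mp ⟨107079857053, 0, 0, 0, 0, 60692302947, 0, 0, 0, ⟨0, 0⟩, 0⟩ 0 0)) (.void 18 ⟨100000, 0, 0, 0, 0, 0, 0, 0, 0, ⟨0, 0⟩, 0⟩ 0 0))) (.void 45 ⟨100000, 0, 0, 0, 0, 0, 0, 0, 0, ⟨0, 0⟩, 0⟩ 0 0)))) (.void 60 ⟨100000, 0, 0, 0, 0, 0, 0, 0, 0, ⟨0, 0⟩, 0⟩ 0 0)) (.void 83 ⟨90941, 0, 0, 9059, 0, 0, 0, 0, 0, ⟨0, 0⟩, 0⟩ 0 0)) (.void 116 ⟨90941, 0, 0, 9059, 0, 0, 0, 0, 0, ⟨0, 0⟩, 0⟩ 0 0))) (.cut .v 16777216 (.cut .v 8388608 (.cut .v 4194304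 (.cut .v 2097152 (.cut .v 1048576 (.cut .v 524288 (.cut .v 262144 (.cut .v 131072 (.cut .v 65536 (.cut .v 32768 (.cut .v 16384 (.cut .v 8192 (.pos 123 .pm ⟨0, 0, 60405948, 0, 0, 0, 0, 0, 0, ⟨0, 0⟩, 0⟩ 0 0) (.pos 124 .pm ⟨0, 0, 130474831, 0, 0, 0, 0, 0, 0, ⟨0, 0⟩, 0⟩ 0 0)) (.pos 122 .pm ⟨0, 0, 228927060, 0, 0, 0, 0, 0, 0, ⟨0, 0⟩, 0⟩ 0 0)) (.pos 120 .pm ⟨0, 0, 412417652, 0, 0, 0, 0, 0, 0, ⟨0, 0⟩, 0⟩ 0 0)) (.pos 118 .pm ⟨0, 0, 739295182, 0, 0, 0, 0, 0, 0, ⟨0, 0⟩, 0⟩ 0 0)) (.pos 113 .pm ⟨0, 0, 1319657806, 0, 0, 0, 0, 0, 0, ⟨0, 0⟩, 0⟩ 0 0)) (.pos 111 .pm ⟨0, 0, 2337921836, 0, 0, 0, 0, 0, 0, ⟨0, 0⟩, 0⟩ 0 0)) (.pos 109 .pm ⟨0, 0, 4198895209, 0, 0, 0, 0, 0, 0, ⟨0, 0⟩,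 0⟩ 0 0)) (.pos 99 .pm ⟨0, 0, 7830990894, 0, 0, 0, 0, 0, 0, ⟨0, 0⟩, 0⟩ 0 0)) (.pos 66 .pm ⟨0, 0, 14964241580, 0, 0, 0, 0, 0, 0, ⟨0, 0⟩, 0⟩ 0 0)) (.pos 5 .pm ⟨0, 0, 27942137897, 0, 0, 0, 0, 0, 0, ⟨0, 0⟩, 0⟩ 0 0)) (.pos 3 .pm ⟨0, 0, 24881842347, 0, 0, 0, 0, 0, 0, ⟨0, 0⟩, 0⟩ 0 0)) (.cut .v 4294967296 (.cut .v 268435456 (.cut .v 67108864 (.pos 44 .pp ⟨61254697922, 0, 0, 0, 0, 0, 0, 0, 0, ⟨0, 0⟩, 0⟩ 0 0) (.void 60 ⟨83354, 0, 0, 16646, 0, 0, 0, 0, 0, ⟨0, 0⟩, 0⟩ 0 0)) (.void 83 ⟨0, 0, 0, 100000, 0, 0, 0, 0, 0, ⟨0, 0⟩, 0⟩ 0 0)) (.void 116 ⟨0, 0, 0, 100000, 0, 0, 0, 0, 0, ⟨0, 0⟩, 0⟩ 0 0)))),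
    by decide +kernel⟩

def covers40 : cell.Covers table row40.1 :=
  ⟨(.cut .d 0 (.cut .v 16777216 (.cut .d (-8388608) (.void 1 ⟨0, 0, 0, 0, 0, 93595, 0, 0, 0, ⟨0, 0⟩, 0⟩ 0 0) (.cut .v 8388608 (.cut .d (-4194304) (.void 2 ⟨0, 0, 93457, 0, 0, 0, 0, 0, 0, ⟨0, 0⟩, 0⟩ 0 0) (.void 2 ⟨0, 0, 100000, 0, 0, 0, 0, 0, 0, ⟨0, 0⟩, 0⟩ 0 0)) (.cut .d (-4194304) (.void 3 ⟨100000, 0, 0, 0, 0, 0, 0, 0, 0, ⟨0, 0⟩, 0⟩ 0 0) (.cut .d (-2097152) (.void 3 ⟨100000, 0, 0, 0, 0, 0, 0, 0, 0, ⟨0, 0⟩, 0⟩ 0 0) (.cut .d (-1048576) (.void 3 ⟨100000, 0, 0, 0, 0, 0, 0, 0, 0, ⟨0, 0⟩, 0⟩ 0 0) (.cut .v 12582912 (.pos 6 .mm ⟨38298667731, 0, 56266005683, 0, 0, 73207486586, 0, 0, 0, ⟨0, 0⟩, 0⟩ 0 0) (.pos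 7 .mm ⟨109752811536, 0, 0, 0, 0, 58019348464, 0, 0, 0, ⟨0, 0⟩, 0⟩ 0 0))))))) (.cut .v 4294967296 (.cut .v 268435456 (.cut .v 67108864 (.cut .d (-8388608) (.void 44 ⟨100000, 0, 0, 0, 0, 0, 0, 0, 0, ⟨0, 0⟩, 0⟩ 0 0) (.cut .d (-4194304) (.void 44 ⟨100000, 0, 0, 0, 0, 0, 0, 0, 0, ⟨0, 0⟩, 0⟩ 0 0) (.cut .d (-2097152) (.void 44 ⟨100000, 0, 0, 0, 0, 0, 0, 0, 0, ⟨0, 0⟩, 0⟩ 0 0) (.cut .v 33554432 (.cut .d (-1048576) (.void 16 ⟨100000, 0, 0, 0, 0, 0, 0, 0, 0, ⟨0, 0⟩, 0⟩ 0 0) (.cut .d (-524288) (.void 16 ⟨100000, 0, 0, 0, 0, 0, 0, 0, 0, ⟨0, 0⟩, 0⟩ 0 0) (.cut .v 25165824 (.cut .v 20971520 (.pos 19 .mp ⟨147054809056, 0, 0, 0, 0, 20717350944, 0, 0, 0, ⟨0, 0⟩, 0⟩ 0 0) (.void 20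 ⟨100000, 0, 0, 0, 0, 0, 0, 0, 0, ⟨0, 0⟩, 0⟩ 0 0)) (.void 18 ⟨100000, 0, 0, 0, 0, 0, 0, 0, 0, ⟨0, 0⟩, 0⟩ 0 0)))) (.void 45 ⟨100000, 0, 0, 0, 0, 0, 0, 0, 0, ⟨0, 0⟩, 0⟩ 0 0))))) (.void 60 ⟨100000, 0, 0, 0, 0, 0, 0, 0, 0, ⟨0, 0⟩, 0⟩ 0 0)) (.void 83 ⟨90933, 0, 0, 9067, 0, 0, 0, 0, 0, ⟨0, 0⟩, 0⟩ 0 0)) (.void 116 ⟨90933, 0, 0, 9067, 0, 0, 0, 0, 0, ⟨0, 0⟩, 0⟩ 0 0))) (.cut .v 16777216 (.cut .v 8388608 (.cut .v 4194304 (.cut .v 2097152 (.cut .v 1048576 (.cut .v 524288 (.cut .v 262144 (.cut .v 131072 (.cut .v 65536 (.cut .v 32768 (.cut .v 16384 (.cut .v 8192 (.pos 123 .pm ⟨0, 0, 80776127, 0, 0, 0, 0, 0, 0, ⟨0, 0⟩, 0⟩ 0 0) (.pos 124 .pm ⟨0, 0, 187209869, 0, 0, 0, 0, 0, 0,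 ⟨0, 0⟩, 0⟩ 0 0)) (.pos 122 .pm ⟨0, 0, 337259685, 0, 0, 0, 0, 0, 0, ⟨0, 0⟩, 0⟩ 0 0)) (.pos 120 .pm ⟨0, 0, 609687865, 0, 0, 0, 0, 0, 0, ⟨0, 0⟩, 0⟩ 0 0)) (.pos 118 .pm ⟨0, 0, 1096995649, 0, 0, 0, 0, 0, 0, ⟨0, 0⟩, 0⟩ 0 0)) (.pos 113 .pm ⟨0, 0, 1964967004, 0, 0, 0, 0, 0, 0, ⟨0, 0⟩, 0⟩ 0 0)) (.pos 111 .pm ⟨0, 0, 3483753565, 0, 0, 0, 0, 0, 0, ⟨0, 0⟩, 0⟩ 0 0)) (.pos 109 .pm ⟨0, 0, 6318134533, 0, 0, 0, 0, 0, 0, ⟨0, 0⟩, 0⟩ 0 0)) (.pos 99 .pm ⟨0, 0, 11696082952, 0, 0, 0, 0, 0, 0, ⟨0, 0⟩, 0⟩ 0 0)) (.pos 66 .pm ⟨0, 0, 22055216363, 0, 0, 0, 0, 0, 0, ⟨0, 0⟩, 0⟩ 0 0)) (.pos 5 .pm ⟨0, 0, 40336832391, 0, 0, 0, 0, 0, 0, ⟨0, 0⟩, 0⟩ 0 0)) (.pos 3 .pm ⟨0, 0, 34847049651, 0, 0, 0, 0,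 0, 0, ⟨0, 0⟩, 0⟩ 0 0)) (.cut .v 4294967296 (.cut .v 268435456 (.cut .v 67108864 (.pos 44 .pp ⟨88718042258, 0, 0, 0, 0, 0, 0, 0, 0, ⟨0, 0⟩, 0⟩ 0 0) (.void 60 ⟨83347, 0, 0, 16653, 0, 0, 0, 0, 0, ⟨0, 0⟩, 0⟩ 0 0)) (.void 83 ⟨0, 0, 0, 100000, 0, 0, 0, 0, 0, ⟨0, 0⟩, 0⟩ 0 0)) (.void 116 ⟨0, 0, 0, 100000, 0, 0, 0, 0, 0, ⟨0, 0⟩, 0⟩ 0 0)))),
    by decide +kernel⟩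

def covers41 : cell.Covers table row41.1 :=
  ⟨(.cut .d 0 (.cut .v 16777216 (.cut .d (-8388608) (.void 1 ⟨0, 0, 10193, 0, 0, 89814, 0, 0, 0, ⟨0, 0⟩, 0⟩ 0 0) (.cut .d (-4194304) (.void 1 ⟨0, 0, 0, 0, 0, 100000, 0, 0, 0, ⟨0, 0⟩, 0⟩ 0 0) (.cut .v 8388608 (.void 2 ⟨0, 0, 100000, 0, 0, 0, 0, 0, 0, ⟨0, 0⟩, 0⟩ 0 0) (.cut .d (-2097152) (.void 3 ⟨100000, 0, 0, 0, 0, 0, 0, 0, 0, ⟨0, 0⟩, 0⟩ 0 0) (.cut .d (-1048576) (.void 3 ⟨100000, 0, 0, 0, 0, 0, 0, 0, 0, ⟨0, 0⟩, 0⟩ 0 0) (.cut .d (-524288) (.void 3 ⟨100000, 0, 0, 0, 0, 0, 0, 0, 0, ⟨0, 0⟩, 0⟩ 0 0) (.cut .d (-262144) (.void 3 ⟨100000, 0, 0, 0, 0, 0, 0, 0, 0, ⟨0, 0⟩, 0⟩ 0 0) (.cut .d (-131072) (.void 3 ⟨100000, 0, 0, 0, 0,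 0, 0, 0, 0, ⟨0, 0⟩, 0⟩ 0 0) (.cut .d (-65536) (.void 3 ⟨100000, 0, 0, 0, 0, 0, 0, 0, 0, ⟨0, 0⟩, 0⟩ 0 0) (.cut .d (-32768) (.void 3 ⟨100000, 0, 0, 0, 0, 0, 0, 0, 0, ⟨0, 0⟩, 0⟩ 0 0) (.cut .v 12582912 (.pos 6 .mm ⟨66034450172, 0, 0, 0, 0, 101737709828, 0, 0, 0, ⟨0, 0⟩, 0⟩ 0 0) (.pos 7 .mm ⟨160195775289, 0, 0, 0, 0, 7576384711, 0, 0, 0, ⟨0, 0⟩, 0⟩ 0 0)))))))))))) (.cut .v 4294967296 (.cut .v 268435456 (.cut .v 67108864 (.cut .d (-8388608) (.void 44 ⟨100000, 0, 0, 0, 0, 0, 0, 0, 0, ⟨0, 0⟩, 0⟩ 0 0) (.cut .d (-4194304) (.void 44 ⟨100000, 0, 0, 0, 0, 0, 0, 0, 0, ⟨0, 0⟩, 0⟩ 0 0) (.cut .d (-2097152) (.void 44 ⟨100000, 0, 0, 0, 0, 0, 0, 0, 0, ⟨0, 0⟩, 0⟩ 0 0) (.cut .v 33554432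 (.cut .d (-1048576) (.void 16 ⟨100000, 0, 0, 0, 0, 0, 0, 0, 0, ⟨0, 0⟩, 0⟩ 0 0) (.cut .d (-524288) (.void 16 ⟨100000, 0, 0, 0, 0, 0, 0, 0, 0, ⟨0, 0⟩, 0⟩ 0 0) (.cut .d (-262144) (.void 16 ⟨100000, 0, 0, 0, 0, 0, 0, 0, 0, ⟨0, 0⟩, 0⟩ 0 0) (.cut .d (-131072) (.void 16 ⟨100000, 0, 0, 0, 0, 0, 0, 0, 0, ⟨0, 0⟩, 0⟩ 0 0) (.cut .d (-65536) (.void 16 ⟨100000, 0, 0, 0, 0, 0, 0, 0, 0, ⟨0, 0⟩, 0⟩ 0 0) (.cut .d (-32768) (.void 16 ⟨100000, 0, 0, 0, 0, 0, 0, 0, 0, ⟨0, 0⟩, 0⟩ 0 0) (.cut .d (-16384) (.void 16 ⟨100000, 0, 0, 0, 0, 0, 0, 0, 0, ⟨0, 0⟩, 0⟩ 0 0) (.pos 16 .mp ⟨167772160000, 0, 0, 0, 0, 0, 0, 0, 0, ⟨0, 0⟩, 0⟩ 0 0)))))))) (.void 45 ⟨100000, 0, 0, 0, 0, 0, 0, 0, 0, ⟨0, 0⟩,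 0⟩ 0 0))))) (.void 60 ⟨100000, 0, 0, 0, 0, 0, 0, 0, 0, ⟨0, 0⟩, 0⟩ 0 0)) (.void 83 ⟨90925, 0, 0, 9075, 0, 0, 0, 0, 0, ⟨0, 0⟩, 0⟩ 0 0)) (.void 116 ⟨90925, 0, 0, 9075, 0, 0, 0, 0, 0, ⟨0, 0⟩, 0⟩ 0 0))) (.cut .v 16777216 (.cut .v 8388608 (.cut .v 4194304 (.cut .v 2097152 (.cut .v 1048576 (.cut .v 524288 (.cut .v 262144 (.cut .v 131072 (.cut .v 65536 (.cut .v 32768 (.cut .v 16384 (.cut .v 8192 (.cut .v 4096 (.pos 125 .pm ⟨0, 0, 76867767, 0, 0, 0, 0, 0, 0, ⟨0, 0⟩, 0⟩ 0 0) (.pos 126 .pm ⟨0, 0, 175115168, 0, 0, 0, 0, 0, 0, ⟨0, 0⟩, 0⟩ 0 0)) (.pos 124 .pm ⟨0, 0, 317201978, 0, 0, 0, 0, 0, 0, ⟨0, 0⟩, 0⟩ 0 0)) (.pos 122 .pm ⟨0, 0, 569728994, 0, 0, 0, 0, 0, 0, ⟨0, 0⟩, 0⟩ 0 0))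 (.pos 120 .pm ⟨0, 0, 1030955448, 0, 0, 0, 0, 0, 0, ⟨0, 0⟩, 0⟩ 0 0)) (.pos 118 .pm ⟨0, 0, 1862972410, 0, 0, 0, 0, 0, 0, ⟨0, 0⟩, 0⟩ 0 0)) (.pos 113 .pm ⟨0, 0, 3336356847, 0, 0, 0, 0, 0, 0, ⟨0, 0⟩, 0⟩ 0 0)) (.pos 111 .pm ⟨0, 0, 5891355541, 0, 0, 0, 0, 0, 0, ⟨0, 0⟩, 0⟩ 0 0)) (.pos 109 .pm ⟨0, 0, 10700271238, 0, 0, 0, 0, 0, 0, ⟨0, 0⟩, 0⟩ 0 0)) (.pos 99 .pm ⟨0, 0, 20050977734, 0, 0, 0, 0, 0, 0, ⟨0, 0⟩, 0⟩ 0 0)) (.pos 66 .pm ⟨0, 0, 36839201185, 0, 0, 0, 0, 0, 0, ⟨0, 0⟩, 0⟩ 0 0)) (.pos 5 .pm ⟨0, 0, 64793714966, 0, 0, 0, 0, 0, 0, ⟨0, 0⟩, 0⟩ 0 0)) (.pos 3 .pm ⟨0, 0, 53773054174, 0, 0, 0, 0, 0, 0, ⟨0, 0⟩, 0⟩ 0 0)) (.cut .v 4294967296 (.cut .v 268435456 (.cut .v 67108864 (.pos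 44 .pp ⟨143984422667, 0, 0, 0, 0, 0, 0, 0, 0, ⟨0, 0⟩, 0⟩ 0 0) (.void 60 ⟨83340, 0, 0, 16660, 0, 0, 0, 0, 0, ⟨0, 0⟩, 0⟩ 0 0)) (.void 83 ⟨0, 0, 0, 100000, 0, 0, 0, 0, 0, ⟨0, 0⟩, 0⟩ 0 0)) (.void 116 ⟨0, 0, 0, 100000, 0, 0, 0, 0, 0, ⟨0, 0⟩, 0⟩ 0 0)))),
    by decide +kernel⟩

def covers42 : cell.Covers table row42.1 :=
  ⟨(.cut .d 0 (.cut .v 16777216 (.cut .d (-8388608) (.void 1 ⟨0, 0, 0, 0, 0, 74652, 0, 0, 0, ⟨0, 0⟩, 0⟩ 0 0) (.cut .d (-4194304) (.void 1 ⟨0, 0, 0, 0, 0, 99981, 0, 0, 0, ⟨0, 0⟩, 0⟩ 0 0) (.cut .d (-2097152) (.void 1 ⟨0, 0, 0, 0, 0, 100002, 0, 0, 0, ⟨0, 0⟩, 0⟩ 0 0) (.cut .d (-1048576) (.void 1 ⟨0, 0, 0, 0, 0, 100000, 0, 0, 0, ⟨0, 0⟩, 0⟩ 0 0) (.cut .v 8388608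 (.void 2 ⟨0, 0, 100000, 0, 0, 0, 0, 0, 0, ⟨0, 0⟩, 0⟩ 0 0) (.cut .d (-524288) (.void 3 ⟨100000, 0, 0, 0, 0, 0, 0, 0, 0, ⟨0, 0⟩, 0⟩ 0 0) (.cut .d (-262144) (.void 3 ⟨100000, 0, 0, 0, 0, 0, 0, 0, 0, ⟨0, 0⟩, 0⟩ 0 0) (.cut .d (-131072) (.void 3 ⟨100000, 0, 0, 0, 0, 0, 0, 0, 0, ⟨0, 0⟩, 0⟩ 0 0) (.cut .d (-65536) (.void 3 ⟨100000, 0, 0, 0, 0, 0, 0, 0, 0, ⟨0, 0⟩, 0⟩ 0 0) (.cut .d (-32768) (.void 3 ⟨100000, 0, 0, 0, 0, 0, 0, 0, 0, ⟨0, 0⟩, 0⟩ 0 0) (.cut .d (-16384) (.void 3 ⟨69729, 0, 30271, 0, 0, 0, 0, 0, 0, ⟨0, 0⟩, 0⟩ 0 0) (.cut .d (-8192) (.void 3 ⟨0, 0, 0, 0, 0, 100000, 0, 0, 0, ⟨0, 0⟩, 0⟩ 0 0) (.pos 3 .mm ⟨112056896534, 0, 55715263466, 0, 0, 0, 0, 0, 0, ⟨0, 0⟩, 0⟩ 0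 0))))))))))))) (.cut .v 4294967296 (.cut .v 268435456 (.cut .v 67108864 (.cut .d (-8388608) (.void 44 ⟨100000, 0, 0, 0, 0, 0, 0, 0, 0, ⟨0, 0⟩, 0⟩ 0 0) (.cut .d (-4194304) (.void 44 ⟨100000, 0, 0, 0, 0, 0, 0, 0, 0, ⟨0, 0⟩, 0⟩ 0 0) (.cut .d (-2097152) (.void 44 ⟨100000, 0, 0, 0, 0, 0, 0, 0, 0, ⟨0, 0⟩, 0⟩ 0 0) (.cut .d (-1048576) (.void 44 ⟨100000, 0, 0, 0, 0, 0, 0, 0, 0, ⟨0, 0⟩, 0⟩ 0 0) (.cut .v 33554432 (.cut .d (-524288) (.void 16 ⟨100000, 0, 0, 0, 0, 0, 0, 0, 0, ⟨0, 0⟩, 0⟩ 0 0) (.cut .d (-262144) (.void 16 ⟨100000, 0, 0, 0, 0, 0, 0, 0, 0, ⟨0, 0⟩, 0⟩ 0 0) (.cut .d (-131072) (.void 16 ⟨100000, 0, 0, 0, 0, 0, 0, 0, 0, ⟨0, 0⟩, 0⟩ 0 0) (.cut .d (-65536) (.void 16 ⟨100000,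 0, 0, 0, 0, 0, 0, 0, 0, ⟨0, 0⟩, 0⟩ 0 0) (.cut .d (-32768) (.void 16 ⟨100000, 0, 0, 0, 0, 0, 0, 0, 0, ⟨0, 0⟩, 0⟩ 0 0) (.cut .d (-16384) (.void 16 ⟨100000, 0, 0, 0, 0, 0, 0, 0, 0, ⟨0, 0⟩, 0⟩ 0 0) (.cut .d (-8192) (.void 16 ⟨100000, 0, 0, 0, 0, 0, 0, 0, 0, ⟨0, 0⟩, 0⟩ 0 0) (.pos 16 .mp ⟨167772160000, 0, 0, 0, 0, 0, 0, 0, 0, ⟨0, 0⟩, 0⟩ 0 0)))))))) (.void 45 ⟨100000, 0, 0, 0, 0, 0, 0, 0, 0, ⟨0, 0⟩, 0⟩ 0 0)))))) (.void 60 ⟨100000, 0, 0, 0, 0, 0, 0, 0, 0, ⟨0, 0⟩, 0⟩ 0 0)) (.void 83 ⟨90919, 0, 0, 9081, 0, 0, 0, 0, 0, ⟨0, 0⟩, 0⟩ 0 0)) (.void 116 ⟨90919, 0, 0, 9081, 0, 0, 0, 0, 0, ⟨0, 0⟩, 0⟩ 0 0))) (.cut .v 16777216 (.cut .v 8388608 (.cut .v 4194304 (.cut .v 2097152 (.cut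 .v 1048576 (.cut .v 524288 (.cut .v 262144 (.cut .v 131072 (.cut .v 65536 (.cut .v 32768 (.cut .d 16417 (.pos 119 .pm ⟨0, 0, 167772160000, 0, 0, 0, 0, 0, 0, ⟨0, 0⟩, 0⟩ 0 0) (.cut .v 16384 (.cut .v 8192 (.cut .v 4096 (.cut .v 2048 (.pos 127 .pm ⟨0, 0, 63484611, 0, 0, 0, 0, 0, 0, ⟨0, 0⟩, 0⟩ 0 0) (.pos 128 .pm ⟨0, 0, 120157344, 0, 0, 0, 0, 0, 0, ⟨0, 0⟩, 0⟩ 0 0)) (.pos 126 .pm ⟨0, 0, 188966271, 0, 0, 0, 0, 0, 0, ⟨0, 0⟩, 0⟩ 0 0)) (.pos 124 .pm ⟨0, 0, 316182665, 0, 0, 0, 0, 0, 0, ⟨0, 0⟩, 0⟩ 0 0)) (.pos 122 .pm ⟨0, 0, 536966417, 0, 0, 0, 0, 0, 0, ⟨0, 0⟩, 0⟩ 0 0))) (.pos 120 .pm ⟨0, 0, 1975673592, 0, 0, 0, 0, 0, 0, ⟨0, 0⟩, 0⟩ 0 0)) (.pos 118 .pm ⟨0, 0, 3584488950, 0, 0,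 0, 0, 0, 0, ⟨0, 0⟩, 0⟩ 0 0)) (.pos 113 .pm ⟨0, 0, 6422459040, 0, 0, 0, 0, 0, 0, ⟨0, 0⟩, 0⟩ 0 0)) (.pos 111 .pm ⟨0, 0, 11314693649, 0, 0, 0, 0, 0, 0, ⟨0, 0⟩, 0⟩ 0 0)) (.pos 109 .pm ⟨0, 0, 20541053454, 0, 0, 0, 0, 0, 0, ⟨0, 0⟩, 0⟩ 0 0)) (.pos 99 .pm ⟨0, 0, 38715058541, 0, 0, 0, 0, 0, 0, ⟨0, 0⟩, 0⟩ 0 0)) (.pos 66 .pm ⟨0, 0, 71007025279, 0, 0, 0, 0, 0, 0, ⟨0, 0⟩, 0⟩ 0 0)) (.pos 5 .pm ⟨0, 0, 122189864661, 0, 0, 0, 0, 0, 0, ⟨0, 0⟩, 0⟩ 0 0)) (.pos 3 .pm ⟨0, 0, 99010754541, 0, 0, 0, 0, 0, 0, ⟨0, 0⟩, 0⟩ 0 0)) (.cut .v 4294967296 (.cut .v 268435456 (.cut .v 67108864 (.cut .s 16750592 (.pos 44 .pp ⟨167772160000, 0, 0, 0, 0, 0, 0, 0, 0, ⟨0, 0⟩, 0⟩ 0 0) (.cut .s 16753664 (.pos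 44 .pp ⟨167772160000, 0, 0, 0, 0, 0, 0, 0, 0, ⟨0, 0⟩, 0⟩ 0 0) (.cut .d 16417 (.cut .d 8208 (.cut .d 4104 (.cut .d 2052 (.cut .v 33554432 (.pos 16 .pp ⟨0, 0, 0, 0, 0, 0, 0, 0, 0, ⟨0, 0⟩, 0⟩ 0 0) (.void 45 ⟨100000, 0, 0, 0, 0, 0, 0, 0, 0, ⟨0, 0⟩, 0⟩ 0 0)) (.pos 44 .pp ⟨167772160000, 0, 0, 0, 0, 0, 0, 0, 0, ⟨0, 0⟩, 0⟩ 0 0)) (.pos 44 .pp ⟨0, 0, 0, 0, 0, 0, 0, 0, 0, ⟨0, 0⟩, 0⟩ 0 0)) (.pos 44 .pp ⟨0, 0, 0, 0, 0, 0, 0, 0, 0, ⟨0, 0⟩, 0⟩ 0 0)) (.pos 44 .pp ⟨0, 0, 0, 0, 0, 0, 0, 0, 0, ⟨0, 0⟩, 0⟩ 0 0)))) (.void 60 ⟨83337, 0, 0, 16663, 0, 0, 0, 0, 0, ⟨0, 0⟩, 0⟩ 0 0)) (.void 83 ⟨0, 0, 0, 100000, 0, 0, 0, 0, 0, ⟨0, 0⟩, 0⟩ 0 0)) (.void 116 ⟨0, 0, 0, 100000, 0, 0, 0, 0, 0, ⟨0,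 0⟩, 0⟩ 0 0)))),
    by decide +kernel⟩

def covers43 : cell.Covers table row43.1 :=
  ⟨(.cut .d 0 (.cut .v 16777216 (.cut .d (-8388608) (.void 1 ⟨0, 0, 0, 0, 0, 100000, 0, 0, 0, ⟨0, 0⟩, 0⟩ 0 0) (.cut .d (-4194304) (.void 1 ⟨0, 0, 0, 0, 0, 100000, 0, 0, 0, ⟨0, 0⟩, 0⟩ 0 0) (.cut .d (-2097152) (.void 1 ⟨0, 0, 0, 0, 0, 100000, 0, 0, 0, ⟨0, 0⟩, 0⟩ 0 0) (.cut .d (-1048576) (.void 1 ⟨0, 0, 0, 0, 0, 100000, 0, 0, 0, ⟨0, 0⟩, 0⟩ 0 0) (.cut .d (-524288) (.void 1 ⟨0, 0, 0, 0, 0, 100000, 0, 0, 0, ⟨0, 0⟩, 0⟩ 0 0) (.cut .d (-262144) (.void 1 ⟨0, 0, 182, 635, 0, 99220, 0, 0, 0, ⟨0, 0⟩, 0⟩ 0 0) (.cut .d (-131072) (.void 1 ⟨0, 0, 0, 0, 0, 100000, 0, 0, 0, ⟨0, 0⟩, 0⟩ 0 0) (.cut .v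 8388608 (.cut .v 4194304 (.void 4 ⟨0, 0, 100000, 0, 0, 0, 0, 0, 0, ⟨0, 0⟩, 0⟩ 0 0) (.void 5 ⟨0, 0, 100151, 0, 0, 0, 0, 0, 0, ⟨0, 0⟩, 0⟩ 0 0)) (.cut .d (-65536) (.void 3 ⟨100000, 0, 0, 0, 0, 0, 0, 0, 0, ⟨0, 0⟩, 0⟩ 0 0) (.cut .d (-32768) (.void 3 ⟨100000, 0, 0, 0, 0, 0, 0, 0, 0, ⟨0, 0⟩, 0⟩ 0 0) (.cut .d (-16384) (.void 3 ⟨100000, 0, 0, 0, 0, 0, 0, 0, 0, ⟨0, 0⟩, 0⟩ 0 0) (.cut .d (-8192) (.void 3 ⟨69712, 0, 30288, 0, 0, 0, 0, 0, 0, ⟨0, 0⟩, 0⟩ 0 0) (.pos 3 .mm ⟨113950750160, 0, 53821409840, 0, 0, 0, 0, 0, 0, ⟨0, 0⟩, 0⟩ 0 0))))))))))))) (.cut .d (-8388608) (.void 115 ⟨100000, 0, 0, 0, 0, 0, 0, 0, 0, ⟨0, 0⟩, 0⟩ 0 0) (.cut .v 4294967296 (.cut .v 268435456 (.cut .v 67108864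 (.cut .d (-4194304) (.void 44 ⟨100000, 0, 0, 0, 0, 0, 0, 0, 0, ⟨0, 0⟩, 0⟩ 0 0) (.cut .d (-2097152) (.void 44 ⟨100000, 0, 0, 0, 0, 0, 0, 0, 0, ⟨0, 0⟩, 0⟩ 0 0) (.cut .d (-1048576) (.void 44 ⟨100000, 0, 0, 0, 0, 0, 0, 0, 0, ⟨0, 0⟩, 0⟩ 0 0) (.cut .d (-524288) (.void 44 ⟨100000, 0, 0, 0, 0, 0, 0, 0, 0, ⟨0, 0⟩, 0⟩ 0 0) (.cut .v 33554432 (.cut .d (-262144) (.void 16 ⟨100000, 0, 0, 0, 0, 0, 0, 0, 0, ⟨0, 0⟩, 0⟩ 0 0) (.cut .d (-131072) (.void 16 ⟨100000, 0, 0, 0, 0, 0, 0, 0, 0, ⟨0, 0⟩, 0⟩ 0 0) (.cut .d (-65536) (.void 16 ⟨100000, 0, 0, 0, 0, 0, 0, 0, 0, ⟨0, 0⟩, 0⟩ 0 0) (.cut .d (-32768) (.void 16 ⟨100000, 0, 0, 0, 0, 0, 0, 0, 0, ⟨0, 0⟩, 0⟩ 0 0) (.cut .d (-16384) (.void 16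 ⟨100000, 0, 0, 0, 0, 0, 0, 0, 0, ⟨0, 0⟩, 0⟩ 0 0) (.cut .d (-8192) (.void 16 ⟨100000, 0, 0, 0, 0, 0, 0, 0, 0, ⟨0, 0⟩, 0⟩ 0 0) (.cut .d (-4096) (.void 16 ⟨100000, 0, 0, 0, 0, 0, 0, 0, 0, ⟨0, 0⟩, 0⟩ 0 0) (.pos 16 .mp ⟨167772160000, 0, 0, 0, 0, 0, 0, 0, 0, ⟨0, 0⟩, 0⟩ 0 0)))))))) (.void 45 ⟨100000, 0, 0, 0, 0, 0, 0, 0, 0, ⟨0, 0⟩, 0⟩ 0 0)))))) (.void 60 ⟨100000, 0, 0, 0, 0, 0, 0, 0, 0, ⟨0, 0⟩, 0⟩ 0 0)) (.void 83 ⟨86965, 0, 0, 13035, 0, 0, 0, 0, 0, ⟨0, 0⟩, 0⟩ 0 0)) (.void 116 ⟨86965, 0, 0, 13035, 0, 0, 0, 0, 0, ⟨0, 0⟩, 0⟩ 0 0)))) (.cut .v 16777216 (.cut .v 8388608 (.cut .v 4194304 (.cut .v 2097152 (.cut .v 1048576 (.cut .v 524288 (.cut .v 262144 (.cut .v 131072 (.cut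 .v 65536 (.cut .v 32768 (.cut .v 16384 (.cut .v 8192 (.cut .v 4096 (.cut .v 2048 (.pos 127 .pm ⟨0, 0, 81040495, 0, 0, 0, 0, 0, 0, ⟨0, 0⟩, 0⟩ 0 0) (.pos 128 .pm ⟨0, 0, 211915206, 0, 0, 0, 0, 0, 0, ⟨0, 0⟩, 0⟩ 0 0)) (.pos 126 .pm ⟨0, 0, 385790347, 0, 0, 0, 0, 0, 0, ⟨0, 0⟩, 0⟩ 0 0)) (.pos 124 .pm ⟨0, 0, 712795917, 0, 0, 0, 0, 0, 0, ⟨0, 0⟩, 0⟩ 0 0)) (.pos 122 .pm ⟨0, 0, 1322009221, 0, 0, 0, 0, 0, 0, ⟨0, 0⟩, 0⟩ 0 0)) (.pos 120 .pm ⟨0, 0, 2444390494, 0, 0, 0, 0, 0, 0, ⟨0, 0⟩, 0⟩ 0 0)) (.pos 118 .pm ⟨0, 0, 4485785543, 0, 0, 0, 0, 0, 0, ⟨0, 0⟩, 0⟩ 0 0)) (.pos 113 .pm ⟨0, 0, 8147346672, 0, 0, 0, 0, 0, 0, ⟨0, 0⟩, 0⟩ 0 0)) (.pos 111 .pm ⟨0, 0, 14633192614, 0, 0, 0, 0, 0, 0,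 ⟨0, 0⟩, 0⟩ 0 0)) (.pos 109 .pm ⟨0, 0, 27134173885, 0, 0, 0, 0, 0, 0, ⟨0, 0⟩, 0⟩ 0 0)) (.pos 99 .pm ⟨0, 0, 52674117873, 0, 0, 0, 0, 0, 0, ⟨0, 0⟩, 0⟩ 0 0)) (.pos 66 .pm ⟨0, 0, 105154390517, 0, 0, 0, 0, 0, 0, ⟨0, 0⟩, 0⟩ 0 0)) (.pos 5 .pm ⟨0, 0, 167772160000, 0, 0, 0, 0, 0, 0, ⟨0, 0⟩, 0⟩ 0 0)) (.pos 3 .pm ⟨0, 0, 167772160000, 0, 0, 0, 0, 0, 0, ⟨0, 0⟩, 0⟩ 0 0)) (.cut .v 4294967296 (.cut .v 268435456 (.cut .v 67108864 (.cut .s 16760832 (.cut .s 16758784 (.cut .s 16757760 (.cut .s 16757248 (.cut .s 16756992 (.cut .s 16756864 (.cut .d 10254 (.cut .d 5127 (.cut .d 2563 (.cut .v 33554432 (.pos 16 .pp ⟨0, 0, 0, 0, 0, 0, 0, 0, 0, ⟨0, 0⟩, 0⟩ 0 0) (.void 45 ⟨100000, 0, 0, 0,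 0, 0, 0, 0, 0, ⟨0, 0⟩, 0⟩ 0 0)) (.pos 44 .pp ⟨167772160000, 0, 0, 0, 0, 0, 0, 0, 0, ⟨0, 0⟩, 0⟩ 0 0)) (.pos 44 .pp ⟨0, 0, 0, 0, 0, 0, 0, 0, 0, ⟨0, 0⟩, 0⟩ 0 0)) (.pos 44 .pp ⟨0, 0, 0, 0, 0, 0, 0, 0, 0, ⟨0, 0⟩, 0⟩ 0 0)) (.pos 44 .pp ⟨167772160000, 0, 0, 0, 0, 0, 0, 0, 0, ⟨0, 0⟩, 0⟩ 0 0)) (.pos 44 .pp ⟨167772160000, 0, 0, 0, 0, 0, 0, 0, 0, ⟨0, 0⟩, 0⟩ 0 0)) (.pos 44 .pp ⟨167772160000, 0, 0, 0, 0, 0, 0, 0, 0, ⟨0, 0⟩, 0⟩ 0 0)) (.pos 44 .pp ⟨167772160000, 0, 0, 0, 0, 0, 0, 0, 0, ⟨0, 0⟩, 0⟩ 0 0)) (.pos 44 .pp ⟨0, 0, 0, 0, 0, 0, 0, 0, 0, ⟨0, 0⟩, 0⟩ 0 0)) (.pos 44 .pp ⟨0, 0, 0, 0, 0, 0, 0, 0, 0, ⟨0, 0⟩, 0⟩ 0 0)) (.void 60 ⟨83335, 0, 0, 16665, 0, 0, 0, 0, 0, ⟨0, 0⟩, 0⟩ 0 0))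 (.void 83 ⟨83335, 0, 0, 16665, 0, 0, 0, 0, 0, ⟨0, 0⟩, 0⟩ 0 0)) (.void 116 ⟨83335, 0, 0, 16665, 0, 0, 0, 0, 0, ⟨0, 0⟩, 0⟩ 0 0)))),
    by decide +kernel⟩

def covers44 : cell.Covers table row44.1 :=
  ⟨(.cut .d 0 (.cut .v 16777216 (.cut .d (-8388608) (.void 1 ⟨0, 0, 0, 0, 0, 100000, 0, 0, 0, ⟨0, 0⟩, 0⟩ 0 0) (.cut .d (-4194304) (.void 1 ⟨0, 0, 0, 0, 0, 100000, 0, 0, 0, ⟨0, 0⟩, 0⟩ 0 0) (.cut .d (-2097152) (.void 1 ⟨0, 0, 0, 0, 0, 100000, 0, 0, 0, ⟨0, 0⟩, 0⟩ 0 0) (.cut .d (-1048576) (.void 1 ⟨0, 0, 0, 0, 0, 100000, 0, 0, 0, ⟨0, 0⟩, 0⟩ 0 0) (.cut .d (-524288) (.void 1 ⟨0, 0, 0, 0, 0, 100000, 0, 0, 0, ⟨0, 0⟩, 0⟩ 0 0) (.cut .d (-262144) (.void 1 ⟨0, 0, 0, 0, 0, 100000,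 0, 0, 0, ⟨0, 0⟩, 0⟩ 0 0) (.cut .d (-131072) (.void 1 ⟨0, 0, 0, 0, 0, 100000, 0, 0, 0, ⟨0, 0⟩, 0⟩ 0 0) (.cut .d (-65536) (.void 1 ⟨0, 0, 0, 0, 0, 100000, 0, 0, 0, ⟨0, 0⟩, 0⟩ 0 0) (.cut .v 8388608 (.void 2 ⟨0, 0, 100000, 0, 0, 0, 0, 0, 0, ⟨0, 0⟩, 0⟩ 0 0) (.cut .d (-32768) (.void 3 ⟨100000, 0, 0, 0, 0, 0, 0, 0, 0, ⟨0, 0⟩, 0⟩ 0 0) (.cut .d (-16384) (.void 3 ⟨100000, 0, 0, 0, 0, 0, 0, 0, 0, ⟨0, 0⟩, 0⟩ 0 0) (.cut .d (-8192) (.void 3 ⟨100000, 0, 0, 0, 0, 0, 0, 0, 0, ⟨0, 0⟩, 0⟩ 0 0) (.pos 3 .mm ⟨167772160000, 0, 0, 0, 0, 0, 0, 0, 0, ⟨0, 0⟩, 0⟩ 0 0))))))))))))) (.cut .v 4294967296 (.cut .d (-8388608) (.void 82 ⟨100000, 0, 0, 0, 0, 0, 0, 0, 0, ⟨0, 0⟩, 0⟩ 0 0) (.cut .v 268435456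 (.cut .d (-4194304) (.void 59 ⟨100000, 0, 0, 0, 0, 0, 0, 0, 0, ⟨0, 0⟩, 0⟩ 0 0) (.cut .v 67108864 (.cut .d (-2097152) (.void 44 ⟨100000, 0, 0, 0, 0, 0, 0, 0, 0, ⟨0, 0⟩, 0⟩ 0 0) (.cut .d (-1048576) (.void 44 ⟨100000, 0, 0, 0, 0, 0, 0, 0, 0, ⟨0, 0⟩, 0⟩ 0 0) (.cut .d (-524288) (.void 44 ⟨100000, 0, 0, 0, 0, 0, 0, 0, 0, ⟨0, 0⟩, 0⟩ 0 0) (.cut .d (-262144) (.void 44 ⟨100000, 0, 0, 0, 0, 0, 0, 0, 0, ⟨0, 0⟩, 0⟩ 0 0) (.cut .v 33554432 (.cut .d (-131072) (.void 16 ⟨100000, 0, 0, 0, 0, 0, 0, 0, 0, ⟨0, 0⟩, 0⟩ 0 0) (.cut .d (-65536) (.void 16 ⟨100000, 0, 0, 0, 0, 0, 0, 0, 0, ⟨0, 0⟩, 0⟩ 0 0) (.cut .d (-32768) (.void 16 ⟨100000, 0, 0, 0, 0, 0, 0, 0, 0, ⟨0, 0⟩, 0⟩ 0 0) (.cut .d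 (-16384) (.void 16 ⟨100000, 0, 0, 0, 0, 0, 0, 0, 0, ⟨0, 0⟩, 0⟩ 0 0) (.cut .d (-8192) (.void 16 ⟨100000, 0, 0, 0, 0, 0, 0, 0, 0, ⟨0, 0⟩, 0⟩ 0 0) (.pos 16 .mp ⟨167772160000, 0, 0, 0, 0, 0, 0, 0, 0, ⟨0, 0⟩, 0⟩ 0 0)))))) (.void 45 ⟨100000, 0, 0, 0, 0, 0, 0, 0, 0, ⟨0, 0⟩, 0⟩ 0 0)))))) (.void 60 ⟨100000, 0, 0, 0, 0, 0, 0, 0, 0, ⟨0, 0⟩, 0⟩ 0 0))) (.void 83 ⟨86962, 0, 0, 13038, 0, 0, 0, 0, 0, ⟨0, 0⟩, 0⟩ 0 0))) (.void 116 ⟨90913, 0, 0, 9087, 0, 0, 0, 0, 0, ⟨0, 0⟩, 0⟩ 0 0))) (.cut .v 16777216 (.cut .v 8388608 (.cut .v 4194304 (.cut .v 2097152 (.cut .v 1048576 (.cut .v 524288 (.cut .v 262144 (.cut .v 131072 (.cut .v 65536 (.cut .v 32768 (.cut .v 16384 (.cut .v 8192 (.cut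 .d 6150 (.pos 123 .pm ⟨0, 0, 167772160000, 0, 0, 0, 0, 0, 0, ⟨0, 0⟩, 0⟩ 0 0) (.cut .v 4096 (.pos 125 .pm ⟨0, 0, 107941834, 0, 0, 0, 0, 0, 0, ⟨0, 0⟩, 0⟩ 0 0) (.pos 126 .pm ⟨0, 0, 499068030, 0, 0, 0, 0, 0, 0, ⟨0, 0⟩, 0⟩ 0 0))) (.pos 124 .pm ⟨0, 0, 1337209854, 0, 0, 0, 0, 0, 0, ⟨0, 0⟩, 0⟩ 0 0)) (.pos 122 .pm ⟨0, 0, 2577554938, 0, 0, 0, 0, 0, 0, ⟨0, 0⟩, 0⟩ 0 0)) (.pos 120 .pm ⟨0, 0, 4994134222, 0, 0, 0, 0, 0, 0, ⟨0, 0⟩, 0⟩ 0 0)) (.pos 118 .pm ⟨0, 0, 9682602090, 0, 0, 0, 0, 0, 0, ⟨0, 0⟩, 0⟩ 0 0)) (.pos 113 .pm ⟨0, 0, 18725488679, 0, 0, 0, 0, 0, 0, ⟨0, 0⟩, 0⟩ 0 0)) (.pos 111 .pm ⟨0, 0, 36013656560, 0, 0, 0, 0, 0, 0, ⟨0, 0⟩, 0⟩ 0 0)) (.pos 109 .pm ⟨0, 0, 68599732531,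 0, 0, 0, 0, 0, 0, ⟨0, 0⟩, 0⟩ 0 0)) (.pos 99 .pm ⟨0, 0, 128567901160, 0, 0, 0, 0, 0, 0, ⟨0, 0⟩, 0⟩ 0 0)) (.pos 66 .pm ⟨0, 0, 167772160000, 0, 0, 0, 0, 0, 0, ⟨0, 0⟩, 0⟩ 0 0)) (.pos 5 .pm ⟨0, 0, 167772160000, 0, 0, 0, 0, 0, 0, ⟨0, 0⟩, 0⟩ 0 0)) (.pos 3 .pm ⟨0, 0, 167772160000, 0, 0, 0, 0, 0, 0, ⟨0, 0⟩, 0⟩ 0 0)) (.cut .v 4294967296 (.cut .v 268435456 (.cut .v 67108864 (.pos 44 .pp ⟨0, 0, 0, 0, 0, 0, 0, 0, 0, ⟨0, 0⟩, 0⟩ 0 0) (.void 60 ⟨83335, 0, 0, 16665, 0, 0, 0, 0, 0, ⟨0, 0⟩, 0⟩ 0 0)) (.void 83 ⟨0, 0, 0, 100000, 0, 0, 0, 0, 0, ⟨0, 0⟩, 0⟩ 0 0)) (.void 116 ⟨0, 0, 0, 100000, 0, 0, 0, 0, 0, ⟨0, 0⟩, 0⟩ 0 0)))),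
    by decide +kernel⟩

def covers45 : cell.Covers table row45.1 :=
  ⟨(.cut .d 0 (.cut .v 16777216 (.cut .d (-8388608) (.void 1 ⟨0, 0, 0, 0, 0, 100000, 0, 0, 0, ⟨0, 0⟩, 0⟩ 0 0) (.cut .d (-4194304) (.void 1 ⟨0, 0, 0, 0, 0, 101601, 0, 0, 0, ⟨0, 0⟩, 0⟩ 0 0) (.cut .d (-2097152) (.void 1 ⟨0, 0, 0, 0, 0, 100000, 0, 0, 0, ⟨0, 0⟩, 0⟩ 0 0) (.cut .d (-1048576) (.void 1 ⟨0, 0, 0, 0, 0, 100000, 0, 0, 0, ⟨0, 0⟩, 0⟩ 0 0) (.cut .d (-524288) (.void 1 ⟨0, 0, 0, 0, 0, 100000, 0, 0, 0, ⟨0, 0⟩, 0⟩ 0 0) (.cut .d (-262144) (.void 1 ⟨0, 0, 0, 0, 0, 100000, 0, 0, 0, ⟨0, 0⟩, 0⟩ 0 0) (.cut .d (-131072) (.void 1 ⟨0, 0, 0, 0, 0, 100000, 0, 0, 0, ⟨0, 0⟩, 0⟩ 0 0) (.cut .d (-65536) (.void 1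 ⟨0, 0, 0, 0, 0, 100000, 0, 0, 0, ⟨0, 0⟩, 0⟩ 0 0) (.cut .d (-32768) (.void 1 ⟨0, 0, 375, 0, 0, 99625, 0, 0, 0, ⟨0, 0⟩, 0⟩ 0 0) (.cut .d (-16384) (.void 1 ⟨0, 0, 0, 0, 0, 100000, 0, 0, 0, ⟨0, 0⟩, 0⟩ 0 0) (.cut .d (-8192) (.void 1 ⟨0, 0, 0, 0, 0, 100000, 0, 0, 0, ⟨0, 0⟩, 0⟩ 0 0) (.cut .v 8388608 (.void 2 ⟨0, 0, 100000, 0, 0, 0, 0, 0, 0, ⟨0, 0⟩, 0⟩ 0 0) (.cut .d (-4096) (.void 3 ⟨100000, 0, 0, 0, 0, 0, 0, 0, 0, ⟨0, 0⟩, 0⟩ 0 0) (.cut .d (-2048) (.void 3 ⟨0, 0, 0, 0, 0, 100000, 0, 0, 0, ⟨0, 0⟩, 0⟩ 0 0) (.pos 3 .mm ⟨167772160000, 0, 0, 0, 0, 0, 0, 0, 0, ⟨0, 0⟩, 0⟩ 0 0))))))))))))))) (.cut .v 4294967296 (.cut .d (-8388608) (.void 82 ⟨100000, 0, 0, 0, 0, 0, 0, 0, 0, ⟨0,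 0⟩, 0⟩ 0 0) (.cut .v 268435456 (.cut .v 67108864 (.cut .d (-4194304) (.void 44 ⟨100000, 0, 0, 0, 0, 0, 0, 0, 0, ⟨0, 0⟩, 0⟩ 0 0) (.cut .d (-2097152) (.void 44 ⟨100000, 0, 0, 0, 0, 0, 0, 0, 0, ⟨0, 0⟩, 0⟩ 0 0) (.cut .d (-1048576) (.void 44 ⟨100000, 0, 0, 0, 0, 0, 0, 0, 0, ⟨0, 0⟩, 0⟩ 0 0) (.cut .d (-524288) (.void 44 ⟨100000, 0, 0, 0, 0, 0, 0, 0, 0, ⟨0, 0⟩, 0⟩ 0 0) (.cut .d (-262144) (.void 44 ⟨100000, 0, 0, 0, 0, 0, 0, 0, 0, ⟨0, 0⟩, 0⟩ 0 0) (.cut .d (-131072) (.void 44 ⟨100000, 0, 0, 0, 0, 0, 0, 0, 0, ⟨0, 0⟩, 0⟩ 0 0) (.cut .v 33554432 (.cut .d (-65536) (.void 16 ⟨100000, 0, 0, 0, 0, 0, 0, 0, 0, ⟨0, 0⟩, 0⟩ 0 0) (.cut .d (-32768) (.void 16 ⟨100000, 0, 0, 0, 0, 0, 0,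 0, 0, ⟨0, 0⟩, 0⟩ 0 0) (.cut .d (-16384) (.void 16 ⟨100000, 0, 0, 0, 0, 0, 0, 0, 0, ⟨0, 0⟩, 0⟩ 0 0) (.cut .d (-8192) (.void 16 ⟨100000, 0, 0, 0, 0, 0, 0, 0, 0, ⟨0, 0⟩, 0⟩ 0 0) (.cut .d (-4096) (.void 16 ⟨100000, 0, 0, 0, 0, 0, 0, 0, 0, ⟨0, 0⟩, 0⟩ 0 0) (.cut .d (-2048) (.void 16 ⟨100000, 0, 0, 0, 0, 0, 0, 0, 0, ⟨0, 0⟩, 0⟩ 0 0) (.pos 16 .mp ⟨167772160000, 0, 0, 0, 0, 0, 0, 0, 0, ⟨0, 0⟩, 0⟩ 0 0))))))) (.void 45 ⟨100000, 0, 0, 0, 0, 0, 0, 0, 0, ⟨0, 0⟩, 0⟩ 0 0)))))))) (.void 60 ⟨100000, 0, 0, 0, 0, 0, 0, 0, 0, ⟨0, 0⟩, 0⟩ 0 0)) (.void 83 ⟨86961, 0, 0, 13039, 0, 0, 0, 0, 0, ⟨0, 0⟩, 0⟩ 0 0))) (.void 116 ⟨90912, 0, 0, 9088, 0, 0, 0, 0, 0, ⟨0, 0⟩, 0⟩ 0 0))) (.cut .v 16777216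 (.cut .v 8388608 (.cut .v 4194304 (.cut .v 2097152 (.cut .v 1048576 (.cut .v 524288 (.cut .v 262144 (.cut .v 131072 (.cut .v 65536 (.cut .v 32768 (.cut .v 16384 (.cut .v 8192 (.cut .v 4096 (.cut .v 2048 (.cut .v 1024 (.cut .d 4099 (.pos 129 .pm ⟨0, 0, 312936628, 0, 0, 0, 0, 0, 0, ⟨0, 0⟩, 0⟩ 0 0) (.pos 129 .pm ⟨0, 0, 58577237, 0, 0, 0, 0, 0, 0, ⟨0, 0⟩, 0⟩ 0 0)) (.pos 130 .pm ⟨0, 0, 581511055, 0, 0, 0, 0, 0, 0, ⟨0, 0⟩, 0⟩ 0 0)) (.pos 128 .pm ⟨0, 0, 1054742641, 0, 0, 0, 0, 0, 0, ⟨0, 0⟩, 0⟩ 0 0)) (.pos 126 .pm ⟨0, 0, 1916126679, 0, 0, 0, 0, 0, 0, ⟨0, 0⟩, 0⟩ 0 0)) (.pos 124 .pm ⟨0, 0, 3453712764, 0, 0, 0, 0, 0, 0, ⟨0, 0⟩, 0⟩ 0 0)) (.pos 122 .pm ⟨0, 0, 6258646588, 0,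 0, 0, 0, 0, 0, ⟨0, 0⟩, 0⟩ 0 0)) (.pos 120 .pm ⟨0, 0, 11913754420, 0, 0, 0, 0, 0, 0, ⟨0, 0⟩, 0⟩ 0 0)) (.pos 118 .pm ⟨0, 0, 23209493401, 0, 0, 0, 0, 0, 0, ⟨0, 0⟩, 0⟩ 0 0)) (.pos 113 .pm ⟨0, 0, 45075009619, 0, 0, 0, 0, 0, 0, ⟨0, 0⟩, 0⟩ 0 0)) (.pos 111 .pm ⟨0, 0, 87114912706, 0, 0, 0, 0, 0, 0, ⟨0, 0⟩, 0⟩ 0 0)) (.pos 109 .pm ⟨0, 0, 167108745801, 0, 0, 0, 0, 0, 0, ⟨0, 0⟩, 0⟩ 0 0)) (.pos 99 .pm ⟨0, 0, 167772160000, 0, 0, 0, 0, 0, 0, ⟨0, 0⟩, 0⟩ 0 0)) (.pos 66 .pm ⟨0, 0, 167772160000, 0, 0, 0, 0, 0, 0, ⟨0, 0⟩, 0⟩ 0 0)) (.pos 5 .pm ⟨0, 0, 167772160000, 0, 0, 0, 0, 0, 0, ⟨0, 0⟩, 0⟩ 0 0)) (.pos 3 .pm ⟨0, 0, 167772160000, 0, 0, 0, 0, 0, 0, ⟨0, 0⟩, 0⟩ 0 0)) (.cut .v 4294967296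 (.cut .v 268435456 (.cut .v 67108864 (.pos 44 .pp ⟨0, 0, 0, 0, 0, 0, 0, 0, 0, ⟨0, 0⟩, 0⟩ 0 0) (.void 60 ⟨83333, 0, 0, 16667, 0, 0, 0, 0, 0, ⟨0, 0⟩, 0⟩ 0 0)) (.cut .s 16771072 (.void 83 ⟨0, 0, 0, 1000000000, 0, 0, 0, 0, 0, ⟨0, 0⟩, 0⟩ 0 0) (.void 83 ⟨0, 0, 0, 100000, 0, 0, 0, 0, 0, ⟨0, 0⟩, 0⟩ 0 0))) (.void 116 ⟨0, 0, 52253, 48398, 0, 0, 0, 0, 0, ⟨0, 0⟩, 0⟩ 0 0)))),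
    by decide +kernel⟩

end Vale.Agent.P237.Petty.Cor.Grid.N9.Low
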